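import Claimed.Agent.R252.State.KsState

/-!
# ROW 252 (S0492), unit STATE (helper31), file 4: THE STATE CALCULUS FOR COUNTABLE LABELS, and TIME SLICES.        CONTRACT file: the `sorry`s are the leaves L-252-KSC-*.

The labels of `Base/Pb` (`hid`, `vel`, `hv`) and the point states `R.pt M r` of `KsCore` take values in `ℤ`-cells.  All rules of `KsState.lean` hold verbatim for `[Countable S]`, with `∑'` in place of `∑`
(in `ℝ≥0∞` every `tsum` exists; for a `Fintype` use `tsum_fintype`).  Same definitions (`KsLab KsDom KsCond ksKeep ksPrune KsOpt ksApp`).  The proofs are the proofs of `KsState.lean` with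
`measure_iUnion`/`ENNReal.tsum_le_tsum`/`ENNReal.tsum_mul_left` in place of the finite lemmas.

Part 2: `a03:time-slice` (04 l.990-1030), for selections `E ⊆ L × ℝ` (`G = 1_E`), dyadic intervals given as arbitrary measurable sets `I` of finite length.
-/

set_option autoImplicit false

namespace Claimed.Agent.R252

open MeasureTheory
open scoped ENNReal BigOperators

noncomputable section

variable {Ω : Type*} [MeasurableSpace Ω] {S D S' ι : Type*}

/-! ## 1. Countable labels -/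

/-- **L-252-KSC-1** -/
theorem ksc_lab_preimage [Countable S] {s : Ω → S} (hs : KsLab s) (A : Set S) : MeasurableSet (s ⁻¹' A) := by
  have : s ⁻¹' A = ⋃ s0 ∈ A, s ⁻¹' {s0} := by
    ext ω
    simp
  rw [this]
  exact MeasurableSet.biUnion (Set.to_countable _) fun s0 _ => hs s0

theorem ksc_lab_comp [Countable S] {s : Ω → S} (hs : KsLab s) (C : S → S') : KsLab (C ∘ s) := by
  intro c
  have : (C ∘ s) ⁻¹' {c} = s ⁻¹' (C ⁻¹' {c}) := rfl
  rw [this]
  exact ksc_lab_preimage hs _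

theorem ksc_mass_preimage [Countable S] (μ : Measure Ω) {s : Ω → S} (hs : KsLab s) (A : Set S) : μ (s ⁻¹' A) = ∑' s0 : A, ksMass μ s s0 := by
  have e : s ⁻¹' A = ⋃ s0 ∈ A, s ⁻¹' {s0} := by
    ext ω
    simp
  rw [e, measure_biUnion (Set.to_countable _)]
  · rfl
  · intro x _ y _ hxy
    exact Set.disjoint_left.2 fun ω hx hy => hxy (by
      have h1 : s ω = x := hx
      have h2 : s ω = y := hy
      rw [← h1, ← h2])
  · exact fun s0 _ => hs s0

theorem ksc_mass_sum [Countable S] (μ : Measure Ω) {s : Ω → S} (hs : KsLab s) : ∑' s0, ksMass μ s s0 = μ Set.univ := by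
  have h := ksc_mass_preimage μ hs Set.univ
  rw [Set.preimage_univ] at h
  rw [h]
  exact (tsum_univ (ksMass μ s)).symm

/-- **L-252-KSC-2** whole states are kept / deleted -/
theorem ksc_prune_mass_keep [Countable S] (μ : Measure Ω) {s : Ω → S} (hs : KsLab s) (Ref : S → ℝ≥0∞) (K1 : ℝ≥0∞) (s0 : S) (h : s0 ∈ ksKeep μ s Ref K1) (A : Set Ω) :
    ksPrune μ s Ref K1 (s ⁻¹' {s0} ∩ A) = μ (s ⁻¹' {s0} ∩ A) := by
  unfold ksPrune
  rw [Measure.restrict_apply' (ksc_lab_preimage hs _)]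
  congr 1
  apply Set.inter_eq_left.2
  intro ω hω
  have h1 : s ω = s0 := hω.1
  show s ω ∈ ksKeep μ s Ref K1
  rw [h1]
  exact h

theorem ksc_prune_mass_del [Countable S] (μ : Measure Ω) {s : Ω → S} (hs : KsLab s) (Ref : S → ℝ≥0∞) (K1 : ℝ≥0∞) (s0 : S) (h : s0 ∉ ksKeep μ s Ref K1) (A : Set Ω) :
    ksPrune μ s Ref K1 (s ⁻¹' {s0} ∩ A) = 0 := by
  unfold ksPrune
  rw [Measure.restrict_apply' (ksc_lab_preimage hs _)]
  have e : s ⁻¹' {s0} ∩ A ∩ s ⁻¹' ksKeep μ s Ref K1 = ∅ := by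
    apply Set.eq_empty_of_forall_notMem
    intro ω hω
    have h1 : s ω = s0 := hω.1.1
    have h2 : s ω ∈ ksKeep μ s Ref K1 := hω.2
    rw [h1] at h2
    exact h h2
  rw [e, measure_empty]

/-- **L-252-KSC-3** R4 -/
theorem ksc_prune_loss [Countable S] (μ : Measure Ω) {s : Ω → S} (hs : KsLab s) (Ref : S → ℝ≥0∞) (K2 : ℝ≥0∞) :
    K2 * μ (s ⁻¹' (ksKeep μ s Ref K2)ᶜ) ≤ ∑' s0, Ref s0 := by
  rw [ksc_mass_preimage μ hs, ← ENNReal.tsum_mul_left]
  refine le_trans (ENNReal.tsum_le_tsum fun s0 => ?_) (ENNReal.tsum_comp_le_tsum_of_injective Subtype.val_injective Ref)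
  have h1 : (s0 : S) ∉ ksKeep μ s Ref K2 := s0.2
  have h2 : ¬ (Ref s0 ≤ K2 * ksMass μ s s0) := h1
  exact (not_le.1 h2).le

theorem ksc_prune_cond [Countable S] {μ : Measure Ω} {s : Ω → S} (hs : KsLab s) {T : ι → Set Ω} {π : S → ι → ℝ≥0∞} {Ref : S → ℝ≥0∞} {K : ℝ≥0∞}
    (h : KsDom μ s T π Ref K) (K2 : ℝ≥0∞) : KsCond (ksPrune μ s Ref K2) s T π (K * K2) := by
  intro s0 i
  by_cases hk : s0 ∈ ksKeep μ s Ref K2
  · rw [ksc_prune_mass_keep μ hs Ref K2 s0 hk]
    have hm : ksMass (ksPrune μ s Ref K2) s s0 = ksMass μ s s0 := by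
      have := ksc_prune_mass_keep μ hs Ref K2 s0 hk Set.univ
      simpa [ksMass] using this
    rw [hm]
    have hk' : Ref s0 ≤ K2 * ksMass μ s s0 := hk
    calc μ (s ⁻¹' {s0} ∩ T i) ≤ K * π s0 i * Ref s0 := h s0 i
      _ ≤ K * π s0 i * (K2 * ksMass μ s s0) := mul_le_mul' le_rfl hk'
      _ = K * K2 * π s0 i * ksMass μ s s0 := by ring
  · rw [ksc_prune_mass_del μ hs Ref K2 s0 hk]
    exact zero_le

/-- **L-252-KSC-4** R2 -/
theorem ksc_app_loss [Countable S] [Countable D] (μ : Measure Ω) {s : Ω → S} {d : Ω → D} (hs : KsLab s) (hd : KsLab d) (Ref : S → ℝ≥0∞) (K1 : ℝ≥0∞) (n : ℕ)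
    (hn : KsOpt μ s d n) :
    K1 * μ (ksPair s d ⁻¹' (ksKeep μ (ksPair s d) (fun x => Ref x.1) K1)ᶜ) ≤ n * ∑' s0, Ref s0 := by
  classical
  choose L hLc hL0 using hn
  rw [ksc_mass_preimage μ (ks_lab_pair hs hd), ← ENNReal.tsum_mul_left]
  have h1 : ∀ x : ((ksKeep μ (ksPair s d) (fun x => Ref x.1) K1)ᶜ : Set (S × D)),
      K1 * ksMass μ (ksPair s d) x ≤ (fun y : S × D => if y.2 ∈ L y.1 then Ref y.1 else 0) x := by
    intro x
    have hx' : ¬ (Ref (x : S × D).1 ≤ K1 * ksMass μ (ksPair s d) x) := x.2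
    show K1 * ksMass μ (ksPair s d) x ≤ if (x : S × D).2 ∈ L (x : S × D).1 then Ref (x : S × D).1 else 0
    split_ifs with hm
    · exact (not_le.1 hx').le
    · have h0 : ksMass μ (ksPair s d) ((x : S × D).1, (x : S × D).2) = 0 := hL0 _ _ hm
      have h0' : ksMass μ (ksPair s d) x = 0 := h0
      rw [h0', mul_zero]
  refine (ENNReal.tsum_le_tsum h1).trans ?_
  refine (ENNReal.tsum_comp_le_tsum_of_injective Subtype.val_injective (fun y : S × D => if y.2 ∈ L y.1 then Ref y.1 else 0)).trans ?_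
  rw [ENNReal.tsum_prod (f := fun s0 d0 => if d0 ∈ L s0 then Ref s0 else 0), ← ENNReal.tsum_mul_left]
  refine ENNReal.tsum_le_tsum fun s0 => ?_
  have h2 : ∑' d0 : D, (if d0 ∈ L s0 then Ref s0 else 0) = (L s0).card * Ref s0 := by
    rw [tsum_eq_sum (s := L s0) (fun d0 hd0 => if_neg hd0), Finset.sum_congr rfl (fun d0 h => if_pos h), Finset.sum_const,
      nsmul_eq_mul]
  rw [h2]
  exact mul_le_mul' (by exact_mod_cast hLc s0) le_rfl

theorem ksc_app_dom [Countable S] [Countable D] {μ : Measure Ω} {s : Ω → S} {d : Ω → D} (hs : KsLab s) (hd : KsLab d) {T : ι → Set Ω} {π : S → ι → ℝ≥0∞}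
    {Ref : S → ℝ≥0∞} {K : ℝ≥0∞} (h : KsDom μ s T π Ref K) (K1 : ℝ≥0∞) :
    KsDom (ksApp μ s d Ref K1) (ksPair s d) T (fun x => π x.1) (ksMass μ (ksPair s d)) (K * K1) := by
  intro x i
  by_cases hx : x ∈ ksKeep μ (ksPair s d) (fun x => Ref x.1) K1
  · have e1 : ksApp μ s d Ref K1 (ksPair s d ⁻¹' {x} ∩ T i) = μ (ksPair s d ⁻¹' {x} ∩ T i) :=
      ksc_prune_mass_keep μ (ks_lab_pair hs hd) (fun x => Ref x.1) K1 x hx (T i)
    rw [e1]
    have hsub : ksPair s d ⁻¹' {x} ∩ T i ⊆ s ⁻¹' {x.1} ∩ T i := by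
      intro ω hω
      refine ⟨?_, hω.2⟩
      have h1 : ksPair s d ω = x := hω.1
      show s ω = x.1
      rw [← h1]
      rfl
    have hx' : Ref x.1 ≤ K1 * ksMass μ (ksPair s d) x := hx
    calc μ (ksPair s d ⁻¹' {x} ∩ T i) ≤ μ (s ⁻¹' {x.1} ∩ T i) := measure_mono hsub
      _ ≤ K * π x.1 i * Ref x.1 := h x.1 i
      _ ≤ K * π x.1 i * (K1 * ksMass μ (ksPair s d) x) := mul_le_mul' le_rfl hx'
      _ = K * K1 * π x.1 i * ksMass μ (ksPair s d) x := by ring
  · have e1 : ksApp μ s d Ref K1 (ksPair s d ⁻¹' {x} ∩ T i) = 0 :=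
      ksc_prune_mass_del μ (ks_lab_pair hs hd) (fun x => Ref x.1) K1 x hx (T i)
    rw [e1]
    exact bot_le

/-- **L-252-KSC-5** R3 -/
theorem ksc_coarsen [Countable S] {μ : Measure Ω} {s : Ω → S} {T : ι → Set Ω} {π : S → ι → ℝ≥0∞} {Ref : S → ℝ≥0∞} {K : ℝ≥0∞}
    (h : KsDom μ s T π Ref K) (C : S → S') (π' : S' → ι → ℝ≥0∞) (hπ : ∀ s0 i, π s0 i ≤ π' (C s0) i) :
    KsDom μ (C ∘ s) T π' (fun c => ∑' s0 : {s0 // C s0 = c}, Ref s0) K := by
  intro c i
  have h1 : (C ∘ s) ⁻¹' {c} ∩ T i = ⋃ s0 : {s0 // C s0 = c}, (s ⁻¹' {(s0 : S)} ∩ T i) := by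
    ext ω
    simp only [Set.mem_inter_iff, Set.mem_preimage, Function.comp_apply, Set.mem_singleton_iff, Set.mem_iUnion]
    constructor
    · rintro ⟨h1, h2⟩
      exact ⟨⟨s ω, h1⟩, rfl, h2⟩
    · rintro ⟨⟨s0, h1⟩, h2, h3⟩
      exact ⟨by rw [h2]; exact h1, h3⟩
  rw [h1]
  refine (measure_iUnion_le _).trans ?_
  rw [← ENNReal.tsum_mul_left]
  refine ENNReal.tsum_le_tsum fun s0 => ?_
  have hc : C s0 = c := s0.2
  have hp : π s0 i ≤ π' c i := by
    have := hπ s0 i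
    rwa [hc] at this
  exact (h s0 i).trans (mul_le_mul' (mul_le_mul' le_rfl hp) le_rfl)

theorem ksc_push_mass [Countable S] (μ : Measure Ω) {s : Ω → S} (hs : KsLab s) (C : S → S') (c : S') : ∑' s0 : {s0 // C s0 = c}, ksMass μ s s0 = ksMass μ (C ∘ s) c := by
  have h1 := ksc_mass_preimage μ hs (C ⁻¹' {c})
  have e : (C ∘ s) ⁻¹' {c} = s ⁻¹' (C ⁻¹' {c}) := rfl
  show _ = μ ((C ∘ s) ⁻¹' {c})
  rw [e, h1]
  rfl

theorem ksc_push_sum [Countable S] [Countable S'] (C : S → S') (Ref : S → ℝ≥0∞) : ∑' c, ∑' s0 : {s0 // C s0 = c}, Ref s0 = ∑' s0, Ref s0 := by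
  rw [← ENNReal.tsum_sigma (fun c (s0 : {s0 // C s0 = c}) => Ref s0)]
  exact (Equiv.sigmaFiberEquiv C).tsum_eq Ref

/-- **the ONE reusable state lemma**, countable labels (proved from the leaves) -/
theorem ksc_step [Countable S] [Countable D] {μ : Measure Ω} {s : Ω → S} {d : Ω → D} (hs : KsLab s) (hd : KsLab d) {T : ι → Set Ω} {π : S → ι → ℝ≥0∞}
    {Ref : S → ℝ≥0∞} {K : ℝ≥0∞} (h : KsDom μ s T π Ref K) (K1 : ℝ≥0∞) (n : ℕ) (hn : KsOpt μ s d n)
    (C : S × D → S') (π' : S' → ι → ℝ≥0∞) (hπ : ∀ x i, π x.1 i ≤ π' (C x) i) :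
    KsDom (ksApp μ s d Ref K1) (C ∘ ksPair s d) T π' (ksMass μ (C ∘ ksPair s d)) (K * K1) ∧
    K1 * μ (ksPair s d ⁻¹' (ksKeep μ (ksPair s d) (fun x => Ref x.1) K1)ᶜ) ≤ n * ∑' s0, Ref s0 := by
  refine ⟨?_, ksc_app_loss μ hs hd Ref K1 n hn⟩
  have h1 := ksc_coarsen (ksc_app_dom hs hd h K1) C π' hπ
  intro c i
  have h2 := h1 c i
  simp only [] at h2
  rwa [ksc_push_mass μ (ks_lab_pair hs hd) C c] at h2

/-- **L-252-KSC-6** R5, the scaled form (a06:summable-pruning) -/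
theorem ksc_prune_half [Countable S] [Countable D] (μ : Measure Ω) [IsFiniteMeasure μ] {s : Ω → S} {d : Ω → D} (hs : KsLab s) (hd : KsLab d) (Ref : S → ℝ≥0∞)
    (K0 K1 K2 M : ℝ≥0∞) (n : ℕ) (hn : KsOpt μ s d n) (hR : ∑' s0, Ref s0 ≤ K0 * M) (hM : M ≤ K2 * μ Set.univ) (hK : 2 * n * K0 * K2 ≤ K1) (hK1 : K1 ≠ ⊤) :
    μ Set.univ ≤ 2 * ksApp μ s d Ref K1 Set.univ := by
  classical
  have hlab := ks_lab_pair hs hd
  have hP : MeasurableSet (ksPair s d ⁻¹' ksKeep μ (ksPair s d) (fun x => Ref x.1) K1) := ksc_lab_preimage hlab _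
  have happ : ksApp μ s d Ref K1 Set.univ = μ (ksPair s d ⁻¹' ksKeep μ (ksPair s d) (fun x => Ref x.1) K1) := by
    unfold ksApp ksPrune
    rw [Measure.restrict_apply_univ]
  have hsplit : μ (ksPair s d ⁻¹' ksKeep μ (ksPair s d) (fun x => Ref x.1) K1)
      + μ (ksPair s d ⁻¹' (ksKeep μ (ksPair s d) (fun x => Ref x.1) K1)ᶜ) = μ Set.univ := by
    rw [Set.preimage_compl]
    exact measure_add_measure_compl hP
  have hloss := ksc_app_loss μ hs hd Ref K1 n hn
  have hbT : μ (ksPair s d ⁻¹' (ksKeep μ (ksPair s d) (fun x => Ref x.1) K1)ᶜ) ≠ ⊤ := measure_ne_top μ _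
  by_cases hc : (n : ℝ≥0∞) * K0 * K2 = 0
  · rcases mul_eq_zero.1 hc with hc | hc
    · rcases mul_eq_zero.1 hc with hc | hc
      · have hn0 : n = 0 := by exact_mod_cast hc
        have h0 : ∀ x : S × D, ksMass μ (ksPair s d) x = 0 := by
          rintro ⟨s0, d0⟩
          obtain ⟨L, hL, hL'⟩ := hn s0
          have hLe : L = ∅ := Finset.card_eq_zero.1 (by omega)
          exact hL' d0 (by rw [hLe]; exact Finset.notMem_empty _)
        rw [← ksc_mass_sum μ hlab, ENNReal.tsum_eq_zero.2 h0]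
        exact zero_le
      · rw [hc, zero_mul] at hR
        have hR0 : ∀ s0, Ref s0 = 0 := ENNReal.tsum_eq_zero.1 (le_antisymm hR zero_le)
        have hall : ksKeep μ (ksPair s d) (fun x => Ref x.1) K1 = Set.univ := by
          ext x
          simp only [ksKeep, Set.mem_ofPred_eq, Set.mem_univ, iff_true, hR0]
          exact zero_le
        rw [happ, hall, Set.preimage_univ, two_mul]
        exact le_self_add
    · rw [hc, zero_mul] at hM
      have hM0 : M = 0 := le_antisymm hM zero_le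
      rw [hM0, mul_zero] at hR
      have hR0 : ∀ s0, Ref s0 = 0 := ENNReal.tsum_eq_zero.1 (le_antisymm hR zero_le)
      have hall : ksKeep μ (ksPair s d) (fun x => Ref x.1) K1 = Set.univ := by
        ext x
        simp only [ksKeep, Set.mem_ofPred_eq, Set.mem_univ, iff_true, hR0]
        exact zero_le
      rw [happ, hall, Set.preimage_univ, two_mul]
      exact le_self_add
  · rw [happ]
    generalize μ (ksPair s d ⁻¹' ksKeep μ (ksPair s d) (fun x => Ref x.1) K1) = a at *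
    generalize μ (ksPair s d ⁻¹' (ksKeep μ (ksPair s d) (fun x => Ref x.1) K1)ᶜ) = b at *
    generalize μ Set.univ = m at *
    have h2c : 2 * ((n : ℝ≥0∞) * K0 * K2) ≤ K1 := by
      calc 2 * ((n : ℝ≥0∞) * K0 * K2) = 2 * n * K0 * K2 := by ring
        _ ≤ K1 := hK
    have hcT : (n : ℝ≥0∞) * K0 * K2 ≠ ⊤ := by
      refine ne_top_of_le_ne_top hK1 (le_trans ?_ h2c)
      rw [two_mul]
      exact le_self_add
    have h1 : (n : ℝ≥0∞) * K0 * K2 * (2 * b) ≤ (n : ℝ≥0∞) * K0 * K2 * m :=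
      calc (n : ℝ≥0∞) * K0 * K2 * (2 * b) = 2 * ((n : ℝ≥0∞) * K0 * K2) * b := by ring
        _ ≤ K1 * b := mul_le_mul' h2c le_rfl
        _ ≤ n * ∑' s0, Ref s0 := hloss
        _ ≤ n * (K0 * (K2 * m)) := mul_le_mul' le_rfl (hR.trans (mul_le_mul' le_rfl hM))
        _ = (n : ℝ≥0∞) * K0 * K2 * m := by ring
    have h2 : 2 * b ≤ m := (ENNReal.mul_le_mul_iff_right hc hcT).1 h1
    rw [← hsplit, two_mul] at h2
    have h3 : b ≤ a := (ENNReal.add_le_add_iff_right hbT).1 h2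
    rw [← hsplit, two_mul]
    exact add_le_add le_rfl h3

/-- the same for a denominator pruning (no appended datum) -/
theorem ksc_prune_half' [Countable S] (μ : Measure Ω) [IsFiniteMeasure μ] {s : Ω → S} (hs : KsLab s) (Ref : S → ℝ≥0∞)
    (K0 K1 K2 M : ℝ≥0∞) (hR : ∑' s0, Ref s0 ≤ K0 * M) (hM : M ≤ K2 * μ Set.univ) (hK : 2 * K0 * K2 ≤ K1) (hK1 : K1 ≠ ⊤) :
    μ Set.univ ≤ 2 * ksPrune μ s Ref K1 Set.univ := by
  classical
  have hP : MeasurableSet (s ⁻¹' ksKeep μ s Ref K1) := ksc_lab_preimage hs _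
  have happ : ksPrune μ s Ref K1 Set.univ = μ (s ⁻¹' ksKeep μ s Ref K1) := by
    unfold ksPrune
    rw [Measure.restrict_apply_univ]
  have hsplit : μ (s ⁻¹' ksKeep μ s Ref K1) + μ (s ⁻¹' (ksKeep μ s Ref K1)ᶜ) = μ Set.univ := by
    rw [Set.preimage_compl]
    exact measure_add_measure_compl hP
  have hloss := ksc_prune_loss μ hs Ref K1
  have hbT : μ (s ⁻¹' (ksKeep μ s Ref K1)ᶜ) ≠ ⊤ := measure_ne_top μ _
  by_cases hc : K0 * K2 = 0
  · have hR0 : ∀ s0, Ref s0 = 0 := by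
      rcases mul_eq_zero.1 hc with hc | hc
      · rw [hc, zero_mul] at hR
        exact ENNReal.tsum_eq_zero.1 (le_antisymm hR zero_le)
      · rw [hc, zero_mul] at hM
        have hM0 : M = 0 := le_antisymm hM zero_le
        rw [hM0, mul_zero] at hR
        exact ENNReal.tsum_eq_zero.1 (le_antisymm hR zero_le)
    have hall : ksKeep μ s Ref K1 = Set.univ := by
      ext x
      simp only [ksKeep, Set.mem_ofPred_eq, Set.mem_univ, iff_true, hR0]
      exact zero_le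
    rw [happ, hall, Set.preimage_univ, two_mul]
    exact le_self_add
  · rw [happ]
    generalize μ (s ⁻¹' ksKeep μ s Ref K1) = a at *
    generalize μ (s ⁻¹' (ksKeep μ s Ref K1)ᶜ) = b at *
    generalize μ Set.univ = m at *
    have h2c : 2 * (K0 * K2) ≤ K1 := by
      calc 2 * (K0 * K2) = 2 * K0 * K2 := by ring
        _ ≤ K1 := hK
    have hcT : K0 * K2 ≠ ⊤ := by
      refine ne_top_of_le_ne_top hK1 (le_trans ?_ h2c)
      rw [two_mul]
      exact le_self_add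
    have h1 : K0 * K2 * (2 * b) ≤ K0 * K2 * m :=
      calc K0 * K2 * (2 * b) = 2 * (K0 * K2) * b := by ring
        _ ≤ K1 * b := mul_le_mul' h2c le_rfl
        _ ≤ ∑' s0, Ref s0 := hloss
        _ ≤ K0 * (K2 * m) := hR.trans (mul_le_mul' le_rfl hM)
        _ = K0 * K2 * m := by ring
    have h2 : 2 * b ≤ m := (ENNReal.mul_le_mul_iff_right hc hcT).1 h1
    rw [← hsplit, two_mul] at h2
    have h3 : b ≤ a := (ENNReal.add_le_add_iff_right hbT).1 h2
    rw [← hsplit, two_mul]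
    exact add_le_add le_rfl h3

/-! ## 2. Retained duration and fixed-time prior caps (`a03:time-slice`) -/

section slice

variable {L : Type*} [MeasurableSpace L]

/-- the retained duration of the trajectory `l` in the time set `I` -/
def ksDur (E : Set (L × ℝ)) (I : Set ℝ) (l : L) : ℝ≥0∞ := volume {t | t ∈ I ∧ (l, t) ∈ E}

/-- the trajectories with retained duration `≥ |I| / K₂` -/
def ksLong (E : Set (L × ℝ)) (I : Set ℝ) (K2 : ℝ≥0∞) : Set L := {l | volume I ≤ K2 * ksDur E I l}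

theorem ksc_dur_meas {E : Set (L × ℝ)} (hE : MeasurableSet E) {I : Set ℝ} (hI : MeasurableSet I) : Measurable (ksDur E I) := by
  have h := measurable_measure_prodMk_left (ν := (volume : Measure ℝ)) (hE.inter ((MeasurableSet.univ (α := L)).prod hI))
  have e : ksDur E I = fun l => volume (Prod.mk l ⁻¹' (E ∩ Set.univ ×ˢ I)) := by
    funext l
    unfold ksDur
    congr 1
    ext t
    simp only [Set.mem_preimage, Set.mem_inter_iff, Set.mem_prod, Set.mem_ofPred_eq, Set.mem_univ, true_and]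
    tauto
  rw [e]
  exact h

/-- **L-252-KSC-7** measurability -/
theorem ks_long_meas {E : Set (L × ℝ)} (hE : MeasurableSet E) {I : Set ℝ} (hI : MeasurableSet I) (K2 : ℝ≥0∞) : MeasurableSet (ksLong E I K2) := by
  exact measurableSet_le measurable_const (measurable_const.mul (ksc_dur_meas hE hI))

/-- **L-252-KSC-8** deleting the short line-interval pairs costs `≤ ∑ |I| / K₂` -/
theorem ks_slice_loss (ν : Measure L) [IsProbabilityMeasure ν] {E : Set (L × ℝ)} (hE : MeasurableSet E) {X : Type*} [Countable X] (I : X → Set ℝ) (hI : ∀ x, MeasurableSet (I x))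
    (K2 : ℝ≥0∞) :
    K2 * (ν.prod volume) (E ∩ ⋃ x, (ksLong E (I x) K2)ᶜ ×ˢ I x) ≤ ∑' x, volume (I x) := by
  have hone : ∀ x, K2 * (ν.prod volume) (E ∩ (ksLong E (I x) K2)ᶜ ×ˢ I x) ≤ volume (I x) := by
    intro x
    have hL : MeasurableSet (ksLong E (I x) K2)ᶜ := (ks_long_meas hE (hI x) K2).compl
    rw [Measure.prod_apply (hE.inter (hL.prod (hI x)))]
    have e : ∀ l, volume (Prod.mk l ⁻¹' (E ∩ (ksLong E (I x) K2)ᶜ ×ˢ I x))
        = (ksLong E (I x) K2)ᶜ.indicator (ksDur E (I x)) l := by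
      intro l
      by_cases hl : l ∈ (ksLong E (I x) K2)ᶜ
      · rw [Set.indicator_of_mem hl]
        unfold ksDur
        congr 1
        ext t
        simp only [Set.mem_preimage, Set.mem_inter_iff, Set.mem_prod, Set.mem_ofPred_eq]
        tauto
      · rw [Set.indicator_of_notMem hl]
        have : Prod.mk l ⁻¹' (E ∩ (ksLong E (I x) K2)ᶜ ×ˢ I x) = ∅ := by
          ext t
          simp only [Set.mem_preimage, Set.mem_inter_iff, Set.mem_prod, Set.mem_empty_iff_false, iff_false]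
          tauto
        rw [this, measure_empty]
    simp only [e]
    rw [lintegral_indicator hL, ← lintegral_const_mul K2 (ksc_dur_meas hE (hI x))]
    calc ∫⁻ l in (ksLong E (I x) K2)ᶜ, K2 * ksDur E (I x) l ∂ν
        ≤ ∫⁻ _ in (ksLong E (I x) K2)ᶜ, volume (I x) ∂ν := by
          refine setLIntegral_mono measurable_const fun l hl => ?_
          have h2 : ¬ (volume (I x) ≤ K2 * ksDur E (I x) l) := hl
          exact (not_le.1 h2).le
      _ = volume (I x) * ν (ksLong E (I x) K2)ᶜ := setLIntegral_const _ _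
      _ ≤ volume (I x) * 1 := mul_le_mul' le_rfl prob_le_one
      _ = volume (I x) := mul_one _
  rw [Set.inter_iUnion]
  calc K2 * (ν.prod volume) (⋃ x, E ∩ (ksLong E (I x) K2)ᶜ ×ˢ I x)
      ≤ K2 * ∑' x, (ν.prod volume) (E ∩ (ksLong E (I x) K2)ᶜ ×ˢ I x) := mul_le_mul' le_rfl (measure_iUnion_le _)
    _ = ∑' x, K2 * (ν.prod volume) (E ∩ (ksLong E (I x) K2)ᶜ ×ˢ I x) := ENNReal.tsum_mul_left.symm
    _ ≤ ∑' x, volume (I x) := ENNReal.tsum_le_tsum hone

/-- **L-252-KSC-9** (a03:retained-duration-cap): `ν (L_I ∩ C) ≤ (K₂ / |I|) ∫_I ν {l ∈ C⁺_τ, (l, τ) ∈ E} dτ` -/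
theorem ks_slice_cap (ν : Measure L) [SFinite ν] {E : Set (L × ℝ)} (hE : MeasurableSet E) {I : Set ℝ} (hI : MeasurableSet I) (K2 : ℝ≥0∞)
    {C : Set L} (hC : MeasurableSet C) {Cp : Set (L × ℝ)} (hCp : MeasurableSet Cp) (himp : ∀ l ∈ C, ∀ τ ∈ I, (l, τ) ∈ Cp) :
    volume I * ν (ksLong E I K2 ∩ C) ≤ K2 * (ν.prod volume) (E ∩ Cp ∩ Set.univ ×ˢ I) := by
  have hL : MeasurableSet (ksLong E I K2 ∩ C) := (ks_long_meas hE hI K2).inter hC
  rw [Measure.prod_apply ((hE.inter hCp).inter (MeasurableSet.univ.prod hI))]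
  calc volume I * ν (ksLong E I K2 ∩ C) = ∫⁻ _ in ksLong E I K2 ∩ C, volume I ∂ν := (setLIntegral_const _ _).symm
    _ ≤ ∫⁻ l in ksLong E I K2 ∩ C, K2 * ksDur E I l ∂ν := setLIntegral_mono (measurable_const.mul (ksc_dur_meas hE hI)) fun l hl => hl.1
    _ = K2 * ∫⁻ l in ksLong E I K2 ∩ C, ksDur E I l ∂ν := lintegral_const_mul K2 (ksc_dur_meas hE hI)
    _ ≤ K2 * ∫⁻ l in ksLong E I K2 ∩ C, volume (Prod.mk l ⁻¹' (E ∩ Cp ∩ Set.univ ×ˢ I)) ∂ν := by
        refine mul_le_mul' le_rfl (setLIntegral_mono' hL fun l hl => ?_)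
        unfold ksDur
        refine measure_mono fun t ht => ?_
        exact ⟨⟨ht.2, himp l hl.2 t ht.1⟩, Set.mem_univ _, ht.1⟩
    _ ≤ K2 * ∫⁻ l, volume (Prod.mk l ⁻¹' (E ∩ Cp ∩ Set.univ ×ˢ I)) ∂ν := mul_le_mul' le_rfl (setLIntegral_le_lintegral _ _)

end slice

end

end Claimed.Agent.R252
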