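import Claimed.Agent.R252.State.KsLoc

/-!
# ROW 252 (S0492), unit STATE (helper31), file 5: FROM THE PRIMITIVE TANGENT DATA `KpTan` (S4/Tan, helper269) TO THE PREPARED RECORD `KsRef`, AND BACK.        CONTRACT file.

* `Z : KsPrep X`      the extra data of a preparation of `X : KpTan v`: requirement lists, the node `nd s` used for a required (NOMINAL) depth `s`, the prepared selection `Ev0 γ ⊆ X.P.Ev γ`, velocity mesh, charts
                      (re-charted: triangular if `0 < ℓ`), graph entries.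
* `X.prep p Z : KsRef v`   DEFINITIONAL bridge: `L := X.P.W × X.P.Lam`, `Par := X.P.W`, `ν := ∑ ω_γ δ_γ × ν_γ`, `Hist := Option (end labels)`, `Lab := Σ s ∈ depths, (X.Q (nd s)).C`, `dep := s` (nominal: all clauses of `Ok` are up to `K`).
* HUBS (the second half of the proof of `prop:tangent-palette`, 04 l.655-850, + `a03:finite-state-conditioning`; unit PREP, helper31), stated and proved in `Prep/Main.lean`:
      `ks_prep`      (`ℓ = 0` or version 1)       `ks_prep_tilt` (`0 < ℓ`, version 2; also `Tilt`).        One scale: `∀ lists τ ε ∃ τ' N₁, ∀ X, X.Ok p τ' → N₁ ≤ N → ∃ Z, (X.prep p Z).Ok (N^τ) ∧ loss ≤ ε tot`.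
* BACK: `ks_time_back`, `ks_strip_back` : candidates of `X.prep p Z` are candidates of `X`.
* BREADTH (`a03:breadth`, `ℓ = 0`): `R.Brd κ u ε` = hereditary, parent by parent, for ALL coarsenings of the finest prepared state `R.fine`; hub `ks_prep_brd` (from `X.Brd`; the breadth-bad parents are deleted in `Ev0`).
* TARGETS of the sections (one scale, one parent): `KsLocal v p` (dense residual, time candidates), `KsLocalBr v p` (Sec 6: SUBSTANTIAL residual `KsSub`, breadth), `KsLocalTilt p` (Secs 7, 8: time or strip).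
  GLUE (`State/KsExit.lean`): `ks_exit`, `ks_exit_brd`, `ks_exit_tilt` : target → (`KpSeqOk R X p → [KpBreadth X →] KpCandHyp R X p`).
-/

set_option autoImplicit false

namespace Claimed.Agent.R252

open MeasureTheory Filter Topology
open Claimed.Agent.R255 (uf)
open scoped ENNReal BigOperators

noncomputable section

variable {v : KbVer}

/-! ## 1. The bridge -/

/-- labels of a preparation: (required depth, packet of its node) -/
abbrev KsPLab (X : KpTan v) (depths : Finset ℝ) (nd : ℝ → ℕ) : Type := Σ s : {s // s ∈ depths}, (X.Q (nd s)).C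

/-- **the extra data of a preparation** (data only) -/
structure KsPrep (X : KpTan v) where
  depths : Finset ℝ
  widths : Finset ℝ
  meshes : Finset ℝ
  ord : ℕ
  /-- the node used for a required depth -/
  nd : ℝ → ℕ
  /-- the prepared selection -/
  Ev0 : X.P.W → Set (X.P.Lam × ℝ)
  χ : ℝ
  ch : KsPLab X depths nd → KbChart v
  Ent : Type
  fEnt : Fintype Ent
  eLab : Ent → KsPLab X depths nd
  eCtr : Ent → ℝ × KbB v
  eRad : Ent → ℝ
  eKind : Ent → KsKind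
  eG : Ent → ℝ × KbB v → ℝ
  ent : ℝ → X.P.W → X.P.Lam × ℝ → Ent

/-- the σ-algebra on `W × Lam` (discrete on the worlds) -/
@[reducible] def ksTanMS (X : KpTan v) : MeasurableSpace (X.P.W × X.P.Lam) := @Prod.instMeasurableSpace _ _ ⊤ X.P.mLam

/-- the mixture of the parent priors -/
def ksTanNu (X : KpTan v) : @Measure (X.P.W × X.P.Lam) (ksTanMS X) :=
  letI := ksTanMS X
  ∑ γ, X.P.om γ • (X.P.nu γ).map (Prod.mk γ)

/-- a family of selections as ONE set of incidences -/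
def ksSel (X : KpTan v) (Rs : X.P.W → Set (X.P.Lam × ℝ)) : Set ((X.P.W × X.P.Lam) × ℝ) := {q | (q.1.2, q.2) ∈ Rs q.1.1}

open Classical in
/-- **the prepared record of tangent data** -/
def KpTan.prep (X : KpTan v) (p : KpPrm) (Z : KsPrep X) : KsRef v where
  L := X.P.W × X.P.Lam
  mL := ksTanMS X
  N := X.N
  prm := p
  co := fun x => X.P.co x.1 x.2
  Sp := {x | x.2 ∈ X.P.Sp x.1}
  ν := ksTanNu X
  Ev0 := ksSel X Z.Ev0
  Par := X.P.W
  Hist := Option (X.Q X.G).C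
  Lab := KsPLab X Z.depths Z.nd
  Ent := Z.Ent
  fPar := X.P.fW
  fHist := inferInstance
  fLab := inferInstance
  fEnt := Z.fEnt
  par := Prod.fst
  nat := X.P.Pst
  hist := fun q => X.lab X.G q.1.1 (q.1.2, q.2)
  χ := Z.χ
  pal := X.pal
  ref := fun x => match x.2 with
    | some e => if (X.Q X.G).wd e = x.1 then X.P.om x.1 * X.ref e else 0
    | none => 0
  depths := Z.depths
  widths := Z.widths
  meshes := Z.meshes
  ord := Z.ord
  dep := fun Q => Q.1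
  lpar := fun Q => (X.Q (Z.nd Q.1)).wd Q.2
  asg := fun Q => {x | x.1 = (X.Q (Z.nd Q.1)).wd Q.2 ∧ x.2 ∈ (X.Q (Z.nd Q.1)).A Q.2}
  lev := fun Q => (X.Q (Z.nd Q.1)).n
  iv := fun Q => (X.Q (Z.nd Q.1)).iv Q.2
  ch := Z.ch
  eLab := Z.eLab
  eCtr := Z.eCtr
  eRad := Z.eRad
  eKind := Z.eKind
  eG := Z.eG
  ent := fun s q => Z.ent s q.1.1 (q.1.2, q.2)

/-- the requirements on a preparation which are not clauses of `KsRef.Ok` -/
structure KsPrep.Fits {X : KpTan v} (Z : KsPrep X) (τ ε : ℝ) : Prop where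
  nd_le : ∀ s ∈ Z.depths, Z.nd s ≤ X.G
  nd_dep : ∀ s ∈ Z.depths, |X.dep (Z.nd s) - s| ≤ τ
  sub : ∀ γ, Z.Ev0 γ ⊆ X.P.Ev γ
  /-- the preparation loses at most `ε` of the reference path -/
  loss : X.P.mass (fun γ => X.P.Ev γ \ Z.Ev0 γ) ≤ ENNReal.ofReal ε * X.P.tot

/-- requirement lists -/
structure KsReq where
  depths : Finset ℝ
  widths : Finset ℝ
  meshes : Finset ℝ
  ord : ℕ
  /-- exponent of the velocity mesh `χ = N^{-U}` -/
  U : ℝ

structure KsReq.Ok (G : KsReq) : Prop where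
  ne : G.depths.Nonempty
  depths : ∀ s ∈ G.depths, 0 < s
  widths : ∀ r ∈ G.widths, 0 ≤ r
  meshes : ∀ M ∈ G.meshes, 0 ≤ M
  U : 0 ≤ G.U
  /-- some required depth is deeper than every required width ("first choose `a` much finer than that mesh", 04 l.806) -/
  deep : ∀ r ∈ G.widths, ∃ s ∈ G.depths, r + 1 ≤ s
  /-- at least first derivatives of the graphs -/
  ord : 1 ≤ G.ord

/-- the record has exactly the required lists -/
structure KsRef.Has (R : KsRef v) (p : KpPrm) (G : KsReq) : Prop where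
  prm : R.prm = p
  depths : R.depths = G.depths
  widths : R.widths = G.widths
  meshes : R.meshes = G.meshes
  ord : R.ord = G.ord
  χ : R.χ = R.N ^ (-G.U)

/-- the record has AT LEAST the required lists (hypothesis of the targets: it also holds for the slowly growing lists of `State/KsSeq.lean`) -/
structure KsRef.Rich (R : KsRef v) (p : KpPrm) (G : KsReq) : Prop where
  prm : R.prm = p
  depths : G.depths ⊆ R.depths
  widths : G.widths ⊆ R.widths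
  meshes : G.meshes ⊆ R.meshes
  ord : G.ord ≤ R.ord
  /-- coarser velocity bins: `State/KsVel.lean` -/
  χ : R.χ ≤ R.N ^ (-G.U)

theorem KsRef.Has.rich {R : KsRef v} {p : KpPrm} {G : KsReq} (h : R.Has p G) : R.Rich p G :=
  ⟨h.prm, h.depths ▸ subset_rfl, h.widths ▸ subset_rfl, h.meshes ▸ subset_rfl, h.ord ▸ le_rfl, h.χ.le⟩

/-! ## 1b. Breadth in the language of the prepared record -/

namespace KsRef

variable (R : KsRef v)

/-- the type of the finest prepared state: parent, entries at all required depths, point states at all required meshes and widths -/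
abbrev Fine : Type := R.Par × ({s // s ∈ R.depths} → R.Ent) × ({M // M ∈ R.meshes} × {r // r ∈ R.widths} → ℤ × (Fin v.j → ℤ) × ℤ)

/-- the finest prepared state of an incidence -/
def fine (x : R.L × ℝ) : R.Fine := (R.par x.1, fun s => R.ent s x, fun m => R.pt m.1 m.2 x)

/-- the conditional velocity law of the state `d` in the selection `E` puts mass `≥ κ` within `w` of an affine line -/
def Narrow (E : Set (R.L × ℝ)) {D : Type} (ℓ : R.L × ℝ → D) (κ w : ℝ) (d : D) : Prop :=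
  ∃ (n : KbB v) (b : ℝ), n ⬝ᵥ n = 1 ∧ ENNReal.ofReal κ * R.prior (E ∩ ℓ ⁻¹' {d}) ≤ R.prior (E ∩ ℓ ⁻¹' {d} ∩ {x | |n ⬝ᵥ R.V x.1 - b| ≤ w})

/-- the prepared mass of a parent -/
def m0 (A : R.Par) : ℝ≥0∞ := R.prior (R.Ev0 ∩ {x | R.par x.1 = A})

/-- **hereditary breadth**, parent by parent: in EVERY measurable part `E` of the prepared selection of a parent, the narrow states (any coarsening of `fine`) carry at most `ε` of the prepared mass of the parent -/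
def Brd (κ u ε : ℝ) : Prop :=
  ∀ (A : R.Par) (E : Set (R.L × ℝ)), MeasurableSet E → E ⊆ R.Ev0 ∩ {x | R.par x.1 = A} → ∀ (D : Type) (C : R.Fine → D),
    R.prior (E ∩ {x | R.Narrow E (C ∘ R.fine) κ (R.a u) (C (R.fine x))}) ≤ ENNReal.ofReal ε * R.m0 A

end KsRef

/-- **a substantial residual** in the parent `A` : at least the fraction `η` of the prepared mass of the parent, which is itself `≥ 1 / K` -/
structure KsSub (R : KsRef v) (A : R.Par) (E : Set (R.L × ℝ)) (η K : ℝ) : Prop where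
  meas : MeasurableSet E
  sub : E ⊆ R.Ev0 ∩ {x | R.par x.1 = A}
  mass : ENNReal.ofReal η * R.m0 A ≤ R.prior E
  /-- ABSOLUTE floor of the prepared mass of the parent (prior units; `p_A = 1` under `R.One A`) -/
  floor : 1 ≤ ENNReal.ofReal K * R.m0 A

/-- **L-252-KST-9** monotonicity of breadth -/
theorem ks_brd_mono {R : KsRef v} {K κ u ε κ' u' ε' : ℝ} (hR : R.Ok K) (h : R.Brd κ u ε) (hκ : κ ≤ κ') (hu : u ≤ u') (hε : ε ≤ ε') : R.Brd κ' u' ε' := by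
  intro A E hE hsub D C
  have hN : (1 : ℝ) ≤ R.N := by linarith [hR.N_ge]
  have ha : R.a u' ≤ R.a u := by
    unfold KsRef.a
    exact Real.rpow_le_rpow_of_exponent_le hN (by linarith)
  have hnar : ∀ d : D, R.Narrow E (C ∘ R.fine) κ' (R.a u') d → R.Narrow E (C ∘ R.fine) κ (R.a u) d := by
    rintro d ⟨n, b, hn, hle⟩
    refine ⟨n, b, hn, ?_⟩
    calc ENNReal.ofReal κ * R.prior (E ∩ (C ∘ R.fine) ⁻¹' {d}) ≤ ENNReal.ofReal κ' * R.prior (E ∩ (C ∘ R.fine) ⁻¹' {d}) :=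
          mul_le_mul' (ENNReal.ofReal_le_ofReal hκ) le_rfl
      _ ≤ _ := hle
      _ ≤ _ := measure_mono (Set.inter_subset_inter_right _ fun x hx => le_trans hx ha)
  calc R.prior (E ∩ {x | R.Narrow E (C ∘ R.fine) κ' (R.a u') (C (R.fine x))})
      ≤ R.prior (E ∩ {x | R.Narrow E (C ∘ R.fine) κ (R.a u) (C (R.fine x))}) :=
        measure_mono (Set.inter_subset_inter_right _ fun x hx => hnar _ hx)
    _ ≤ ENNReal.ofReal ε * R.m0 A := h A E hE hsub D C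
    _ ≤ ENNReal.ofReal ε' * R.m0 A := mul_le_mul' (ENNReal.ofReal_le_ofReal hε) le_rfl

/-- **L-252-KST-10** breadth survives the localisation -/
theorem ks_brd_loc {R : KsRef v} {K κ u ε : ℝ} (hR : R.Ok K) (h : R.Brd κ u ε) (A : R.Par) (hA : R.pA A ≠ 0) : (R.loc A).Brd κ u ε := by
  intro A' E hE hsub D C
  have hAt : R.pA A ≠ ⊤ := ksl_pA_ne_top hR A
  have hEA : E ⊆ {p : R.L × ℝ | R.par p.1 = A} := fun x hx => (hsub hx).1.2
  by_cases hAA : A' = A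
  · rw [hAA] at hsub ⊢
    have hpr : ∀ F : Set (R.L × ℝ), F ⊆ E → R.pA A * (R.loc A).prior F = R.prior F := fun F hF =>
      ks_prior_loc hR A F (hF.trans hEA)
    have hnar : ∀ d : D, (R.loc A).Narrow E (C ∘ (R.loc A).fine) κ ((R.loc A).a u) d → R.Narrow E (C ∘ R.fine) κ (R.a u) d := by
      rintro d ⟨n, b, hn, hle⟩
      refine ⟨n, b, hn, ?_⟩
      have h1 := hpr (E ∩ (C ∘ R.fine) ⁻¹' {d}) Set.inter_subset_left
      have h2 := hpr (E ∩ (C ∘ R.fine) ⁻¹' {d} ∩ {x | |n ⬝ᵥ R.V x.1 - b| ≤ R.a u}) (Set.inter_subset_left.trans Set.inter_subset_left)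
      rw [← h1, ← h2, mul_left_comm]
      exact mul_le_mul' le_rfl hle
    have h0 := h A E hE (fun x hx => ⟨(hsub hx).1.1, (hsub hx).2⟩) D C
    have h3 := hpr (E ∩ {x | (R.loc A).Narrow E (C ∘ (R.loc A).fine) κ ((R.loc A).a u) (C ((R.loc A).fine x))}) Set.inter_subset_left
    have h4 : R.pA A * (R.loc A).m0 A = R.m0 A := by
      have h5 := ks_prior_loc hR A (R.Ev0 ∩ {x | R.par x.1 = A}) Set.inter_subset_right
      have e : (R.loc A).Ev0 ∩ {x | (R.loc A).par x.1 = A} = R.Ev0 ∩ {x | R.par x.1 = A} := by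
        show (R.Ev0 ∩ {x | R.par x.1 = A}) ∩ {x | R.par x.1 = A} = R.Ev0 ∩ {x | R.par x.1 = A}
        rw [Set.inter_assoc, Set.inter_self]
      unfold KsRef.m0
      rw [e]
      exact h5
    refine (ENNReal.mul_le_mul_iff_right hA hAt).1 ?_
    refine le_trans (le_of_eq h3) ?_
    refine le_trans ((measure_mono (Set.inter_subset_inter_right _ fun x hx => hnar _ hx)).trans h0) (le_of_eq ?_)
    calc ENNReal.ofReal ε * R.m0 A = ENNReal.ofReal ε * (R.pA A * (R.loc A).m0 A) := by rw [h4]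
      _ = R.pA A * (ENNReal.ofReal ε * (R.loc A).m0 A) := mul_left_comm _ _ _
  · have hemp : E = ∅ := by
      rw [Set.eq_empty_iff_forall_notMem]
      intro x hx
      exact hAA ((hsub hx).2.symm.trans (hEA hx))
    rw [hemp, Set.empty_inter, measure_empty]
    exact zero_le

/-! ## 3. Masses and candidates go back -/

/-- measurability of a family of selections, explicit σ-algebra -/
theorem kst_meas_sel (X : KpTan v) (Rs : X.P.W → Set (X.P.Lam × ℝ)) (hRs : ∀ γ, MeasurableSet (Rs γ)) :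
    @MeasurableSet ((X.P.W × X.P.Lam) × ℝ) (@Prod.instMeasurableSpace _ _ (ksTanMS X) _) (ksSel X Rs) := by
  letI : MeasurableSpace X.P.W := ⊤
  have e : ksSel X Rs = ⋃ γ, ((fun q : (X.P.W × X.P.Lam) × ℝ => q.1.1) ⁻¹' {γ}) ∩ ((fun q : (X.P.W × X.P.Lam) × ℝ => (q.1.2, q.2)) ⁻¹' Rs γ) := by
    ext q
    simp only [ksSel, Set.mem_ofPred_eq, Set.mem_iUnion, Set.mem_inter_iff, Set.mem_preimage, Set.mem_singleton_iff]
    constructor
    · intro h
      exact ⟨q.1.1, rfl, h⟩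
    · rintro ⟨γ, h1, h2⟩
      rw [h1]
      exact h2
  rw [e]
  have : Finite X.P.W := @Finite.of_fintype _ X.P.fW
  refine MeasurableSet.iUnion fun γ => MeasurableSet.inter ?_ ?_
  · exact (measurable_fst.comp measurable_fst) (MeasurableSpace.measurableSet_top)
  · exact ((measurable_snd.comp measurable_fst).prodMk measurable_snd) (hRs γ)

/-- the embedding of a world is measurable -/
theorem kst_meas_mk (X : KpTan v) (γ : X.P.W) : @Measurable _ _ _ (ksTanMS X) (Prod.mk γ : X.P.Lam → X.P.W × X.P.Lam) := by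
  letI : MeasurableSpace X.P.W := ⊤
  exact measurable_prodMk_left

/-- the slices of a measurable set of incidences -/
theorem kst_meas_slice (X : KpTan v) (E : Set ((X.P.W × X.P.Lam) × ℝ))
    (hE : @MeasurableSet ((X.P.W × X.P.Lam) × ℝ) (@Prod.instMeasurableSpace _ _ (ksTanMS X) _) E) (γ : X.P.W) :
    MeasurableSet {x : X.P.Lam × ℝ | ((γ, x.1), x.2) ∈ E} := by
  letI : MeasurableSpace X.P.W := ⊤
  have : Measurable fun x : X.P.Lam × ℝ => ((γ, x.1), x.2) := (measurable_const.prodMk measurable_fst).prodMk measurable_snd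
  exact this hE

/-- the prior of the bridge, slice by slice -/
theorem kst_prior_slice (X : KpTan v) (E : Set ((X.P.W × X.P.Lam) × ℝ))
    (hE : @MeasurableSet ((X.P.W × X.P.Lam) × ℝ) (@Prod.instMeasurableSpace _ _ (ksTanMS X) _) E) :
    (@Measure.prod _ _ (ksTanMS X) _ (ksTanNu X) KbPb.tm) E = ∑ γ, X.P.om γ * ((X.P.nu γ).prod KbPb.tm) {x : X.P.Lam × ℝ | ((γ, x.1), x.2) ∈ E} := by
  letI : MeasurableSpace X.P.W := ⊤
  have hsf : SFinite KbPb.tm := by unfold KbPb.tm; infer_instance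
  rw [Measure.prod_apply hE]
  unfold ksTanNu
  rw [lintegral_finsetSum_measure]
  refine Finset.sum_congr rfl fun γ _ => ?_
  rw [lintegral_smul_measure, smul_eq_mul, lintegral_map (measurable_measure_prodMk_left hE) measurable_prodMk_left,
    Measure.prod_apply (kst_meas_slice X E hE γ)]
  rfl

/-- **L-252-KST-1** the prior of the bridge -/
theorem ks_tan_prior {X : KpTan v} (p : KpPrm) (Z : KsPrep X) (hX : X.P.WF) (Rs : X.P.W → Set (X.P.Lam × ℝ)) (hRs : X.Res Rs) :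
    (X.prep p Z).prior (ksSel X Rs) = X.P.mass Rs := by
  have h := kst_prior_slice X (ksSel X Rs) (kst_meas_sel X Rs fun γ => (hRs γ).1)
  refine h.trans ?_
  unfold KbPb.mass
  refine Finset.sum_congr rfl fun γ _ => ?_
  congr 1
  unfold KbPb.mu
  rw [Measure.restrict_apply (hRs γ).1, Set.inter_eq_left.2 (hRs γ).2]
  rfl

/-- **L-252-KST-2** measurability of a family of selections -/
theorem ks_tan_meas {X : KpTan v} (p : KpPrm) (Z : KsPrep X) (Rs : X.P.W → Set (X.P.Lam × ℝ)) (hRs : ∀ γ, MeasurableSet (Rs γ)) :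
    @MeasurableSet ((X.prep p Z).L × ℝ) _ (ksSel X Rs) := by
  exact kst_meas_sel X Rs hRs

/-- the total mass of a well-formed problem is at most one -/
theorem kst_tot_le {P : KbPb v} (hP : P.WF) : P.tot ≤ 1 := by
  have hsf : SFinite KbPb.tm := by unfold KbPb.tm; infer_instance
  have hmu : ∀ γ, P.mu γ Set.univ ≤ 1 := by
    intro γ
    have := hP.prob γ
    unfold KbPb.mu
    calc ((P.nu γ).prod KbPb.tm).restrict (P.Ev γ) Set.univ ≤ ((P.nu γ).prod KbPb.tm) Set.univ := Measure.restrict_le_self _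
      _ = P.nu γ Set.univ * KbPb.tm Set.univ := by rw [← Set.univ_prod_univ, Measure.prod_prod]
      _ = 1 := by
        unfold KbPb.tm
        rw [measure_univ, Measure.restrict_apply MeasurableSet.univ, Set.univ_inter, Real.volume_Icc]
        simp
  unfold KbPb.tot KbPb.mass
  calc ∑ γ, P.om γ * P.mu γ Set.univ ≤ ∑ γ, P.om γ * 1 := Finset.sum_le_sum fun γ _ => by
        have := hmu γ
        gcongr
    _ = 1 := by simp only [mul_one]; exact hP.om_sum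

/-- **L-252-KST-3** a substantial residual is a current selection of the prepared record -/
theorem ks_tan_cur {X : KpTan v} {p : KpPrm} {Z : KsPrep X} {τ' τ ε η : ℝ} (hX : X.Ok p τ') (hZ : Z.Fits τ ε) (hR : (X.prep p Z).Ok (X.N ^ τ)) (hε : ε < η) (hε0 : 0 ≤ ε)
    {Rs : X.P.W → Set (X.P.Lam × ℝ)} (hRs : X.Res Rs) (hm : ENNReal.ofReal η * X.P.tot ≤ X.P.mass Rs) :
    KsCur (X.prep p Z) (ksSel X fun γ => Rs γ ∩ Z.Ev0 γ) (X.N ^ τ' / (η - ε)) := by
  have hEv0m : ∀ γ, MeasurableSet (Z.Ev0 γ) := fun γ => kst_meas_slice X (ksSel X Z.Ev0) hR.m_Ev0 γ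
  have hRes' : X.Res (fun γ => Rs γ ∩ Z.Ev0 γ) := fun γ => ⟨(hRs γ).1.inter (hEv0m γ), fun x hx => (hRs γ).2 hx.1⟩
  refine ⟨ks_tan_meas p Z _ (fun γ => (hRes' γ).1), fun q hq => hq.2, ?_⟩
  rw [ks_tan_prior p Z hX.wf _ hRes']
  have hN0 : 0 < X.N := by linarith [hX.N_two]
  have hηε : 0 < η - ε := by linarith
  have hT : X.P.tot ≠ ∞ := ne_top_of_le_ne_top ENNReal.one_ne_top (kst_tot_le hX.wf)
  have h1 : X.P.mass Rs ≤ X.P.mass (fun γ => Rs γ ∩ Z.Ev0 γ) + X.P.mass (fun γ => X.P.Ev γ \ Z.Ev0 γ) := by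
    unfold KbPb.mass
    rw [← Finset.sum_add_distrib]
    refine Finset.sum_le_sum fun γ _ => ?_
    rw [← mul_add]
    have h2 : X.P.mu γ (Rs γ) ≤ X.P.mu γ (Rs γ ∩ Z.Ev0 γ) + X.P.mu γ (X.P.Ev γ \ Z.Ev0 γ) := by
      refine le_trans (measure_mono ?_) (measure_union_le _ _)
      intro x hx
      by_cases h : x ∈ Z.Ev0 γ
      · exact Or.inl ⟨hx, h⟩
      · exact Or.inr ⟨(hRs γ).2 hx, h⟩
    gcongr
  have h3 : ENNReal.ofReal (η - ε) * X.P.tot + ENNReal.ofReal ε * X.P.tot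
      ≤ X.P.mass (fun γ => Rs γ ∩ Z.Ev0 γ) + ENNReal.ofReal ε * X.P.tot := by
    rw [← add_mul, ← ENNReal.ofReal_add hηε.le hε0, sub_add_cancel]
    exact hm.trans (h1.trans (add_le_add le_rfl hZ.loss))
  have h4 : ENNReal.ofReal (η - ε) * X.P.tot ≤ X.P.mass (fun γ => Rs γ ∩ Z.Ev0 γ) :=
    ENNReal.le_of_add_le_add_right (ENNReal.mul_ne_top ENNReal.ofReal_ne_top hT) h3
  calc (1 : ℝ≥0∞) ≤ ENNReal.ofReal (X.N ^ τ') * X.P.tot := hX.ntv.mass
    _ = ENNReal.ofReal (X.N ^ τ' / (η - ε)) * (ENNReal.ofReal (η - ε) * X.P.tot) := by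
        rw [← mul_assoc, ← ENNReal.ofReal_mul (by positivity), div_mul_cancel₀ _ hηε.ne']
    _ ≤ _ := by gcongr

/-- a closed condition for all times of a half-open interval is a countable intersection -/
theorem kst_meas_forall {L : Type*} [MeasurableSpace L] (f : L → ℝ → ℝ) (hf : ∀ t, Measurable fun l => f l t) (hc : ∀ l, Continuous (f l)) (a b c : ℝ) :
    MeasurableSet {l | ∀ t ∈ Set.Ico a b, f l t ≤ c} := by
  have h : {l | ∀ t ∈ Set.Ico a b, f l t ≤ c} = ⋂ (r : ℚ) (_ : (r : ℝ) ∈ Set.Ico a b), {l | f l (r : ℝ) ≤ c} := by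
    ext l
    simp only [Set.mem_ofPred_eq, Set.mem_iInter]
    constructor
    · intro h r hr
      exact h _ hr
    · intro h t ht
      by_contra hlt
      rw [not_le] at hlt
      have hopen : IsOpen {s | c < f l s} := isOpen_lt continuous_const (hc l)
      obtain ⟨ε, hε, hball⟩ := Metric.isOpen_iff.1 hopen t hlt
      obtain ⟨r, hr1, hr2⟩ := exists_rat_btwn (show t < min (t + ε) b from lt_min (by linarith) ht.2)
      have hr3 : (r : ℝ) ∈ Metric.ball t ε := by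
        rw [Metric.mem_ball, Real.dist_eq, abs_lt]
        constructor
        · linarith
        · have := lt_of_lt_of_le hr2 (min_le_left _ _)
          linarith
      have hr4 : c < f l r := hball hr3
      exact absurd (h r ⟨ht.1.trans hr1.le, lt_of_lt_of_le hr2 (min_le_right _ _)⟩) (not_le.2 hr4)
  rw [h]
  exact MeasurableSet.iInter fun r => MeasurableSet.iInter fun _ => measurableSet_le (hf r) measurable_const

/-- a quadratic test along the trajectories is continuous in (coefficients, time) -/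
theorem kst_cont_quad (T : KbTest v) (hT : KbIsQuad T) : Continuous fun x : KbTj v × ℝ => kbX T x.1 x.2 := by
  obtain ⟨Q, hQ⟩ := hT
  have h : (fun x : KbTj v × ℝ => kbX T x.1 x.2) = fun x : KbTj v × ℝ => Q.ev x.2 (kbY x.1 x.2) (kbW x.1 x.2) := by
    funext x
    exact hQ _ _ _
  rw [h]
  have hY : Continuous fun x : KbTj v × ℝ => kbY x.1 x.2 := by
    unfold kbY
    fun_prop
  have hW : Continuous fun x : KbTj v × ℝ => kbW x.1 x.2 := by
    unfold kbW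
    fun_prop
  have ht : Continuous fun x : KbTj v × ℝ => x.2 := continuous_snd
  unfold KbQuad.ev
  have d1 : ∀ u : KbB v, Continuous fun x : KbTj v × ℝ => u ⬝ᵥ kbY x.1 x.2 := fun u => continuous_const.dotProduct hY
  have d2 : Continuous fun x : KbTj v × ℝ => kbY x.1 x.2 ⬝ᵥ Q.cyy.mulVec (kbY x.1 x.2) := hY.dotProduct (continuous_const.matrix_mulVec hY)
  exact (((((((((continuous_const.add (continuous_const.mul ht)).add (d1 _)).add (continuous_const.mul hW)).add (continuous_const.mul (ht.pow 2))).add (ht.mul (d1 _))).add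
    ((continuous_const.mul ht).mul hW)).add d2).add (hW.mul (d1 _))).add (continuous_const.mul (hW.pow 2)))

/-- the hidden derivative of a quadratic test is quadratic -/
theorem kst_dw_isQuad (T : KbTest v) (hT : KbIsQuad T) : KbIsQuad (kbDw T) := by
  obtain ⟨Q, hQ⟩ := hT
  refine ⟨⟨Q.cw, Q.ctw, Q.cyw, 2 * Q.cww, 0, 0, 0, 0, 0, 0⟩, fun t y w => ?_⟩
  unfold kbDw
  rw [hQ, hQ]
  simp only [KbQuad.ev, zero_dotProduct, Matrix.zero_mulVec, dotProduct_zero]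
  ring

/-- the lines on which a quadratic test is bounded throughout a block -/
theorem kst_meas_bd {L : Type*} [MeasurableSpace L] (co : L → KbTj v) (hco : Measurable co) (T : KbTest v) (hT : KbIsQuad T) (a b c : ℝ) :
    MeasurableSet {l | ∀ t ∈ Set.Ico a b, |kbX T (co l) t| ≤ c} :=
  kst_meas_forall (fun l t => |kbX T (co l) t|)
    (fun _ => ((kst_cont_quad T hT).measurable.comp (hco.prodMk measurable_const)).abs)
    (fun _ => ((kst_cont_quad T hT).comp (continuous_const.prodMk continuous_id)).abs) a b c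

/-- the mixture prior of an assignment inside one world -/
theorem kst_nu_asg (X : KpTan v) (γ : X.P.W) (A : Set X.P.Lam) (hA : MeasurableSet A) :
    ksTanNu X {x | x.1 = γ ∧ x.2 ∈ A} = X.P.om γ * X.P.nu γ A := by
  classical
  letI : MeasurableSpace X.P.W := ⊤
  have hS : MeasurableSet {x : X.P.W × X.P.Lam | x.1 = γ ∧ x.2 ∈ A} := by
    have e : {x : X.P.W × X.P.Lam | x.1 = γ ∧ x.2 ∈ A} = ({γ} : Set X.P.W) ×ˢ A := by
      ext x
      simp [Set.mem_prod]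
    rw [e]
    exact MeasurableSet.prod MeasurableSpace.measurableSet_top hA
  unfold ksTanNu
  rw [Measure.finsetSum_apply, Finset.sum_eq_single γ]
  · rw [Measure.smul_apply, smul_eq_mul, Measure.map_apply measurable_prodMk_left hS]
    congr 2
    ext l
    simp
  · intro γ' _ hne
    rw [Measure.smul_apply, smul_eq_mul, Measure.map_apply measurable_prodMk_left hS]
    have : Prod.mk γ' ⁻¹' {x : X.P.W × X.P.Lam | x.1 = γ ∧ x.2 ∈ A} = ∅ := by
      ext l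
      simp [hne]
    rw [this, measure_empty, mul_zero]
  · intro h
    exact absurd (Finset.mem_univ _) h

/-- the prior of a set of incidences of one world -/
theorem kst_prior_one (X : KpTan v) (γ : X.P.W) (E : Set ((X.P.W × X.P.Lam) × ℝ))
    (hE : @MeasurableSet ((X.P.W × X.P.Lam) × ℝ) (@Prod.instMeasurableSpace _ _ (ksTanMS X) _) E) (hγ : ∀ q ∈ E, q.1.1 = γ) :
    (@Measure.prod _ _ (ksTanMS X) _ (ksTanNu X) KbPb.tm) E = X.P.om γ * ((X.P.nu γ).prod KbPb.tm) {x : X.P.Lam × ℝ | ((γ, x.1), x.2) ∈ E} := by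
  classical
  rw [kst_prior_slice X E hE, Finset.sum_eq_single γ]
  · intro γ' _ hne
    have : {x : X.P.Lam × ℝ | ((γ', x.1), x.2) ∈ E} = ∅ := by
      ext x
      simp only [Set.mem_ofPred_eq, Set.mem_empty_iff_false, iff_false]
      exact fun h => hne (hγ _ h)
    rw [this, measure_empty, mul_zero]
  · intro h
    exact absurd (Finset.mem_univ _) h

/-- the weights of the worlds are finite -/
theorem kst_om_ne_top {P : KbPb v} (hP : P.WF) (γ : P.W) : P.om γ ≠ ∞ := by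
  have h : P.om γ ≤ ∑ γ', P.om γ' := Finset.single_le_sum (f := P.om) (fun _ _ => bot_le) (Finset.mem_univ γ)
  rw [hP.om_sum] at h
  exact ne_top_of_le_ne_top ENNReal.one_ne_top h

/-- core of KST-4, in the language of `X` -/
theorem kst_time_core {X : KpTan v} {p : KpPrm} {τ' τ : ℝ} (hX : X.Ok p τ') (m : ℕ) (hm : m ≤ X.G) (s : ℝ) (hdep : |X.dep m - s| ≤ τ)
    {Rs : X.P.W → Set (X.P.Lam × ℝ)} (hRs : X.Res Rs) {K c : ℝ} (hK : 1 ≤ K) (cc : (X.Q m).C) {P : KbTest v} {Cn : Set ((X.P.W × X.P.Lam) × ℝ)}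
    (c_adm : KbAdm P) (c_pos : ksTanNu X {x | x.1 = (X.Q m).wd cc ∧ x.2 ∈ (X.Q m).A cc} ≠ 0)
    (c_meas : @MeasurableSet ((X.P.W × X.P.Lam) × ℝ) (@Prod.instMeasurableSpace _ _ (ksTanMS X) _) Cn)
    (c_sub : ∀ q ∈ Cn, (q.1.2, q.2) ∈ Rs q.1.1 ∧ (q.1.1 = (X.Q m).wd cc ∧ q.1.2 ∈ (X.Q m).A cc) ∧ q.2 ∈ (X.Q m).I cc)
    (c_val : ∀ q ∈ Cn, ∀ t ∈ (X.Q m).I cc, |kbX P (X.P.co q.1.1 q.1.2) t| ≤ K * X.N ^ (-(s + c)))
    (c_dw : ∀ q ∈ Cn, ∀ t ∈ (X.Q m).I cc, |kbX (kbDw P) (X.P.co q.1.1 q.1.2) t| ≤ K)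
    (c_dww : ∀ t y w, |kbDww P t y w| * X.N ^ (-(s + c)) ≤ K)
    (c_lo : ∀ q ∈ Cn, 1 ≤ K * |kbX (kbDw P) (X.P.co q.1.1 q.1.2) q.2|)
    (c_mass : ENNReal.ofReal ((X.Q m).q * X.N ^ (-(p.d * c))) * ksTanNu X {x | x.1 = (X.Q m).wd cc ∧ x.2 ∈ (X.Q m).A cc}
      ≤ ENNReal.ofReal K * (@Measure.prod _ _ (ksTanMS X) _ (ksTanNu X) KbPb.tm) Cn) :
    X.TimeCand p Rs m cc c (K * X.N ^ τ) := by
  have hN0 : 0 < X.N := by linarith [hX.N_two]
  have hN1 : 1 ≤ X.N := by linarith [hX.N_two]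
  have hτ : 0 ≤ τ := le_trans (abs_nonneg _) hdep
  have hNτ : 1 ≤ X.N ^ τ := Real.one_le_rpow hN1 hτ
  have hK0 : 0 < K := by linarith
  have hd1 := (abs_le.1 hdep).1
  have hd2 := (abs_le.1 hdep).2
  have hwf := hX.sys_wf m hm
  obtain ⟨γ, hγ⟩ : ∃ γ, γ = (X.Q m).wd cc := ⟨_, rfl⟩
  rw [← hγ] at c_pos c_sub c_mass
  have a1 : X.N ^ (-(s + c)) ≤ X.N ^ τ * (X.a m * X.N ^ (-c)) := by
    unfold KpTan.a
    rw [← Real.rpow_add hN0, ← Real.rpow_add hN0]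
    exact Real.rpow_le_rpow_of_exponent_le hN1 (by linarith)
  have a2 : X.a m * X.N ^ (-c) ≤ X.N ^ τ * X.N ^ (-(s + c)) := by
    unfold KpTan.a
    rw [← Real.rpow_add hN0, ← Real.rpow_add hN0]
    exact Real.rpow_le_rpow_of_exponent_le hN1 (by linarith)
  have hKK : K ≤ K * X.N ^ τ := le_mul_of_one_le_right hK0.le hNτ
  have hquad : KbIsQuad P := c_adm.1
  have hquad' := kst_dw_isQuad P hquad
  unfold KpTan.TimeCand
  rw [← hγ]
  refine ⟨P, (X.Q m).A cc ∩ ({l | ∀ t ∈ Set.Ico (((X.Q m).iv cc : ℝ) * kbQ (X.Q m).n) ((((X.Q m).iv cc : ℝ) + 1) * kbQ (X.Q m).n), |kbX P (X.P.co γ l) t| ≤ K * X.N ^ (-(s + c))}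
      ∩ {l | ∀ t ∈ Set.Ico (((X.Q m).iv cc : ℝ) * kbQ (X.Q m).n) ((((X.Q m).iv cc : ℝ) + 1) * kbQ (X.Q m).n), |kbX (kbDw P) (X.P.co γ l) t| ≤ K}),
    {x : X.P.Lam × ℝ | ((γ, x.1), x.2) ∈ Cn}, c_adm, ?_, Set.inter_subset_left, kst_meas_slice X Cn c_meas γ, ?_, ?_, ?_, ?_, ?_, ?_⟩
  · exact (hwf.A_meas cc).inter ((kst_meas_bd _ (hX.wf.co_meas γ) P hquad _ _ _).inter (kst_meas_bd _ (hX.wf.co_meas γ) _ hquad' _ _ _))
  · intro x hx
    have h1 := c_sub _ hx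
    exact ⟨h1.1, ⟨h1.2.1.2, fun t ht => c_val _ hx t ht, fun t ht => c_dw _ hx t ht⟩, h1.2.2⟩
  · intro l hl t ht
    calc |kbX P (X.P.co γ l) t| ≤ K * X.N ^ (-(s + c)) := hl.2.1 t ht
      _ ≤ K * (X.N ^ τ * (X.a m * X.N ^ (-c))) := mul_le_mul_of_nonneg_left a1 hK0.le
      _ = K * X.N ^ τ * (X.a m * X.N ^ (-c)) := by ring
  · intro l hl t ht
    exact (hl.2.2 t ht).trans hKK
  · intro t y w
    calc |kbDww P t y w| * (X.a m * X.N ^ (-c)) ≤ |kbDww P t y w| * (X.N ^ τ * X.N ^ (-(s + c))) := mul_le_mul_of_nonneg_left a2 (abs_nonneg _)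
      _ = X.N ^ τ * (|kbDww P t y w| * X.N ^ (-(s + c))) := by ring
      _ ≤ X.N ^ τ * K := mul_le_mul_of_nonneg_left (c_dww t y w) (by linarith)
      _ = K * X.N ^ τ := mul_comm _ _
  · intro x hx
    exact (c_lo _ hx).trans (mul_le_mul_of_nonneg_right hKK (abs_nonneg _))
  · rw [kst_nu_asg X γ _ (hwf.A_meas cc)] at c_pos c_mass
    rw [kst_prior_one X γ Cn c_meas (fun q hq => (c_sub q hq).2.1.1)] at c_mass
    have hom0 : X.P.om γ ≠ 0 := left_ne_zero_of_mul c_pos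
    have homt : X.P.om γ ≠ ∞ := kst_om_ne_top hX.wf γ
    have h1 : X.P.om γ * (ENNReal.ofReal ((X.Q m).q * X.N ^ (-(p.d * c))) * X.P.nu γ ((X.Q m).A cc))
        ≤ X.P.om γ * (ENNReal.ofReal K * ((X.P.nu γ).prod KbPb.tm) {x : X.P.Lam × ℝ | ((γ, x.1), x.2) ∈ Cn}) := by
      calc X.P.om γ * (ENNReal.ofReal ((X.Q m).q * X.N ^ (-(p.d * c))) * X.P.nu γ ((X.Q m).A cc))
          = ENNReal.ofReal ((X.Q m).q * X.N ^ (-(p.d * c))) * (X.P.om γ * X.P.nu γ ((X.Q m).A cc)) := by ring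
        _ ≤ _ := c_mass
        _ = _ := by ring
    have h2 := (ENNReal.mul_le_mul_iff_right hom0 homt).1 h1
    have hsub : {x : X.P.Lam × ℝ | ((γ, x.1), x.2) ∈ Cn} ⊆ X.P.Ev γ := fun x hx => (hRs γ).2 (c_sub _ hx).1
    have hmu : X.P.mu γ {x : X.P.Lam × ℝ | ((γ, x.1), x.2) ∈ Cn} = ((X.P.nu γ).prod KbPb.tm) {x : X.P.Lam × ℝ | ((γ, x.1), x.2) ∈ Cn} := by
      unfold KbPb.mu
      rw [Measure.restrict_apply (kst_meas_slice X Cn c_meas γ), Set.inter_eq_left.2 hsub]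
    rw [hmu]
    have e1 : X.N ^ (-p.d * c) * (X.Q m).q = (X.Q m).q * X.N ^ (-(p.d * c)) := by
      rw [mul_comm, neg_mul]
    have e2 : (X.Q m).nuC cc = X.P.nu γ ((X.Q m).A cc) := by
      unfold KbSys.nuC
      rw [← hγ]
    rw [e1, e2]
    refine h2.trans ?_
    gcongr

/-- **L-252-KST-4** time candidates go back -/
theorem ks_time_back {X : KpTan v} {p : KpPrm} {Z : KsPrep X} {τ' τ ε K₀ : ℝ} (hX : X.Ok p τ') (hZ : Z.Fits τ ε) (hR : (X.prep p Z).Ok K₀)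
    {Rs : X.P.W → Set (X.P.Lam × ℝ)} (hRs : X.Res Rs) {K c : ℝ} (hK : 1 ≤ K) {Q : (X.prep p Z).Lab} {P : KbTest v} {Cn : Set ((X.prep p Z).L × ℝ)}
    (hc : KsTimeCand (X.prep p Z) (ksSel X Rs) K c Q P Cn) : X.TimeCand p Rs (Z.nd Q.1) Q.2 c (K * X.N ^ τ) := by
  exact kst_time_core hX (Z.nd Q.1) (hZ.nd_le _ Q.1.2) Q.1 (hZ.nd_dep _ Q.1.2) hRs hK Q.2 hc.adm hc.pos hc.meas
    (fun q hq => ⟨(hc.sub hq).1, (hc.sub hq).2.1, (hc.sub hq).2.2⟩) hc.val hc.dw hc.dww hc.dw_lo hc.mass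

/-- the mixture of the parent priors on a cylinder over one world -/
theorem kst_nu_cyl (X : KpTan v) (γ : X.P.W) {A : Set X.P.Lam} (hA : MeasurableSet A) :
    ksTanNu X {x | x.1 = γ ∧ x.2 ∈ A} = X.P.om γ * X.P.nu γ A := by
  classical
  let _ : MeasurableSpace X.P.W := ⊤
  have hm : MeasurableSet {x : X.P.W × X.P.Lam | x.1 = γ ∧ x.2 ∈ A} := by
    have h0 : {x : X.P.W × X.P.Lam | x.1 = γ ∧ x.2 ∈ A} = ({γ} : Set X.P.W) ×ˢ A := by
      ext x; simp [Set.mem_prod]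
    rw [h0]
    exact MeasurableSet.prod trivial hA
  have h1 : ∀ γ', (X.P.nu γ').map (Prod.mk γ') {x : X.P.W × X.P.Lam | x.1 = γ ∧ x.2 ∈ A} = if γ' = γ then X.P.nu γ A else 0 := by
    intro γ'
    rw [Measure.map_apply measurable_prodMk_left hm]
    split_ifs with h
    · subst h
      congr 1
      ext l
      simp
    · have h2 : Prod.mk γ' ⁻¹' {x : X.P.W × X.P.Lam | x.1 = γ ∧ x.2 ∈ A} = ∅ := by
        ext l
        simp [h]
      rw [h2, measure_empty]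
  unfold ksTanNu
  simp only [Measure.finsetSum_apply, Measure.smul_apply, smul_eq_mul, h1]
  simp

/-- the exponents of the row: nominal depth against true depth -/
theorem kst_strip_exp {N K ell τ d s : ℝ} (hN : 1 ≤ N) (hK : 0 ≤ K) (hell : 0 ≤ ell) (hd : |d - s| ≤ τ) (c : ℝ) :
    K * N ^ (-(ell * s + c)) ≤ K * N ^ (ell * τ) * N ^ (-ell * d - c) := by
  have hN0 : 0 < N := by linarith
  rw [mul_assoc, ← Real.rpow_add hN0]
  refine mul_le_mul_of_nonneg_left (Real.rpow_le_rpow_of_exponent_le hN ?_) hK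
  have h1 := (abs_le.1 hd).2
  nlinarith

/-- the counted incidences of a strip candidate lie over the trajectories of the row -/
theorem kst_strip_sub {X : KpTan KbVer.two} {p : KpPrm} {Z : KsPrep X} (hX : X.P.WF) {Rs : X.P.W → Set (X.P.Lam × ℝ)} {K c : ℝ} {Q : (X.prep p Z).Lab}
    (hwf : (X.Q (Z.nd Q.1)).WF) (hRs : X.Res Rs) {ρ : Fin 2 → ℝ} {Cn : Set ((X.prep p Z).L × ℝ)}
    (hc : KsStripCand (X.prep p Z) (ksSel X Rs) K c Q ρ Cn) (M : ℝ)
    (hM : K * X.N ^ (-(p.ell * Q.1 + c)) ≤ K * M * X.N ^ (-p.ell * X.dep (Z.nd Q.1) - c)) :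
    MeasurableSet ((X.Q (Z.nd Q.1)).A Q.2 ∩ {l | |kpCo (kbV (X.P.co ((X.Q (Z.nd Q.1)).wd Q.2) l)) 1 - (ρ 0 + ρ 1 * kpCo (kbV (X.P.co ((X.Q (Z.nd Q.1)).wd Q.2) l)) 0)|
          ≤ K * M * X.N ^ (-p.ell * X.dep (Z.nd Q.1) - c)}) ∧
    (X.prep p Z).prior Cn ≤ X.P.om ((X.Q (Z.nd Q.1)).wd Q.2) * X.P.mu ((X.Q (Z.nd Q.1)).wd Q.2) (Rs ((X.Q (Z.nd Q.1)).wd Q.2) ∩
        ((X.Q (Z.nd Q.1)).A Q.2 ∩ {l | |kpCo (kbV (X.P.co ((X.Q (Z.nd Q.1)).wd Q.2) l)) 1 - (ρ 0 + ρ 1 * kpCo (kbV (X.P.co ((X.Q (Z.nd Q.1)).wd Q.2) l)) 0)|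
          ≤ K * M * X.N ^ (-p.ell * X.dep (Z.nd Q.1) - c)}) ×ˢ (X.Q (Z.nd Q.1)).I Q.2) := by
  classical
  generalize hγ : (X.Q (Z.nd Q.1)).wd Q.2 = γ
  generalize hB : K * M * X.N ^ (-p.ell * X.dep (Z.nd Q.1) - c) = B at hM ⊢
  have hco : ∀ i : Fin 2, Measurable fun l => (kbV (X.P.co γ l) : KbB KbVer.two) i := fun i =>
    (measurable_pi_apply i).comp (measurable_fst.comp (measurable_snd.comp (hX.co_meas γ)))
  have hk : ∀ y : KbB KbVer.two, kpCo y 1 = y (1 : Fin 2) ∧ kpCo y 0 = y (0 : Fin 2) := fun y => ⟨rfl, rfl⟩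
  have hAm : MeasurableSet ((X.Q (Z.nd Q.1)).A Q.2 ∩ {l | |kpCo (kbV (X.P.co γ l)) 1 - (ρ 0 + ρ 1 * kpCo (kbV (X.P.co γ l)) 0)| ≤ B}) := by
    refine (hwf.A_meas Q.2).inter ?_
    simp only [hk]
    exact measurableSet_le (((hco 1).sub (((hco 0).const_mul (ρ 1)).const_add (ρ 0))).abs) measurable_const
  refine ⟨hAm, ?_⟩
  set A' := (X.Q (Z.nd Q.1)).A Q.2 ∩ {l | |kpCo (kbV (X.P.co γ l)) 1 - (ρ 0 + ρ 1 * kpCo (kbV (X.P.co γ l)) 0)| ≤ B} with hA'
  have hIm : MeasurableSet ((X.Q (Z.nd Q.1)).I Q.2) := measurableSet_Ico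
  have hres : X.Res fun γ' => if γ' = γ then Rs γ ∩ A' ×ˢ (X.Q (Z.nd Q.1)).I Q.2 else ∅ := by
    intro γ'
    by_cases h : γ' = γ
    · subst h
      simp only [if_true]
      exact ⟨(hRs γ').1.inter (hAm.prod hIm), Set.inter_subset_left.trans (hRs γ').2⟩
    · simp only [if_neg h]
      exact ⟨MeasurableSet.empty, Set.empty_subset _⟩
  have hsub : Cn ⊆ ksSel X fun γ' => if γ' = γ then Rs γ ∩ A' ×ˢ (X.Q (Z.nd Q.1)).I Q.2 else ∅ := by
    intro x hx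
    obtain ⟨hx1, hx2⟩ := hc.sub hx
    have hrow := hc.row x hx
    obtain ⟨⟨hxa, hxb⟩, hxc⟩ := hx2
    have hxa' : x.1.1 = γ := hxa.trans hγ
    have hx1' : (x.1.2, x.2) ∈ Rs x.1.1 := hx1
    show (x.1.2, x.2) ∈ (if x.1.1 = γ then Rs γ ∩ A' ×ˢ (X.Q (Z.nd Q.1)).I Q.2 else ∅)
    rw [if_pos hxa']
    rw [hxa'] at hx1'
    refine ⟨hx1', ⟨hxb, ?_⟩, hxc⟩
    have hrow' : |kpCo (kbV (X.P.co x.1.1 x.1.2)) 1 - (ρ 0 + ρ 1 * kpCo (kbV (X.P.co x.1.1 x.1.2)) 0)| ≤ K * X.N ^ (-(p.ell * Q.1 + c)) := hrow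
    rw [hxa'] at hrow'
    exact hrow'.trans hM
  calc (X.prep p Z).prior Cn ≤ (X.prep p Z).prior (ksSel X fun γ' => if γ' = γ then Rs γ ∩ A' ×ˢ (X.Q (Z.nd Q.1)).I Q.2 else ∅) := measure_mono hsub
    _ = X.P.mass fun γ' => if γ' = γ then Rs γ ∩ A' ×ˢ (X.Q (Z.nd Q.1)).I Q.2 else ∅ := ks_tan_prior p Z hX _ hres
    _ = X.P.om γ * X.P.mu γ (Rs γ ∩ A' ×ˢ (X.Q (Z.nd Q.1)).I Q.2) := by
      unfold KbPb.mass
      rw [Finset.sum_eq_single γ]
      · beta_reduce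
        rw [if_pos rfl]
      · intro b _ hb
        beta_reduce
        rw [if_neg hb, measure_empty, mul_zero]
      · intro h
        exact absurd (Finset.mem_univ _) h

/-- **L-252-KST-5** strip candidates go back -/
theorem ks_strip_back {X : KpTan KbVer.two} {p : KpPrm} {Z : KsPrep X} {τ' τ ε K₀ : ℝ} (hX : X.Ok p τ') (hZ : Z.Fits τ ε) (hR : (X.prep p Z).Ok K₀)
    {Rs : X.P.W → Set (X.P.Lam × ℝ)} (hRs : X.Res Rs) {K c : ℝ} (hK : 1 ≤ K) {Q : (X.prep p Z).Lab} {ρ : Fin 2 → ℝ} {Cn : Set ((X.prep p Z).L × ℝ)}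
    (hc : KsStripCand (X.prep p Z) (ksSel X Rs) K c Q ρ Cn) : X.StripCand p Rs (Z.nd Q.1) Q.2 c (K * X.N ^ (p.ell * τ)) := by
  classical
  have hQ1 : (Q.1 : ℝ) ∈ Z.depths := Q.1.2
  have hmG : Z.nd Q.1 ≤ X.G := hZ.nd_le _ hQ1
  have hdep := hZ.nd_dep _ hQ1
  have hτ : 0 ≤ τ := (abs_nonneg _).trans hdep
  have hell : 0 ≤ p.ell := hR.prm.ell_nonneg
  have hN : 2 ≤ X.N := hX.N_two
  have hN1 : 1 ≤ X.N := by linarith
  have hN0 : 0 < X.N := by linarith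
  have hK0 : 0 ≤ K := by linarith
  have hwf := hX.sys_wf _ hmG
  have hone : 1 ≤ X.N ^ (p.ell * τ) := Real.one_le_rpow hN1 (mul_nonneg hell hτ)
  obtain ⟨hA'm, hsub⟩ := kst_strip_sub hX.wf hwf hRs hc (X.N ^ (p.ell * τ)) (kst_strip_exp hN1 hK0 hell hdep c)
  refine ⟨ρ 0, ρ 1, _, hA'm, Set.inter_subset_left, fun l hl => hl.2, ?_⟩
  have hν : (X.prep p Z).νQ Q = X.P.om ((X.Q (Z.nd Q.1)).wd Q.2) * (X.Q (Z.nd Q.1)).nuC Q.2 := kst_nu_cyl X _ (hwf.A_meas Q.2)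
  have hom0 : X.P.om ((X.Q (Z.nd Q.1)).wd Q.2) ≠ 0 := by
    intro h0
    exact hc.pos (by rw [hν, h0, zero_mul])
  have homT : X.P.om ((X.Q (Z.nd Q.1)).wd Q.2) ≠ ∞ := by
    have h1 : X.P.om ((X.Q (Z.nd Q.1)).wd Q.2) ≤ ∑ γ, X.P.om γ := Finset.single_le_sum (fun _ _ => bot_le) (Finset.mem_univ _)
    rw [hX.wf.om_sum] at h1
    exact ne_top_of_le_ne_top ENNReal.one_ne_top h1
  have hmass := hc.mass.trans (mul_le_mul_right hsub _)
  rw [hν] at hmass
  have h2 : X.P.om ((X.Q (Z.nd Q.1)).wd Q.2) * (ENNReal.ofReal (X.Q (Z.nd Q.1)).q * (X.Q (Z.nd Q.1)).nuC Q.2)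
      ≤ X.P.om ((X.Q (Z.nd Q.1)).wd Q.2) * (ENNReal.ofReal K * X.P.mu ((X.Q (Z.nd Q.1)).wd Q.2) (Rs ((X.Q (Z.nd Q.1)).wd Q.2) ∩
        ((X.Q (Z.nd Q.1)).A Q.2 ∩ {l | |kpCo (kbV (X.P.co ((X.Q (Z.nd Q.1)).wd Q.2) l)) 1 - (ρ 0 + ρ 1 * kpCo (kbV (X.P.co ((X.Q (Z.nd Q.1)).wd Q.2) l)) 0)|
          ≤ K * X.N ^ (p.ell * τ) * X.N ^ (-p.ell * X.dep (Z.nd Q.1) - c)}) ×ˢ (X.Q (Z.nd Q.1)).I Q.2)) := by
    calc _ = ENNReal.ofReal ((X.prep p Z).q Q) * (X.P.om ((X.Q (Z.nd Q.1)).wd Q.2) * (X.Q (Z.nd Q.1)).nuC Q.2) := by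
          rw [mul_left_comm]; rfl
      _ ≤ _ := hmass
      _ = _ := by rw [mul_left_comm]
  have h3 := (ENNReal.mul_le_mul_iff_right hom0 homT).1 h2
  refine h3.trans (mul_le_mul_left (ENNReal.ofReal_le_ofReal ?_) _)
  nlinarith

/-! ## 4. The targets of Sections 6, 7, 8 and the glue -/

/-- **one-scale target, time candidates, dense residual** -/
def KsLocal (v : KbVer) (p : KpPrm) : Prop :=
  ∃ c₀ C₀ D₀ : ℝ, 0 < c₀ ∧ ∀ τ₁ : ℝ, 0 < τ₁ → ∃ G : KsReq, G.Ok ∧ ∃ τ : ℝ, 0 < τ ∧ ∃ N₁ : ℝ, ∀ (R : KsRef v) (A : R.Par) (E : Set (R.L × ℝ)),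
    N₁ ≤ R.N → R.Rich p G → R.Ok (R.N ^ τ) → R.One A → KsCur R E (R.N ^ τ) →
      ∃ (Q : R.Lab) (c : ℝ), R.dep Q ≤ D₀ ∧ c₀ ≤ c ∧ c ≤ C₀ ∧ ∃ P Cn, KsTimeCand R E (R.N ^ τ₁) c Q P Cn

/-- **one-scale target of Section 6** (`ℓ = 0`): SUBSTANTIAL residual (fraction `η` of the prepared mass of the parent), hereditary breadth with parameters chosen by the section -/
def KsLocalBr (v : KbVer) (p : KpPrm) : Prop :=
  ∃ c₀ C₀ D₀ : ℝ, 0 < c₀ ∧ ∀ η τ₁ : ℝ, 0 < η → 0 < τ₁ → ∃ G : KsReq, G.Ok ∧ ∃ κ u ε τ : ℝ, 0 < κ ∧ 0 < u ∧ 0 < ε ∧ 0 < τ ∧ ∃ N₁ : ℝ,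
    ∀ (R : KsRef v) (A : R.Par) (E : Set (R.L × ℝ)),
    N₁ ≤ R.N → R.Rich p G → R.Ok (R.N ^ τ) → R.One A → R.Brd κ u ε → KsSub R A E η (R.N ^ τ) →
      ∃ (Q : R.Lab) (c : ℝ), R.dep Q ≤ D₀ ∧ c₀ ≤ c ∧ c ≤ C₀ ∧ ∃ P Cn, KsTimeCand R E (R.N ^ τ₁) c Q P Cn

/-- **one-scale target of Sections 7 + 8** (`0 < ℓ < ∞`): time or strip candidates -/
def KsLocalTilt (p : KpPrm) : Prop :=
  ∃ c₀ C₀ D₀ : ℝ, 0 < c₀ ∧ ∀ τ₁ : ℝ, 0 < τ₁ → ∃ G : KsReq, G.Ok ∧ ∃ τ : ℝ, 0 < τ ∧ ∃ N₁ : ℝ, ∀ (R : KsRef KbVer.two) (A : R.Par) (E : Set (R.L × ℝ)),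
    N₁ ≤ R.N → R.Rich p G → R.Ok (R.N ^ τ) → R.Tilt (R.N ^ τ) → R.One A → KsCur R E (R.N ^ τ) →
      ∃ (Q : R.Lab) (c : ℝ), R.dep Q ≤ D₀ ∧ c₀ ≤ c ∧ c ≤ C₀ ∧
        ((∃ P Cn, KsTimeCand R E (R.N ^ τ₁) c Q P Cn) ∨ ∃ ρ Cn, KsStripCand R E (R.N ^ τ₁) c Q ρ Cn)

/-- **L-252-KST-6** candidates of `X` are monotone in the slack -/
theorem ks_cand_mono {X : KpTan v} {p : KpPrm} {Rs : X.P.W → Set (X.P.Lam × ℝ)} {D₀ c₀ C₀ K K' : ℝ} (hN : 2 ≤ X.N) (hK : 0 ≤ K) (h : K ≤ K')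
    (hc : X.Cand p Rs D₀ c₀ C₀ K) : X.Cand p Rs D₀ c₀ C₀ K' := by
  have hN0 : 0 < X.N := by linarith
  have hk : ENNReal.ofReal K ≤ ENNReal.ofReal K' := ENNReal.ofReal_le_ofReal h
  obtain ⟨m, hm, hD, c, g, hg0, hg1, hcand⟩ := hc
  refine ⟨m, hm, hD, c, g, hg0, hg1, ?_⟩
  rcases hcand with ht | ⟨hell, hs⟩
  · left
    obtain ⟨T, A', S', h1, h2, h3, h4, h5, h6, h7, h8, h9, h10⟩ := ht
    have hpos : 0 ≤ X.a m * X.N ^ (-g) := by
      unfold KpTan.a
      exact mul_nonneg (Real.rpow_nonneg hN0.le _) (Real.rpow_nonneg hN0.le _)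
    exact ⟨T, A', S', h1, h2, h3, h4, h5, fun l hl t ht => (h6 l hl t ht).trans (mul_le_mul_of_nonneg_right h hpos),
      fun l hl t ht => (h7 l hl t ht).trans h, fun t y w => (h8 t y w).trans h,
      fun x hx => (h9 x hx).trans (mul_le_mul_of_nonneg_right h (abs_nonneg _)), h10.trans (mul_le_mul' hk le_rfl)⟩
  · right
    obtain ⟨r₀, r₁, A', h1, h2, h3, h4⟩ := hs
    exact ⟨hell, r₀, r₁, A', h1, h2, fun l hl => (h3 l hl).trans (mul_le_mul_of_nonneg_right h (Real.rpow_nonneg hN0.le _)),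
      h4.trans (mul_le_mul' hk le_rfl)⟩

end

end Claimed.Agent.R252
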