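import Claimed.Agent.R252.State.KsLoc
import Claimed.Agent.R252.S2s.Api

/-!
# ROW 252 (S0492), unit STATE (helper31), file 7: COARSER VELOCITY BINS.        CONTRACT file: the `sorry`s are the leaves L-252-KSV-*.

The record stores the ceilings (`dom`, `joint`) for the FINEST dyadic velocity cubes `kpCube χ b`.  The dyadic grids are nested (`k2s_bin_nested`), the palette is a measure: all ceilings hold verbatim for the cubes of every mesh `χ' ≥ χ`.
-/

set_option autoImplicit false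

namespace Claimed.Agent.R252

open MeasureTheory
open scoped ENNReal BigOperators

noncomputable section

variable {v : KbVer}

/-- **L-252-KSV-1** cubes are measurable, disjoint, and a coarse cube is a FINITE union of fine cubes -/
theorem ks_cube_meas (β : ℝ) (b : Fin v.j → ℤ) : MeasurableSet (kpCube (v := v) β b) := by
  have h1 : kpCube (v := v) β b = ⋂ i, (fun u : KbB v => kbBin β (u i)) ⁻¹' {b i} := by
    ext u
    simp [kpCube]
  rw [h1]
  exact MeasurableSet.iInter fun i => ((k2s_bin_meas β).comp (measurable_pi_apply i)) (measurableSet_singleton _)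

theorem ks_cube_disj (β : ℝ) {b b' : Fin v.j → ℤ} (h : b ≠ b') : Disjoint (kpCube (v := v) β b) (kpCube β b') := by
  refine Set.disjoint_left.2 fun u hu hu' => h ?_
  funext i
  exact (hu i).symm.trans (hu' i)

theorem ks_cube_nested {χ χ' : ℝ} (h0 : 0 < χ) (h : χ ≤ χ') (b' : Fin v.j → ℤ) :
    ∃ F : Finset (Fin v.j → ℤ), kpCube (v := v) χ' b' = ⋃ b ∈ F, kpCube χ b := by
  classical
  obtain ⟨φ, hφ⟩ := k2s_bin_nested h0 h
  refine ⟨Fintype.piFinset fun i => (Finset.Icc ⌊(b' i : ℝ) * kbDy χ' / kbDy χ⌋ ⌊((b' i : ℝ) + 1) * kbDy χ' / kbDy χ⌋).filter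
    fun e => φ e = b' i, ?_⟩
  ext u
  simp only [Set.mem_iUnion, exists_prop, Fintype.mem_piFinset, Finset.mem_filter, Finset.mem_Icc]
  constructor
  · intro hu
    refine ⟨fun i => kbBin χ (u i), fun i => ⟨?_, ?_⟩, fun i => rfl⟩
    · obtain ⟨h1, h2⟩ := (k2s_bin_iff χ' (u i) (b' i)).1 (hu i)
      exact ⟨Int.floor_le_floor (div_le_div_of_nonneg_right h1 (k2s_dy_pos χ).le),
        Int.floor_le_floor (div_le_div_of_nonneg_right h2.le (k2s_dy_pos χ).le)⟩
    · rw [← hφ]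
      exact hu i
  · rintro ⟨b, hb, hu⟩ i
    rw [hφ, hu i]
    exact (hb i).2

/-- membership in a finest cube = the finest velocity bin -/
theorem ks_vel_mem_cube (R : KsRef v) (l : R.L) (b : Fin v.j → ℤ) : R.vel l ∈ kpCube R.χ b ↔ R.vbin l = b :=
  ⟨fun h => funext h, fun h i => congrFun h i⟩

/-- the palette of a finite union of finest cubes -/
theorem ks_pal_union (R : KsRef v) (A : R.Par) (F : Finset (Fin v.j → ℤ)) : R.pal A (⋃ b ∈ F, kpCube R.χ b) = ∑ b ∈ F, R.pi A b :=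
  measure_biUnion_finset (fun _ _ _ _ hbb => ks_cube_disj R.χ hbb) fun b _ => ks_cube_meas R.χ b

/-- **L-252-KSV-2** a numerator ceiling for the finest bins gives the same ceiling for all coarser bins -/
theorem ks_dom_coarse {R : KsRef v} {K : ℝ} (h : R.Ok K) {S : Type*} {μ : Measure (R.L × ℝ)} {s : R.L × ℝ → S} {A : S → R.Par} {Ref : S → ℝ≥0∞} {K0 : ℝ≥0∞}
    (hd : KsDom μ s R.vT (fun s0 b => R.pi (A s0) b) Ref K0) {χ' : ℝ} (hχ : R.χ ≤ χ') :
    KsDom μ s (fun b' : Fin v.j → ℤ => {z | R.vel z.1 ∈ kpCube χ' b'}) (fun s0 b' => R.pal (A s0) (kpCube χ' b')) Ref K0 := by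
  intro s0 b'
  obtain ⟨F, hF⟩ := ks_cube_nested (v := v) h.χ_pos hχ b'
  have e1 : s ⁻¹' {s0} ∩ {z : R.L × ℝ | R.vel z.1 ∈ kpCube χ' b'} = ⋃ b ∈ F, s ⁻¹' {s0} ∩ R.vT b := by
    rw [hF, ← Set.inter_iUnion₂]
    congr 1
    ext z
    simp only [Set.mem_setOf_eq, Set.mem_iUnion, exists_prop]
    exact exists_congr fun b => and_congr_right fun _ => ks_vel_mem_cube R z.1 b
  show μ (s ⁻¹' {s0} ∩ {z : R.L × ℝ | R.vel z.1 ∈ kpCube χ' b'}) ≤ K0 * R.pal (A s0) (kpCube χ' b') * Ref s0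
  rw [e1, hF, ks_pal_union R (A s0) F]
  refine (measure_biUnion_finset_le F _).trans ?_
  rw [Finset.mul_sum, Finset.sum_mul]
  exact Finset.sum_le_sum fun b _ => hd s0 b

/-- **L-252-KSV-3** the joint caps for coarser velocity bins -/
theorem ks_joint_coarse {R : KsRef v} {K : ℝ} (h : R.Ok K) {M r : ℝ} (hM : M ∈ R.meshes) (hr : r ∈ R.widths) {χ' : ℝ} (hχ : R.χ ≤ χ') (A : R.Par)
    (c : ℤ × (Fin v.j → ℤ) × ℤ) (b' : Fin v.j → ℤ) :
    R.lam0 {p | R.par p.1 = A ∧ R.pt M r p = c ∧ R.vel p.1 ∈ kpCube χ' b'}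
      ≤ ENNReal.ofReal K * ENNReal.ofReal (R.a r ^ R.d * R.a M ^ (v.j + 1)) * R.pA A * R.pal A (kpCube χ' b') := by
  obtain ⟨F, hF⟩ := ks_cube_nested (v := v) h.χ_pos hχ b'
  have e1 : {p : R.L × ℝ | R.par p.1 = A ∧ R.pt M r p = c ∧ R.vel p.1 ∈ kpCube χ' b'} = ⋃ b ∈ F, {p : R.L × ℝ | R.par p.1 = A ∧ R.pt M r p = c ∧ R.vbin p.1 = b} := by
    rw [hF]
    ext z
    simp only [Set.mem_setOf_eq, Set.mem_iUnion, exists_prop]
    constructor
    · rintro ⟨h1, h2, b, hb, h3⟩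
      exact ⟨b, hb, h1, h2, (ks_vel_mem_cube R z.1 b).1 h3⟩
    · rintro ⟨b, hb, h1, h2, h3⟩
      exact ⟨h1, h2, b, hb, (ks_vel_mem_cube R z.1 b).2 h3⟩
  rw [e1, hF, ks_pal_union R A F]
  refine (measure_biUnion_finset_le F _).trans ?_
  rw [Finset.mul_sum]
  exact Finset.sum_le_sum fun b _ => h.joint M hM r hr A c b

end

end Claimed.Agent.R252
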