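import Mathlib

/-!
# ROW 252 (S0492), unit STATE (post BP-252-T3-PREP, helper31): THE STATE CALCULUS.          CONTRACT file: the `sorry`s are the leaves L-252-KS-*.

Paper: 04 l.858-975 (`a03:finite-state-conditioning`), 07 l.15-45 (`a06:summable-pruning`), 08 l.49-75 (`a07:simultaneous-floors`), 02 `a01:witness-budgets` (deletion argument).
ONE scale, no sequences, no `o(1)`; all slacks are explicit elements of `ℝ≥0∞`; every floor is written MULTIPLICATIVELY (`Ref ≤ K₁ * mass`), so there is no division and no finiteness side condition.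

## Vocabulary
* `Ω` = the incidences (trajectory, time) [any measurable space]; `μ` = the CURRENT unnormalised restricted law.
* a *label* `s : Ω → S`, `S` finite, all events `{s = s0}` measurable (`KsLab`).  Parents, end histories, appended data, point states, path labels are labels.  A mixture over parents is ONE measure with the parent as a part of the state.
* *tests* `T : ι → Set Ω` (velocity bins `{[v] = b}`, or `{v ∈ U}`), *palette* `π : S → ι → ℝ≥0∞` (it may depend on the state, e.g. through the parent), never changed.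
* *reference weights* `Ref : S → ℝ≥0∞`: FIXED numbers, they are not touched by later restrictions.
* `KsDom μ s T π Ref K` : the unnormalised numerator ceiling `μ {s = s0, T i} ≤ K π(s0, i) Ref (s0)`   (a03:palette-joint), (a03:appended-joint-cap).
* `KsCond μ s T π K`     : the conditional ceiling = `KsDom` against the CURRENT masses.
## The rules of the paper, as theorems
 R1 `ks_dom_mono`      : a numerator ceiling persists under restriction (same `Ref`).
 R2 `ks_app_dom`, `ks_app_loss` : append a datum with `≤ n` options per state, delete the entries below `Ref / K₁`: loss `≤ n ∑ Ref / K₁`, new ceiling `K K₁` against the PRE-OMISSION entry masses.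
 R3 `ks_coarsen`       : ceilings sum to any coarser state, reference weights add.
 R4 `ks_prune_cond`, `ks_prune_loss` : a conditional ceiling needs a NEW denominator pruning: loss `≤ ∑ Ref / K₂`, ceiling `K K₂`.
 R5 `ks_prune_half`    : the scaled form (a06:summable-pruning): choose `K₁` after `K⁽⁰⁾, K⁽²⁾, K⁽³⁾`.
 R6 `ks_floors`        : simultaneous CURRENT floors for finitely many families of events.
 R7 `ks_truncate`, `ks_truncate_dom` : likelihood truncation: an information bound gives the first ceiling.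
 `ks_step` = R2 + R3 in one call = "the ONE reusable state lemma".
-/

set_option autoImplicit false

namespace Claimed.Agent.R252

open MeasureTheory
open scoped ENNReal BigOperators

noncomputable section

variable {Ω : Type*} [MeasurableSpace Ω]

/-! ## 1. Definitions -/

/-- a label: all its events are measurable -/
def KsLab {S : Type*} (s : Ω → S) : Prop := ∀ s0, MeasurableSet (s ⁻¹' {s0})

/-- the current mass of a state -/
def ksMass {S : Type*} (μ : Measure Ω) (s : Ω → S) (s0 : S) : ℝ≥0∞ := μ (s ⁻¹' {s0})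

/-- two labels together -/
def ksPair {S D : Type*} (s : Ω → S) (d : Ω → D) : Ω → S × D := fun ω => (s ω, d ω)

/-- **numerator ceiling (palette domination)** against fixed reference weights -/
def KsDom {S ι : Type*} (μ : Measure Ω) (s : Ω → S) (T : ι → Set Ω) (π : S → ι → ℝ≥0∞) (Ref : S → ℝ≥0∞) (K : ℝ≥0∞) : Prop :=
  ∀ s0 i, μ (s ⁻¹' {s0} ∩ T i) ≤ K * π s0 i * Ref s0

/-- **conditional ceiling**: domination against the current masses -/
def KsCond {S ι : Type*} (μ : Measure Ω) (s : Ω → S) (T : ι → Set Ω) (π : S → ι → ℝ≥0∞) (K : ℝ≥0∞) : Prop :=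
  KsDom μ s T π (ksMass μ s) K

/-- the states which pass the floor `Ref ≤ K₁ * (current mass)` -/
def ksKeep {S : Type*} (μ : Measure Ω) (s : Ω → S) (Ref : S → ℝ≥0∞) (K1 : ℝ≥0∞) : Set S := {s0 | Ref s0 ≤ K1 * ksMass μ s s0}

/-- deletion of the WHOLE light states -/
def ksPrune {S : Type*} (μ : Measure Ω) (s : Ω → S) (Ref : S → ℝ≥0∞) (K1 : ℝ≥0∞) : Measure Ω := μ.restrict (s ⁻¹' ksKeep μ s Ref K1)

/-- the appended datum `d` has at most `n` options per state (options = entries of positive current mass) -/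
def KsOpt {S D : Type*} (μ : Measure Ω) (s : Ω → S) (d : Ω → D) (n : ℕ) : Prop :=
  ∀ s0, ∃ L : Finset D, L.card ≤ n ∧ ∀ d0, d0 ∉ L → ksMass μ (ksPair s d) (s0, d0) = 0

/-- append `d` and delete the entries `(s0, d0)` of mass below `Ref s0 / K₁` -/
def ksApp {S D : Type*} (μ : Measure Ω) (s : Ω → S) (d : Ω → D) (Ref : S → ℝ≥0∞) (K1 : ℝ≥0∞) : Measure Ω :=
  ksPrune μ (ksPair s d) (fun x => Ref x.1) K1

open Classical in
/-- reference weights of a coarser state -/
def ksPush {S S' : Type*} [Fintype S] (C : S → S') (Ref : S → ℝ≥0∞) (c : S') : ℝ≥0∞ := ∑ s0 ∈ Finset.univ.filter (fun s0 => C s0 = c), Ref s0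

/-! ## 2. Elementary facts -/

section basic

variable {S D S' ι : Type*}

theorem ks_lab_pair {s : Ω → S} {d : Ω → D} (hs : KsLab s) (hd : KsLab d) : KsLab (ksPair s d) := by
  intro x
  have : ksPair s d ⁻¹' {x} = s ⁻¹' {x.1} ∩ d ⁻¹' {x.2} := by
    ext ω
    simp [ksPair, Prod.ext_iff]
  rw [this]
  exact (hs _).inter (hd _)

theorem ks_lab_comp [Finite S] {s : Ω → S} (hs : KsLab s) (C : S → S') : KsLab (C ∘ s) := by
  intro c
  have : (C ∘ s) ⁻¹' {c} = ⋃ s0 ∈ {s0 | C s0 = c}, s ⁻¹' {s0} := by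
    ext ω
    simp
  rw [this]
  exact MeasurableSet.biUnion (Set.to_countable _) fun s0 _ => hs s0

theorem ks_lab_preimage [Finite S] {s : Ω → S} (hs : KsLab s) (A : Set S) : MeasurableSet (s ⁻¹' A) := by
  have : s ⁻¹' A = ⋃ s0 ∈ A, s ⁻¹' {s0} := by
    ext ω
    simp
  rw [this]
  exact MeasurableSet.biUnion (Set.to_countable _) fun s0 _ => hs s0

theorem ks_mass_pre_aux [Fintype S] (μ : Measure Ω) {s : Ω → S} (hs : KsLab s) (A : Finset S) : μ (s ⁻¹' (A : Set S)) = ∑ s0 ∈ A, ksMass μ s s0 := by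
  have e : s ⁻¹' (A : Set S) = ⋃ s0 ∈ A, s ⁻¹' {s0} := by
    ext ω
    simp
  rw [e, measure_biUnion_finset]
  · rfl
  · intro x _ y _ hxy
    exact Set.disjoint_left.2 fun ω hx hy => hxy (by
      have h1 : s ω = x := hx
      have h2 : s ω = y := hy
      rw [← h1, ← h2])
  · exact fun s0 _ => hs s0

/-- **L-252-KS-1a** -/
theorem ks_mass_sum [Fintype S] (μ : Measure Ω) {s : Ω → S} (hs : KsLab s) : ∑ s0, ksMass μ s s0 = μ Set.univ := by
  rw [← ks_mass_pre_aux μ hs Finset.univ]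
  simp

/-- **L-252-KS-1b**: the mass of a set of states -/
theorem ks_mass_preimage [Fintype S] (μ : Measure Ω) {s : Ω → S} (hs : KsLab s) (A : Finset S) : μ (s ⁻¹' (A : Set S)) = ∑ s0 ∈ A, ksMass μ s s0 := by
  exact ks_mass_pre_aux μ hs A

/-- R1: numerator ceilings persist under restriction, and are monotone in all parameters -/
theorem ks_dom_mono {μ μ' : Measure Ω} {s : Ω → S} {T : ι → Set Ω} {π π' : S → ι → ℝ≥0∞} {Ref Ref' : S → ℝ≥0∞} {K K' : ℝ≥0∞}
    (h : KsDom μ s T π Ref K) (hμ : μ' ≤ μ) (hπ : ∀ s0 i, π s0 i ≤ π' s0 i) (hR : ∀ s0, Ref s0 ≤ Ref' s0) (hK : K ≤ K') :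
    KsDom μ' s T π' Ref' K' := fun s0 i =>
  (hμ _).trans ((h s0 i).trans (mul_le_mul' (mul_le_mul' hK (hπ s0 i)) (hR s0)))

theorem ks_prune_le (μ : Measure Ω) (s : Ω → S) (Ref : S → ℝ≥0∞) (K1 : ℝ≥0∞) : ksPrune μ s Ref K1 ≤ μ := Measure.restrict_le_self

theorem ks_app_le (μ : Measure Ω) (s : Ω → S) (d : Ω → D) (Ref : S → ℝ≥0∞) (K1 : ℝ≥0∞) : ksApp μ s d Ref K1 ≤ μ := Measure.restrict_le_self

/-- **L-252-KS-2a**: whole states are kept -/
theorem ks_prune_mass_keep [Finite S] (μ : Measure Ω) {s : Ω → S} (hs : KsLab s) (Ref : S → ℝ≥0∞) (K1 : ℝ≥0∞) (s0 : S) (h : s0 ∈ ksKeep μ s Ref K1) (A : Set Ω) :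
    ksPrune μ s Ref K1 (s ⁻¹' {s0} ∩ A) = μ (s ⁻¹' {s0} ∩ A) := by
  unfold ksPrune
  rw [Measure.restrict_apply' (ks_lab_preimage hs _)]
  congr 1
  apply Set.inter_eq_left.2
  intro ω hω
  have h1 : s ω = s0 := hω.1
  show s ω ∈ ksKeep μ s Ref K1
  rw [h1]
  exact h

/-- **L-252-KS-2b**: or deleted -/
theorem ks_prune_mass_del [Finite S] (μ : Measure Ω) {s : Ω → S} (hs : KsLab s) (Ref : S → ℝ≥0∞) (K1 : ℝ≥0∞) (s0 : S) (h : s0 ∉ ksKeep μ s Ref K1) (A : Set Ω) :
    ksPrune μ s Ref K1 (s ⁻¹' {s0} ∩ A) = 0 := by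
  unfold ksPrune
  rw [Measure.restrict_apply' (ks_lab_preimage hs _)]
  have e : s ⁻¹' {s0} ∩ A ∩ s ⁻¹' ksKeep μ s Ref K1 = ∅ := by
    apply Set.eq_empty_of_forall_notMem
    intro ω hω
    have h1 : s ω = s0 := hω.1.1
    have h2 : s ω ∈ ksKeep μ s Ref K1 := hω.2
    rw [h1] at h2
    exact h h2
  rw [e, measure_empty]

end basic

/-! ## 3. The rules -/

section rules

variable {S D S' ι : Type*}

/-- **L-252-KS-3a**, R4 (loss): deleting the states with `K₂ * mass < Ref` costs at most `∑ Ref / K₂` -/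
theorem ks_prune_loss [Fintype S] (μ : Measure Ω) {s : Ω → S} (hs : KsLab s) (Ref : S → ℝ≥0∞) (K2 : ℝ≥0∞) :
    K2 * μ (s ⁻¹' (ksKeep μ s Ref K2)ᶜ) ≤ ∑ s0, Ref s0 := by
  classical
  have e : ((ksKeep μ s Ref K2)ᶜ : Set S) = ((Finset.univ.filter fun s0 => s0 ∉ ksKeep μ s Ref K2 : Finset S) : Set S) := by
    ext x
    simp
  rw [e, ks_mass_preimage μ hs, Finset.mul_sum]
  refine le_trans (Finset.sum_le_sum fun s0 h0 => ?_) (Finset.sum_le_sum_of_subset (Finset.filter_subset _ _))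
  have h1 : s0 ∉ ksKeep μ s Ref K2 := (Finset.mem_filter.1 h0).2
  have h2 : ¬ (Ref s0 ≤ K2 * ksMass μ s s0) := h1
  exact (not_le.1 h2).le

/-- **L-252-KS-3b**, R4 (ceiling): on the survivors the numerator ceiling becomes a conditional ceiling -/
theorem ks_prune_cond [Finite S] {μ : Measure Ω} {s : Ω → S} (hs : KsLab s) {T : ι → Set Ω} {π : S → ι → ℝ≥0∞} {Ref : S → ℝ≥0∞} {K : ℝ≥0∞}
    (h : KsDom μ s T π Ref K) (K2 : ℝ≥0∞) : KsCond (ksPrune μ s Ref K2) s T π (K * K2) := by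
  intro s0 i
  by_cases hk : s0 ∈ ksKeep μ s Ref K2
  · rw [ks_prune_mass_keep μ hs Ref K2 s0 hk]
    have hm : ksMass (ksPrune μ s Ref K2) s s0 = ksMass μ s s0 := by
      have := ks_prune_mass_keep μ hs Ref K2 s0 hk Set.univ
      simpa [ksMass] using this
    rw [hm]
    have hk' : Ref s0 ≤ K2 * ksMass μ s s0 := hk
    calc μ (s ⁻¹' {s0} ∩ T i) ≤ K * π s0 i * Ref s0 := h s0 i
      _ ≤ K * π s0 i * (K2 * ksMass μ s s0) := mul_le_mul' le_rfl hk'
      _ = K * K2 * π s0 i * ksMass μ s s0 := by ring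
  · rw [ks_prune_mass_del μ hs Ref K2 s0 hk]
    exact zero_le

/-- **L-252-KS-4a**, R2 (loss): `K₁ * loss ≤ n ∑ Ref` -/
theorem ks_app_loss [Fintype S] [Fintype D] (μ : Measure Ω) {s : Ω → S} {d : Ω → D} (hs : KsLab s) (hd : KsLab d) (Ref : S → ℝ≥0∞) (K1 : ℝ≥0∞) (n : ℕ)
    (hn : KsOpt μ s d n) :
    K1 * μ (ksPair s d ⁻¹' (ksKeep μ (ksPair s d) (fun x => Ref x.1) K1)ᶜ) ≤ n * ∑ s0, Ref s0 := by
  classical
  choose L hLc hL0 using hn
  have hA : ((Finset.univ.filter (fun x : S × D => x ∉ ksKeep μ (ksPair s d) (fun x => Ref x.1) K1) : Finset (S × D)) : Set (S × D))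
      = (ksKeep μ (ksPair s d) (fun x => Ref x.1) K1)ᶜ := by
    ext x
    simp
  rw [← hA, ks_mass_preimage μ (ks_lab_pair hs hd), Finset.mul_sum]
  have h1 : ∀ x ∈ Finset.univ.filter (fun x : S × D => x ∉ ksKeep μ (ksPair s d) (fun x => Ref x.1) K1),
      K1 * ksMass μ (ksPair s d) x ≤ if x.2 ∈ L x.1 then Ref x.1 else 0 := by
    intro x hx
    have hx' : ¬ (Ref x.1 ≤ K1 * ksMass μ (ksPair s d) x) := (Finset.mem_filter.1 hx).2
    split_ifs with hm
    · exact (not_le.1 hx').le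
    · have h0 : ksMass μ (ksPair s d) (x.1, x.2) = 0 := hL0 x.1 x.2 hm
      have h0' : ksMass μ (ksPair s d) x = 0 := h0
      rw [h0', mul_zero]
  refine (Finset.sum_le_sum h1).trans ?_
  refine (Finset.sum_le_sum_of_subset (Finset.filter_subset _ _)).trans ?_
  rw [Fintype.sum_prod_type, Finset.mul_sum]
  refine Finset.sum_le_sum fun s0 _ => ?_
  have h2 : ∑ d0 : D, (if d0 ∈ L s0 then Ref s0 else 0) = (L s0).card * Ref s0 := by
    rw [← Finset.sum_filter]
    simp
  simp only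
  rw [h2]
  exact mul_le_mul' (by exact_mod_cast hLc s0) le_rfl

/-- **L-252-KS-4b**, R2 (ceiling), (a03:appended-joint-cap): new reference weights = the PRE-OMISSION entry masses -/
theorem ks_app_dom [Finite S] [Finite D] {μ : Measure Ω} {s : Ω → S} {d : Ω → D} (hs : KsLab s) (hd : KsLab d) {T : ι → Set Ω} {π : S → ι → ℝ≥0∞}
    {Ref : S → ℝ≥0∞} {K : ℝ≥0∞} (h : KsDom μ s T π Ref K) (K1 : ℝ≥0∞) :
    KsDom (ksApp μ s d Ref K1) (ksPair s d) T (fun x => π x.1) (ksMass μ (ksPair s d)) (K * K1) := by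
  intro x i
  by_cases hx : x ∈ ksKeep μ (ksPair s d) (fun x => Ref x.1) K1
  · have e1 : ksApp μ s d Ref K1 (ksPair s d ⁻¹' {x} ∩ T i) = μ (ksPair s d ⁻¹' {x} ∩ T i) :=
      ks_prune_mass_keep μ (ks_lab_pair hs hd) (fun x => Ref x.1) K1 x hx (T i)
    rw [e1]
    have hsub : ksPair s d ⁻¹' {x} ∩ T i ⊆ s ⁻¹' {x.1} ∩ T i := by
      intro ω hω
      refine ⟨?_, hω.2⟩
      have h1 : ksPair s d ω = x := hω.1
      show s ω = x.1
      rw [← h1]
      rfl
    have hx' : Ref x.1 ≤ K1 * ksMass μ (ksPair s d) x := hx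
    calc μ (ksPair s d ⁻¹' {x} ∩ T i) ≤ μ (s ⁻¹' {x.1} ∩ T i) := measure_mono hsub
      _ ≤ K * π x.1 i * Ref x.1 := h x.1 i
      _ ≤ K * π x.1 i * (K1 * ksMass μ (ksPair s d) x) := mul_le_mul' le_rfl hx'
      _ = K * K1 * π x.1 i * ksMass μ (ksPair s d) x := by ring
  · have e1 : ksApp μ s d Ref K1 (ksPair s d ⁻¹' {x} ∩ T i) = 0 :=
      ks_prune_mass_del μ (ks_lab_pair hs hd) (fun x => Ref x.1) K1 x hx (T i)
    rw [e1]
    exact bot_le

/-- **L-252-KS-5**, R3: ceilings sum to a coarser state through which the palette factors -/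
theorem ks_coarsen [Fintype S] {μ : Measure Ω} {s : Ω → S} {T : ι → Set Ω} {π : S → ι → ℝ≥0∞} {Ref : S → ℝ≥0∞} {K : ℝ≥0∞}
    (h : KsDom μ s T π Ref K) (C : S → S') (π' : S' → ι → ℝ≥0∞) (hπ : ∀ s0 i, π s0 i ≤ π' (C s0) i) :
    KsDom μ (C ∘ s) T π' (ksPush C Ref) K := by
  classical
  intro c i
  have h1 : (C ∘ s) ⁻¹' {c} ∩ T i = ⋃ s0 ∈ Finset.univ.filter (fun s0 => C s0 = c), (s ⁻¹' {s0} ∩ T i) := by
    ext ω
    simp only [Set.mem_inter_iff, Set.mem_preimage, Function.comp_apply, Set.mem_singleton_iff, Set.mem_iUnion,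
      Finset.mem_filter, Finset.mem_univ, true_and, exists_prop]
    constructor
    · rintro ⟨h1, h2⟩
      exact ⟨s ω, h1, rfl, h2⟩
    · rintro ⟨s0, h1, h2, h3⟩
      exact ⟨by rw [h2]; exact h1, h3⟩
  rw [h1]
  refine (measure_biUnion_finset_le _ _).trans ?_
  unfold ksPush
  rw [Finset.mul_sum]
  refine Finset.sum_le_sum fun s0 hs0 => ?_
  have hc : C s0 = c := (Finset.mem_filter.1 hs0).2
  exact (h s0 i).trans (mul_le_mul' (mul_le_mul' le_rfl (hc ▸ hπ s0 i)) le_rfl)

/-- **L-252-KS-5b**: the total reference weight does not change -/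
theorem ks_push_sum [Fintype S] [Fintype S'] (C : S → S') (Ref : S → ℝ≥0∞) : ∑ c, ksPush C Ref c = ∑ s0, Ref s0 := by
  classical
  unfold ksPush
  have := Finset.sum_fiberwise (Finset.univ : Finset S) C Ref
  convert this using 2

/-- the pushed pre-omission masses are the pre-omission masses of the coarser state: `w (C) = μ {C = c}` -/
theorem ks_push_mass [Fintype S] (μ : Measure Ω) {s : Ω → S} (hs : KsLab s) (C : S → S') (c : S') : ksPush C (ksMass μ s) c = ksMass μ (C ∘ s) c := by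
  classical
  unfold ksPush
  have h1 := ks_mass_preimage μ hs (Finset.univ.filter (fun s0 => C s0 = c))
  have e : (C ∘ s) ⁻¹' {c} = s ⁻¹' ((Finset.univ.filter (fun s0 => C s0 = c) : Finset S) : Set S) := by
    ext ω
    simp
  show _ = μ ((C ∘ s) ⁻¹' {c})
  rw [e, h1]

/-- **THE STATE LEMMA** (R2 + R3): append a datum with `≤ n` options per state, delete the light entries against the reference weights, pass to any coarser state `C (s, d)` which still knows the palette.
Output: the restricted law `μ' = ksApp ..`, with `K₁ * (μ - μ') ≤ n ∑ Ref`, a numerator ceiling `K K₁` against `w = ` the masses of `C` under `μ` (before the omission), `∑ w = μ (univ)`. -/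
theorem ks_step [Fintype S] [Fintype D] {μ : Measure Ω} {s : Ω → S} {d : Ω → D} (hs : KsLab s) (hd : KsLab d) {T : ι → Set Ω} {π : S → ι → ℝ≥0∞}
    {Ref : S → ℝ≥0∞} {K : ℝ≥0∞} (h : KsDom μ s T π Ref K) (K1 : ℝ≥0∞) (n : ℕ) (hn : KsOpt μ s d n)
    (C : S × D → S') (π' : S' → ι → ℝ≥0∞) (hπ : ∀ x i, π x.1 i ≤ π' (C x) i) :
    KsDom (ksApp μ s d Ref K1) (C ∘ ksPair s d) T π' (ksMass μ (C ∘ ksPair s d)) (K * K1) ∧
    K1 * μ (ksPair s d ⁻¹' (ksKeep μ (ksPair s d) (fun x => Ref x.1) K1)ᶜ) ≤ n * ∑ s0, Ref s0 := by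
  refine ⟨?_, ks_app_loss μ hs hd Ref K1 n hn⟩
  have h1 := ks_coarsen (ks_app_dom hs hd h K1) C π' hπ
  intro c i
  have h2 := h1 c i
  rwa [ks_push_mass μ (ks_lab_pair hs hd) C c] at h2

/-- **L-252-KS-6**, R5 = (a06:summable-pruning), scaled form: `∑ Ref ≤ K⁽⁰⁾ M`, current mass `≥ M / K⁽²⁾`, `≤ n` options; if `2 n K⁽⁰⁾ K⁽²⁾ ≤ K₁` then at least half of the current mass survives -/
theorem ks_prune_half [Fintype S] [Fintype D] (μ : Measure Ω) [IsFiniteMeasure μ] {s : Ω → S} {d : Ω → D} (hs : KsLab s) (hd : KsLab d) (Ref : S → ℝ≥0∞)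
    (K0 K1 K2 M : ℝ≥0∞) (n : ℕ) (hn : KsOpt μ s d n) (hR : ∑ s0, Ref s0 ≤ K0 * M) (hM : M ≤ K2 * μ Set.univ) (hK : 2 * n * K0 * K2 ≤ K1) (hK1 : K1 ≠ ⊤) :
    μ Set.univ ≤ 2 * ksApp μ s d Ref K1 Set.univ := by
  classical
  have hlab := ks_lab_pair hs hd
  have hP : MeasurableSet (ksPair s d ⁻¹' ksKeep μ (ksPair s d) (fun x => Ref x.1) K1) := ks_lab_preimage hlab _
  have happ : ksApp μ s d Ref K1 Set.univ = μ (ksPair s d ⁻¹' ksKeep μ (ksPair s d) (fun x => Ref x.1) K1) := by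
    unfold ksApp ksPrune
    rw [Measure.restrict_apply_univ]
  have hsplit : μ (ksPair s d ⁻¹' ksKeep μ (ksPair s d) (fun x => Ref x.1) K1)
      + μ (ksPair s d ⁻¹' (ksKeep μ (ksPair s d) (fun x => Ref x.1) K1)ᶜ) = μ Set.univ := by
    rw [Set.preimage_compl]
    exact measure_add_measure_compl hP
  have hloss := ks_app_loss μ hs hd Ref K1 n hn
  have hbT : μ (ksPair s d ⁻¹' (ksKeep μ (ksPair s d) (fun x => Ref x.1) K1)ᶜ) ≠ ⊤ := measure_ne_top μ _
  by_cases hc : (n : ℝ≥0∞) * K0 * K2 = 0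
  · rcases mul_eq_zero.1 hc with hc | hc
    · rcases mul_eq_zero.1 hc with hc | hc
      · -- no option at all: the measure vanishes
        have hn0 : n = 0 := by exact_mod_cast hc
        have h0 : ∀ x : S × D, ksMass μ (ksPair s d) x = 0 := by
          rintro ⟨s0, d0⟩
          obtain ⟨L, hL, hL'⟩ := hn s0
          have hLe : L = ∅ := Finset.card_eq_zero.1 (by omega)
          exact hL' d0 (by rw [hLe]; exact Finset.notMem_empty _)
        rw [← ks_mass_sum μ hlab, Finset.sum_eq_zero fun x _ => h0 x]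
        exact zero_le
      · -- no reference weight: nothing is deleted
        rw [hc, zero_mul] at hR
        have hR0 : ∀ s0, Ref s0 = 0 := fun s0 =>
          (Finset.sum_eq_zero_iff.1 (le_antisymm hR zero_le)) s0 (Finset.mem_univ _)
        have hall : ksKeep μ (ksPair s d) (fun x => Ref x.1) K1 = Set.univ := by
          ext x
          simp only [ksKeep, Set.mem_ofPred_eq, Set.mem_univ, iff_true, hR0]
          exact zero_le
        rw [happ, hall, Set.preimage_univ, two_mul]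
        exact le_self_add
    · rw [hc, zero_mul] at hM
      have hM0 : M = 0 := le_antisymm hM zero_le
      rw [hM0, mul_zero] at hR
      have hR0 : ∀ s0, Ref s0 = 0 := fun s0 =>
        (Finset.sum_eq_zero_iff.1 (le_antisymm hR zero_le)) s0 (Finset.mem_univ _)
      have hall : ksKeep μ (ksPair s d) (fun x => Ref x.1) K1 = Set.univ := by
        ext x
        simp only [ksKeep, Set.mem_ofPred_eq, Set.mem_univ, iff_true, hR0]
        exact zero_le
      rw [happ, hall, Set.preimage_univ, two_mul]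
      exact le_self_add
  · rw [happ]
    generalize μ (ksPair s d ⁻¹' ksKeep μ (ksPair s d) (fun x => Ref x.1) K1) = a at *
    generalize μ (ksPair s d ⁻¹' (ksKeep μ (ksPair s d) (fun x => Ref x.1) K1)ᶜ) = b at *
    generalize μ Set.univ = m at *
    have h2c : 2 * ((n : ℝ≥0∞) * K0 * K2) ≤ K1 := by
      calc 2 * ((n : ℝ≥0∞) * K0 * K2) = 2 * n * K0 * K2 := by ring
        _ ≤ K1 := hK
    have hcT : (n : ℝ≥0∞) * K0 * K2 ≠ ⊤ := by
      refine ne_top_of_le_ne_top hK1 (le_trans ?_ h2c)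
      rw [two_mul]
      exact le_self_add
    have h1 : (n : ℝ≥0∞) * K0 * K2 * (2 * b) ≤ (n : ℝ≥0∞) * K0 * K2 * m :=
      calc (n : ℝ≥0∞) * K0 * K2 * (2 * b) = 2 * ((n : ℝ≥0∞) * K0 * K2) * b := by ring
        _ ≤ K1 * b := mul_le_mul' h2c le_rfl
        _ ≤ n * ∑ s0, Ref s0 := hloss
        _ ≤ n * (K0 * (K2 * m)) := mul_le_mul' le_rfl (hR.trans (mul_le_mul' le_rfl hM))
        _ = (n : ℝ≥0∞) * K0 * K2 * m := by ring
    have h2 : 2 * b ≤ m := (ENNReal.mul_le_mul_iff_right hc hcT).1 h1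
    rw [← hsplit, two_mul] at h2
    have h3 : b ≤ a := (ENNReal.add_le_add_iff_right hbT).1 h2
    rw [← hsplit, two_mul]
    exact add_le_add le_rfl h3

/-- **L-252-KS-7**, R6 = (a07:simultaneous-floors), (a01:witness-budgets): finitely many events `A x` (ALL labels of ALL families), proposed floors `θ x`.
There is a set `Del` of deleted labels: the deleted incidences weigh at most `∑_{Del} θ`, and every surviving label has CURRENT mass `≥ θ`.  No measurability, no disjointness, no multiplicity. -/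
theorem ks_floors {X : Type*} [Fintype X] (μ : Measure Ω) (A : X → Set Ω) (θ : X → ℝ≥0∞) :
    ∃ Del : Finset X, μ (⋃ x ∈ Del, A x) ≤ ∑ x ∈ Del, θ x ∧ ∀ x, x ∉ Del → θ x ≤ μ (A x \ ⋃ y ∈ Del, A y) := by
  classical
  have key : ∀ (k : ℕ) (Del : Finset X), (Finset.univ \ Del).card = k → μ (⋃ x ∈ Del, A x) ≤ ∑ x ∈ Del, θ x →
      ∃ Del' : Finset X, μ (⋃ x ∈ Del', A x) ≤ ∑ x ∈ Del', θ x ∧ ∀ x, x ∉ Del' → θ x ≤ μ (A x \ ⋃ y ∈ Del', A y) := by
    intro k
    induction k using Nat.strong_induction_on with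
    | _ k ih =>
      intro Del hk hDel
      by_cases hx : ∃ x, x ∉ Del ∧ μ (A x \ ⋃ y ∈ Del, A y) < θ x
      · obtain ⟨x, hxD, hlt⟩ := hx
        refine ih (Finset.univ \ insert x Del).card ?_ (insert x Del) rfl ?_
        · rw [← hk]
          refine Finset.card_lt_card ((Finset.ssubset_iff_of_subset
            (Finset.sdiff_subset_sdiff le_rfl (Finset.subset_insert _ _))).2 ⟨x, ?_, ?_⟩)
          · exact Finset.mem_sdiff.2 ⟨Finset.mem_univ _, hxD⟩
          · exact fun h => (Finset.mem_sdiff.1 h).2 (Finset.mem_insert_self _ _)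
        · have hU : (⋃ y ∈ insert x Del, A y) = (⋃ y ∈ Del, A y) ∪ (A x \ ⋃ y ∈ Del, A y) := by
            rw [Finset.set_biUnion_insert, Set.union_sdiff_self, Set.union_comm]
          rw [hU, Finset.sum_insert hxD, add_comm (θ x)]
          exact (measure_union_le _ _).trans (add_le_add hDel hlt.le)
      · exact ⟨Del, hDel, fun x hxD => not_lt.1 fun hlt => hx ⟨x, hxD, hlt⟩⟩
  exact key _ ∅ rfl (by simp)

end rules

/-! ## 4. Likelihood truncation -/

section trunc

variable {A E B : Type*} [Fintype A] [Fintype E] [Fintype B]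

theorem ks_trunc_pt (x y T : ℝ) (hx : 0 ≤ x) (hy : 0 ≤ y) (hxy : 0 < x → 0 < y) (hT : 0 < T) :
    T * (if x ≤ Real.exp T * y then 0 else x) ≤ x * Real.log (x / y) + y := by
  rcases hx.eq_or_lt with h0 | h0
  · subst h0
    simp [hy]
  · have hy0 := hxy h0
    have hq : 0 < x / y := div_pos h0 hy0
    have h1 : 1 - (x / y)⁻¹ ≤ Real.log (x / y) := Real.one_sub_inv_le_log_of_pos hq
    have h2 : x * (1 - (x / y)⁻¹) = x - y := by
      field_simp
    have h3 : x - y ≤ x * Real.log (x / y) := by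
      rw [← h2]
      exact mul_le_mul_of_nonneg_left h1 h0.le
    split_ifs with h
    · rw [mul_zero]
      linarith
    · push Not at h
      have h4 : Real.exp T < x / y := by
        rw [lt_div_iff₀ hy0]
        exact h
      have h5 : T < Real.log (x / y) := by
        rw [Real.lt_log_iff_exp_lt hq]
        exact h4
      have h6 : x * T ≤ x * Real.log (x / y) := mul_le_mul_of_nonneg_left h5.le h0.le
      linarith

/-- **L-252-KS-8**, R7, first part of (a03:finite-state-conditioning), finite form.  `p` mixture weights, `R a` a (sub)probability vector on `E × B`, `lam`, `pal` its marginals;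
`I` bounds the averaged mutual information.  Deleting the pairs with likelihood ratio `> e^T` costs at most `(I + 1) / T` of the mixture. -/
theorem ks_truncate (p : A → ℝ) (hp : ∀ a, 0 ≤ p a) (hp1 : ∑ a, p a ≤ 1) (R : A → E → B → ℝ) (hR : ∀ a e b, 0 ≤ R a e b) (hR1 : ∀ a, ∑ e, ∑ b, R a e b ≤ 1)
    (I : ℝ) (hI : ∑ a, p a * ∑ e, ∑ b, R a e b * Real.log (R a e b / ((∑ b', R a e b') * ∑ e', R a e' b)) ≤ I) (T : ℝ) (hT : 0 < T) :
    ∑ a, p a * ∑ e, ∑ b, (if R a e b ≤ Real.exp T * ((∑ b', R a e b') * ∑ e', R a e' b) then 0 else R a e b) ≤ (I + 1) / T := by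
  rw [le_div_iff₀ hT]
  have hlam : ∀ a e b, R a e b ≤ ∑ b', R a e b' := fun a e b =>
    Finset.single_le_sum (f := fun b' => R a e b') (fun b' _ => hR a e b') (Finset.mem_univ b)
  have hpal : ∀ a e b, R a e b ≤ ∑ e', R a e' b := fun a e b =>
    Finset.single_le_sum (f := fun e' => R a e' b) (fun e' _ => hR a e' b) (Finset.mem_univ e)
  have hpt : ∀ a e b, T * (if R a e b ≤ Real.exp T * ((∑ b', R a e b') * ∑ e', R a e' b) then 0 else R a e b)
      ≤ R a e b * Real.log (R a e b / ((∑ b', R a e b') * ∑ e', R a e' b)) + (∑ b', R a e b') * ∑ e', R a e' b := by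
    intro a e b
    refine ks_trunc_pt _ _ T (hR a e b) (mul_nonneg ((hR a e b).trans (hlam a e b)) ((hR a e b).trans (hpal a e b))) (fun h => ?_) hT
    exact mul_pos (h.trans_le (hlam a e b)) (h.trans_le (hpal a e b))
  have hy : ∀ a, ∑ e, ∑ b, (∑ b', R a e b') * ∑ e', R a e' b ≤ 1 := by
    intro a
    have e1 : ∑ e, ∑ b, (∑ b', R a e b') * ∑ e', R a e' b = (∑ e, ∑ b, R a e b) * ∑ e, ∑ b, R a e b := by
      rw [Finset.sum_mul_sum]
      refine Finset.sum_congr rfl fun e _ => ?_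
      rw [← Finset.mul_sum, ← Finset.mul_sum, Finset.sum_comm]
    rw [e1]
    have h0 : 0 ≤ ∑ e, ∑ b, R a e b := Finset.sum_nonneg fun e _ => Finset.sum_nonneg fun b _ => hR a e b
    nlinarith [hR1 a]
  have ha : ∀ a, (p a * ∑ e, ∑ b, (if R a e b ≤ Real.exp T * ((∑ b', R a e b') * ∑ e', R a e' b) then 0 else R a e b)) * T
      ≤ p a * (∑ e, ∑ b, R a e b * Real.log (R a e b / ((∑ b', R a e b') * ∑ e', R a e' b))) + p a := by
    intro a
    have h1 : T * ∑ e, ∑ b, (if R a e b ≤ Real.exp T * ((∑ b', R a e b') * ∑ e', R a e' b) then 0 else R a e b)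
        ≤ (∑ e, ∑ b, R a e b * Real.log (R a e b / ((∑ b', R a e b') * ∑ e', R a e' b))) + ∑ e, ∑ b, (∑ b', R a e b') * ∑ e', R a e' b := by
      rw [Finset.mul_sum, ← Finset.sum_add_distrib]
      refine Finset.sum_le_sum fun e _ => ?_
      rw [Finset.mul_sum, ← Finset.sum_add_distrib]
      exact Finset.sum_le_sum fun b _ => hpt a e b
    have h2 := mul_le_mul_of_nonneg_left (h1.trans (add_le_add_right (hy a) _)) (hp a)
    calc _ = p a * (T * ∑ e, ∑ b, (if R a e b ≤ Real.exp T * ((∑ b', R a e b') * ∑ e', R a e' b) then 0 else R a e b)) := by ring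
      _ ≤ _ := h2
      _ = _ := by ring
  rw [Finset.sum_mul]
  refine (Finset.sum_le_sum fun a _ => ha a).trans ?_
  rw [Finset.sum_add_distrib]
  linarith

/-- likelihood truncation for an unnormalised table `m` with its marginals, division free -/
theorem ks_trunc_real (m : A → E → B → ℝ) (hm : ∀ a e b, 0 ≤ m a e b) (mA : A → ℝ) (mAE : A → E → ℝ) (mAB : A → B → ℝ)
    (F1 : ∀ a e, ∑ b, m a e b = mAE a e) (F2 : ∀ a b, ∑ e, m a e b = mAB a b) (F3 : ∀ a, ∑ e, mAE a e = mA a) (F4 : ∑ a, mA a ≤ 1)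
    (I : ℝ) (hI : ∑ a, ∑ e, ∑ b, m a e b * Real.log (m a e b * mA a / (mAE a e * mAB a b)) ≤ I) (T : ℝ) (hT : 0 < T) :
    ∑ a, ∑ e, ∑ b, (if m a e b * mA a ≤ Real.exp T * (mAE a e * mAB a b) then 0 else m a e b) ≤ (I + 1) / T := by
  have hAE : ∀ a e, 0 ≤ mAE a e := fun a e => by rw [← F1]; exact Finset.sum_nonneg fun b _ => hm a e b
  have hA : ∀ a, 0 ≤ mA a := fun a => by rw [← F3]; exact Finset.sum_nonneg fun e _ => hAE a e
  have hz : ∀ a, mA a = 0 → ∀ e b, m a e b = 0 := by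
    intro a h0 e b
    rw [← F3] at h0
    have h1 := (Finset.sum_eq_zero_iff_of_nonneg fun e _ => hAE a e).1 h0 e (Finset.mem_univ _)
    rw [← F1] at h1
    exact (Finset.sum_eq_zero_iff_of_nonneg fun b _ => hm a e b).1 h1 b (Finset.mem_univ _)
  have hlam : ∀ a e, ∑ b', m a e b' / mA a = mAE a e / mA a := fun a e => by rw [← Finset.sum_div, F1]
  have hpal : ∀ a b, ∑ e', m a e' b / mA a = mAB a b / mA a := fun a b => by rw [← Finset.sum_div, F2]
  have key := ks_truncate mA hA F4 (fun a e b => m a e b / mA a) (fun a e b => div_nonneg (hm a e b) (hA a))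
    (fun a => by
      simp only [hlam]
      rw [← Finset.sum_div, F3]
      exact div_self_le_one _) I
    (by
      refine le_of_eq_of_le ?_ hI
      refine Finset.sum_congr rfl fun a _ => ?_
      simp only [hlam, hpal]
      by_cases h0 : mA a = 0
      · rw [h0, zero_mul]
        symm
        refine Finset.sum_eq_zero fun e _ => Finset.sum_eq_zero fun b _ => ?_
        rw [hz a h0, zero_mul]
      · rw [Finset.mul_sum]
        refine Finset.sum_congr rfl fun e _ => ?_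
        rw [Finset.mul_sum]
        refine Finset.sum_congr rfl fun b _ => ?_
        have e1 : m a e b / mA a / (mAE a e / mA a * (mAB a b / mA a)) = m a e b * mA a / (mAE a e * mAB a b) := by
          rw [div_mul_div_comm, div_div_div_eq, show m a e b * (mA a * mA a) = mA a * (m a e b * mA a) by ring,
            mul_div_mul_left _ _ h0]
        rw [e1, ← mul_assoc, mul_div_cancel₀ _ h0]) T hT
  refine le_of_eq_of_le ?_ key
  refine Finset.sum_congr rfl fun a _ => ?_
  simp only [hlam, hpal]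
  by_cases h0 : mA a = 0
  · rw [h0, zero_mul]
    refine Finset.sum_eq_zero fun e _ => Finset.sum_eq_zero fun b _ => ?_
    rw [hz a h0]
    simp
  · have hpos : 0 < mA a := lt_of_le_of_ne (hA a) (Ne.symm h0)
    rw [Finset.mul_sum]
    refine Finset.sum_congr rfl fun e _ => ?_
    rw [Finset.mul_sum]
    refine Finset.sum_congr rfl fun b _ => ?_
    have e2 : (m a e b / mA a ≤ Real.exp T * (mAE a e / mA a * (mAB a b / mA a))) ↔ (m a e b * mA a ≤ Real.exp T * (mAE a e * mAB a b)) := by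
      rw [div_mul_div_comm, ← mul_div_assoc, div_le_div_iff₀ hpos (mul_pos hpos hpos)]
      constructor
      · intro h
        have : (m a e b * mA a) * mA a ≤ (Real.exp T * (mAE a e * mAB a b)) * mA a := by linarith
        exact le_of_mul_le_mul_right this hpos
      · intro h
        have := mul_le_mul_of_nonneg_right h hpos.le
        linarith
    by_cases hc : m a e b * mA a ≤ Real.exp T * (mAE a e * mAB a b)
    · rw [if_pos hc, if_pos (e2.2 hc), mul_zero]
    · rw [if_neg hc, if_neg (fun h => hc (e2.1 h)), mul_div_cancel₀ _ h0]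

/-- a label splits every set -/
theorem ks_sum_inter {S : Type*} [Fintype S] (μ : Measure Ω) {s : Ω → S} (hs : KsLab s) (X : Set Ω) : ∑ s0, μ (X ∩ s ⁻¹' {s0}) = μ X := by
  have h := ks_mass_sum (μ.restrict X) hs
  unfold ksMass at h
  rw [Measure.restrict_apply_univ] at h
  rw [← h]
  refine Finset.sum_congr rfl fun s0 _ => ?_
  rw [Measure.restrict_apply (hs s0), Set.inter_comm]

theorem ks_sum_inter_real {S : Type*} [Fintype S] (μ : Measure Ω) [IsFiniteMeasure μ] {s : Ω → S} (hs : KsLab s) (X : Set Ω) :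
    ∑ s0, μ.real (X ∩ s ⁻¹' {s0}) = μ.real X := by
  simp only [measureReal_def]
  rw [← ENNReal.toReal_sum (fun _ _ => measure_ne_top _ _), ks_sum_inter μ hs X]

omit [MeasurableSpace Ω] [Fintype A] [Fintype E] [Fintype B] in
theorem ks_triple_preimage {a : Ω → A} {e : Ω → E} {b : Ω → B} (x : (A × E) × B) :
    ksPair (ksPair a e) b ⁻¹' {x} = a ⁻¹' {x.1.1} ∩ e ⁻¹' {x.1.2} ∩ b ⁻¹' {x.2} := by
  ext ω
  simp [ksPair, Prod.ext_iff]

/-- **L-252-KS-9**, R7 in measure form: ONE law `μ` (the prepared mixture), labels `a` (parent), `e` (end history), `b` (velocity bin).  `I` bounds the conditional mutual information `I (e ; b | a)`.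
Output: a measurable set `G` of retained incidences, loss `≤ (I + 1) / T`, and the FIRST numerator ceiling (a03:palette-joint): state `(a, e)`, palette `π_a (b) = μ {a, b} / μ {a}`, reference weights `μ {a, e}`, constant `e^T`. -/
theorem ks_truncate_dom (μ : Measure Ω) [IsFiniteMeasure μ] (hμ : μ Set.univ ≤ 1) {a : Ω → A} {e : Ω → E} {b : Ω → B} (ha : KsLab a) (he : KsLab e) (hb : KsLab b)
    (I : ℝ) (hI : ∑ a0, ∑ e0, ∑ b0, μ.real (a ⁻¹' {a0} ∩ e ⁻¹' {e0} ∩ b ⁻¹' {b0})
      * Real.log (μ.real (a ⁻¹' {a0} ∩ e ⁻¹' {e0} ∩ b ⁻¹' {b0}) * μ.real (a ⁻¹' {a0}) / (μ.real (a ⁻¹' {a0} ∩ e ⁻¹' {e0}) * μ.real (a ⁻¹' {a0} ∩ b ⁻¹' {b0}))) ≤ I)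
    (T : ℝ) (hT : 0 < T) :
    ∃ G : Set Ω, MeasurableSet G ∧ ENNReal.ofReal T * μ Gᶜ ≤ ENNReal.ofReal (I + 1) ∧
      KsDom (μ.restrict G) (ksPair a e) (fun b0 => b ⁻¹' {b0}) (fun x b0 => μ (a ⁻¹' {x.1} ∩ b ⁻¹' {b0}) / μ (a ⁻¹' {x.1})) (ksMass μ (ksPair a e))
        (ENNReal.ofReal (Real.exp T)) := by
  classical
  have key := ks_trunc_real (fun a0 e0 b0 => μ.real (a ⁻¹' {a0} ∩ e ⁻¹' {e0} ∩ b ⁻¹' {b0})) (fun _ _ _ => measureReal_nonneg)
    (fun a0 => μ.real (a ⁻¹' {a0})) (fun a0 e0 => μ.real (a ⁻¹' {a0} ∩ e ⁻¹' {e0})) (fun a0 b0 => μ.real (a ⁻¹' {a0} ∩ b ⁻¹' {b0}))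
    (fun a0 e0 => ks_sum_inter_real μ hb _)
    (fun a0 b0 => by
      simp only [Set.inter_right_comm _ (e ⁻¹' _) (b ⁻¹' {b0})]
      exact ks_sum_inter_real μ he _)
    (fun a0 => ks_sum_inter_real μ he _)
    (by
      have h1 := ks_sum_inter_real μ ha Set.univ
      simp only [Set.univ_inter] at h1
      rw [h1, measureReal_def]
      exact ENNReal.toReal_le_of_le_ofReal zero_le_one (by simpa using hμ))
    I hI T hT
  obtain ⟨Good, hGood⟩ : ∃ Good : (A × E) × B → Prop, Good = fun x =>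
      μ.real (a ⁻¹' {x.1.1} ∩ e ⁻¹' {x.1.2} ∩ b ⁻¹' {x.2}) * μ.real (a ⁻¹' {x.1.1})
        ≤ Real.exp T * (μ.real (a ⁻¹' {x.1.1} ∩ e ⁻¹' {x.1.2}) * μ.real (a ⁻¹' {x.1.1} ∩ b ⁻¹' {x.2})) := ⟨_, rfl⟩
  have ht : KsLab (ksPair (ksPair a e) b) := ks_lab_pair (ks_lab_pair ha he) hb
  have hGm : MeasurableSet (ksPair (ksPair a e) b ⁻¹' {x | Good x}) := ks_lab_preimage ht _
  refine ⟨ksPair (ksPair a e) b ⁻¹' {x | Good x}, hGm, ?_, ?_⟩
  · have e1 : (ksPair (ksPair a e) b ⁻¹' {x | Good x})ᶜ = ksPair (ksPair a e) b ⁻¹' ((Finset.univ.filter fun x => ¬ Good x : Finset ((A × E) × B)) : Set ((A × E) × B)) := by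
      ext ω
      simp
    have e2 : μ.real (ksPair (ksPair a e) b ⁻¹' {x | Good x})ᶜ
        = ∑ a0, ∑ e0, ∑ b0, (if μ.real (a ⁻¹' {a0} ∩ e ⁻¹' {e0} ∩ b ⁻¹' {b0}) * μ.real (a ⁻¹' {a0})
            ≤ Real.exp T * (μ.real (a ⁻¹' {a0} ∩ e ⁻¹' {e0}) * μ.real (a ⁻¹' {a0} ∩ b ⁻¹' {b0})) then 0 else μ.real (a ⁻¹' {a0} ∩ e ⁻¹' {e0} ∩ b ⁻¹' {b0})) := by
      rw [e1, measureReal_def, ks_mass_preimage μ ht]
      unfold ksMass
      rw [ENNReal.toReal_sum (fun _ _ => measure_ne_top _ _), Finset.sum_filter, Fintype.sum_prod_type, Fintype.sum_prod_type]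
      refine Finset.sum_congr rfl fun a0 _ => Finset.sum_congr rfl fun e0 _ => Finset.sum_congr rfl fun b0 _ => ?_
      rw [ks_triple_preimage, hGood, ← measureReal_def]
      simp only [ite_not]
    rw [← ofReal_measureReal (μ := μ) (s := (ksPair (ksPair a e) b ⁻¹' {x | Good x})ᶜ), ← ENNReal.ofReal_mul hT.le]
    apply ENNReal.ofReal_le_ofReal
    rw [e2]
    calc T * _ ≤ T * ((I + 1) / T) := mul_le_mul_of_nonneg_left key hT.le
      _ = I + 1 := by field_simp
  · rintro ⟨a0, e0⟩ b0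
    have hpre : ksPair a e ⁻¹' {(a0, e0)} = a ⁻¹' {a0} ∩ e ⁻¹' {e0} := by
      ext ω
      simp [ksPair, Prod.ext_iff]
    show (μ.restrict _) (ksPair a e ⁻¹' {(a0, e0)} ∩ b ⁻¹' {b0}) ≤ ENNReal.ofReal (Real.exp T) * (μ (a ⁻¹' {a0} ∩ b ⁻¹' {b0}) / μ (a ⁻¹' {a0})) * μ (ksPair a e ⁻¹' {(a0, e0)})
    rw [Measure.restrict_apply' hGm, hpre]
    by_cases hg : Good ((a0, e0), b0)
    · refine (measure_mono Set.inter_subset_left).trans ?_
      by_cases h0 : μ (a ⁻¹' {a0}) = 0
      · have : μ (a ⁻¹' {a0} ∩ e ⁻¹' {e0} ∩ b ⁻¹' {b0}) = 0 :=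
          measure_mono_null (fun ω hω => hω.1.1) h0
        rw [this]
        exact zero_le
      · rw [hGood] at hg
        have h1 := ENNReal.ofReal_le_ofReal hg
        rw [ENNReal.ofReal_mul measureReal_nonneg, ENNReal.ofReal_mul (Real.exp_pos T).le, ENNReal.ofReal_mul measureReal_nonneg,
          ofReal_measureReal, ofReal_measureReal, ofReal_measureReal, ofReal_measureReal] at h1
        have h2 : ENNReal.ofReal (Real.exp T) * (μ (a ⁻¹' {a0} ∩ b ⁻¹' {b0}) / μ (a ⁻¹' {a0})) * μ (a ⁻¹' {a0} ∩ e ⁻¹' {e0})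
            = ENNReal.ofReal (Real.exp T) * (μ (a ⁻¹' {a0} ∩ e ⁻¹' {e0}) * μ (a ⁻¹' {a0} ∩ b ⁻¹' {b0})) / μ (a ⁻¹' {a0}) := by
          simp only [div_eq_mul_inv]
          ring
        rw [h2, ENNReal.le_div_iff_mul_le (Or.inl h0) (Or.inl (measure_ne_top _ _))]
        exact h1
    · have : a ⁻¹' {a0} ∩ e ⁻¹' {e0} ∩ b ⁻¹' {b0} ∩ ksPair (ksPair a e) b ⁻¹' {x | Good x} = ∅ := by
        ext ω
        simp only [Set.mem_inter_iff, Set.mem_preimage, Set.mem_singleton_iff, Set.mem_ofPred_eq, Set.mem_empty_iff_false, iff_false]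
        rintro ⟨⟨⟨h1, h2⟩, h3⟩, h4⟩
        apply hg
        have : ksPair (ksPair a e) b ω = ((a0, e0), b0) := by
          simp [ksPair, h1, h2, h3]
        rwa [this] at h4
      rw [this, measure_empty]
      exact zero_le

end trunc

end

end Claimed.Agent.R252
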