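import Claimed.Agent.R252.State.KsCore

/-!
# ROW 252 (S0492), unit STATE (helper31), file 3: ONE PARENT; TILTED BOXES; first consequences of `R.Ok K`.        CONTRACT file: the `sorry`s are the leaves L-252-KSL-*.

* `R.loc A`  : the SAME record seen from the parent `A`: prior conditioned on `par = A`, selection cut to `par = A`, reference weights divided by `p_A`.  Nothing else changes (same types, same labels).
* `R.One A`  : all the prior sits on the parent `A` (`p_A = 1`).   Sections 6, 7, 8 may state their exits for `R.One A` only: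
  `ks_one_parent` ("choose a typical parent with dense success", 07 l.318) reduces the mixture to this case, and candidates go back (`ks_time_of_loc`, `ks_strip_of_loc`).
* `R.Tilt K` (`0 < ℓ < ∞`, version 2): the charts of the true labels are TRIANGULAR in `(Z, Y)`, with full major width.  `Y_Q (t, Z)`, the row `A_Q` are then DEFINITIONS (`R.YQ`, `R.row`), 07 l.304-312.
-/

set_option autoImplicit false

namespace Claimed.Agent.R252

open MeasureTheory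
open scoped ENNReal BigOperators

noncomputable section

variable {v : KbVer}

namespace KsRef

variable (R : KsRef v)

open Classical in
/-- the record seen from one parent -/
def loc (A : R.Par) : KsRef v :=
  { R with
    ν := (R.pA A)⁻¹ • R.ν.restrict (R.par ⁻¹' {A})
    Ev0 := R.Ev0 ∩ {p | R.par p.1 = A}
    ref := fun x => if x.1 = A then R.ref x / R.pA A else 0 }

/-- one parent -/
structure One (A : R.Par) : Prop where
  pA : R.pA A = 1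
  par : ∀ p ∈ R.Ev0, R.par p.1 = A

end KsRef

theorem ksl1_mul {K K' x c : ℝ} (hK0 : 0 < K) (hK : K ≤ K') (hc : 0 ≤ c) (h : c ≤ K * x) : c ≤ K' * x := by
  have hx : 0 ≤ x := by
    by_contra hx
    have : K * x < 0 := mul_neg_of_pos_of_neg hK0 (not_le.1 hx)
    linarith
  exact h.trans (mul_le_mul_of_nonneg_right hK hx)

theorem ksl1_mul' {K K' x c : ℝ} (hK : K ≤ K') (hx : 0 ≤ x) (h : c ≤ K * x) : c ≤ K' * x :=
  h.trans (mul_le_mul_of_nonneg_right hK hx)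

theorem ksl1_emul {k k' x c : ℝ≥0∞} (hk : k ≤ k') (h : c ≤ k * x) : c ≤ k' * x := h.trans (mul_le_mul' hk le_rfl)

/-- **L-252-KSL-1** monotonicity in the slack -/
theorem ks_ok_mono {R : KsRef v} {K K' : ℝ} (h : R.Ok K) (hK : K ≤ K') : R.Ok K' := by
  have hK0 : 0 < K := lt_of_lt_of_le one_pos h.K_ge
  have hk : ENNReal.ofReal K ≤ ENNReal.ofReal K' := ENNReal.ofReal_le_ofReal hK
  have ha : ∀ s, 0 ≤ R.a s := fun s => Real.rpow_nonneg (by linarith [h.N_ge]) _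
  have hq : ∀ Q, 0 ≤ R.q Q := fun Q => by
    unfold KsRef.q kbQ
    positivity
  exact
  { N_ge := h.N_ge
    K_ge := h.K_ge.trans hK
    prm := h.prm
    ell_v1 := h.ell_v1
    prob := h.prob
    m_co := h.m_co
    m_Sp := h.m_Sp
    m_Ev0 := h.m_Ev0
    m_par := h.m_par
    m_hist := h.m_hist
    m_asg := h.m_asg
    m_eG := h.m_eG
    m_ent := h.m_ent
    Sp_full := h.Sp_full
    Ev0_sub := h.Ev0_sub
    y_bd := fun l hl t ht => (h.y_bd l hl t ht).trans hK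
    V_bd := fun l hl => (h.V_bd l hl).trans hK
    X_bd := fun l hl t ht => (h.X_bd l hl t ht).trans hK
    nat_adm := h.nat_adm
    nat_v1 := h.nat_v1
    nat_w := fun l hl t ht => (h.nat_w l hl t ht).trans hK
    nat_ww := fun A t y w => (h.nat_ww A t y w).trans hK
    nat_lo := fun p hp => ksl1_mul' hK (abs_nonneg _) (h.nat_lo p hp)
    χ_pos := h.χ_pos
    χ_le := h.χ_le
    pal_le := h.pal_le
    pal_ball := fun A x p hp => (h.pal_ball A x p hp).trans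
      (ENNReal.ofReal_le_ofReal (mul_le_mul_of_nonneg_right hK (Real.rpow_nonneg (h.χ_pos.le.trans hp) _)))
    ref_par := fun A => ksl1_emul hk (h.ref_par A)
    ref_Q := fun Q => ksl1_emul hk (h.ref_Q Q)
    dep_mem := h.dep_mem
    dep_nonneg := h.dep_nonneg
    lev_dep := h.lev_dep
    iv_lt := h.iv_lt
    asg_Sp := h.asg_Sp
    asg_par := h.asg_par
    q_lo := fun Q => ksl1_mul' hK (hq Q) (h.q_lo Q)
    q_hi := fun Q => ksl1_mul' hK (ha _) (h.q_hi Q)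
    inv := h.inv
    J_lo := fun Q => ksl1_mul hK0 hK (mul_nonneg (pow_nonneg (hq Q) _) (ha _)) (h.J_lo Q)
    J_hi := fun Q => ksl1_mul' hK (mul_nonneg (pow_nonneg (hq Q) _) (ha _)) (h.J_hi Q)
    D_hi := fun Q => ksl1_mul' hK (hq Q) (h.D_hi Q)
    ν_lo := fun Q => ksl1_emul hk (h.ν_lo Q)
    ν_hi := fun Q => ksl1_emul hk (h.ν_hi Q)
    disj := h.disj
    nested := h.nested
    box_mem := fun Q l hl t ht => (h.box_mem Q l hl t ht).trans hK
    tst_adm := h.tst_adm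
    tst_val := fun Q l hl t ht => ksl1_mul' hK (ha _) (h.tst_val Q l hl t ht)
    tst_w := fun Q l hl t ht => (h.tst_w Q l hl t ht).trans hK
    tst_ww := fun Q t y w => (h.tst_ww Q t y w).trans hK
    tst_lo := fun Q p hp => ksl1_mul' hK (abs_nonneg _) (h.tst_lo Q p hp)
    lab := h.lab
    lab_flo := fun Q => (h.lab_flo Q).imp id (ksl1_emul hk)
    capX := fun r hr A U f hU hf => (h.capX r hr A U f hU hf).trans (mul_le_mul' (mul_le_mul' (mul_le_mul' hk le_rfl) le_rfl) le_rfl)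
    capw := fun r hr A U f hU hf => (h.capw r hr A U f hU hf).trans (mul_le_mul' (mul_le_mul' (mul_le_mul' hk le_rfl) le_rfl) le_rfl)
    capQ := fun Q U hU => (h.capQ Q U hU).trans (mul_le_mul' (mul_le_mul' hk le_rfl) le_rfl)
    dom := ks_dom_mono h.dom le_rfl (fun _ _ => le_rfl) (fun _ => le_rfl) hk
    opt_pt := fun M hM r hr => by
      obtain ⟨n, h1, h2⟩ := h.opt_pt M hM r hr
      exact ⟨n, h1.trans hK, h2⟩
    opt_ent := fun s hs => by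
      obtain ⟨n, h1, h2⟩ := h.opt_ent s hs
      exact ⟨n, h1.trans hK, h2⟩
    joint := fun M hM r hr A c b => (h.joint M hM r hr A c b).trans (mul_le_mul' (mul_le_mul' (mul_le_mul' hk le_rfl) le_rfl) le_rfl)
    ent_card := fun Q => (h.ent_card Q).trans hK
    ent_rad := fun e => ksl1_mul hK0 hK zero_le_one (h.ent_rad e)
    ent_rad_le := h.ent_rad_le
    ent_cov := fun s hs p hp => ⟨(h.ent_cov s hs p hp).1, ksl1_mul' hK (ha _) (h.ent_cov s hs p hp).2⟩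
    ent_flo := fun e => (h.ent_flo e).imp id (ksl1_emul hk)
    ent_root := fun e he u hu => ⟨(h.ent_root e he u hu).1, ksl1_mul hK0 hK zero_le_one (h.ent_root e he u hu).2.1,
      (h.ent_root e he u hu).2.2.trans hK⟩
    ent_ctr := h.ent_ctr
    ent_smooth := h.ent_smooth
    ent_der := fun e u hu i hi => (h.ent_der e u hu i hi).trans hK }

/-- the localised prior, over the types of `R` -/
def ksl2Nu (R : KsRef v) (A : R.Par) : Measure R.L := (R.pA A)⁻¹ • R.ν.restrict (R.par ⁻¹' {A})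

/-- the localised prepared law, over the types of `R` -/
def ksl2Lam (R : KsRef v) (A : R.Par) : Measure (R.L × ℝ) :=
  ((ksl2Nu R A).prod KbPb.tm).restrict (R.Ev0 ∩ {p | R.par p.1 = A})

theorem ksl2_tm_sfinite : SFinite KbPb.tm := by
  unfold KbPb.tm; infer_instance

theorem ksl2_pA_ne_top {R : KsRef v} {K : ℝ} (h : R.Ok K) (A : R.Par) : R.pA A ≠ ⊤ := by
  have := h.prob
  exact measure_ne_top _ _

theorem ksl2_mpar {R : KsRef v} {K : ℝ} (h : R.Ok K) (A : R.Par) : MeasurableSet {p : R.L × ℝ | R.par p.1 = A} :=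
  measurable_fst (h.m_par A)

theorem ksl2_nu {R : KsRef v} {K : ℝ} (h : R.Ok K) (A : R.Par) (S : Set R.L) :
    ksl2Nu R A S = (R.pA A)⁻¹ * R.ν (S ∩ R.par ⁻¹' {A}) := by
  unfold ksl2Nu
  rw [Measure.smul_apply, Measure.restrict_apply' (h.m_par A), smul_eq_mul]

theorem ksl2_prior {R : KsRef v} {K : ℝ} (h : R.Ok K) (A : R.Par) (F : Set (R.L × ℝ)) :
    ((ksl2Nu R A).prod KbPb.tm) F = (R.pA A)⁻¹ * R.prior (F ∩ {p | R.par p.1 = A}) := by
  unfold ksl2Nu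
  have := ksl2_tm_sfinite
  have := h.prob
  have hm : MeasurableSet ((R.par ⁻¹' {A}) ×ˢ (Set.univ : Set ℝ)) := (h.m_par A).prod MeasurableSet.univ
  have h0 : {p : R.L × ℝ | R.par p.1 = A} = (R.par ⁻¹' {A}) ×ˢ (Set.univ : Set ℝ) := by
    ext p; simp
  have h1 : ((R.pA A)⁻¹ • R.ν.restrict (R.par ⁻¹' {A})).prod KbPb.tm
      = (R.pA A)⁻¹ • (R.prior.restrict ((R.par ⁻¹' {A}) ×ˢ (Set.univ : Set ℝ))) := by
    rw [Measure.prod_smul_left]
    congr 1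
    unfold KsRef.prior
    rw [← Measure.prod_restrict, Measure.restrict_univ]
  rw [h0, h1, Measure.smul_apply, Measure.restrict_apply' hm, smul_eq_mul]

theorem ksl2_lam0 {R : KsRef v} {K : ℝ} (h : R.Ok K) (A : R.Par) (F : Set (R.L × ℝ)) :
    ksl2Lam R A F = (R.pA A)⁻¹ * R.lam0 (F ∩ {p | R.par p.1 = A}) := by
  unfold ksl2Lam
  rw [Measure.restrict_apply' (h.m_Ev0.inter (ksl2_mpar h A)), ksl2_prior h]
  unfold KsRef.lam0 KsRef.law
  rw [Measure.restrict_apply' h.m_Ev0]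
  congr 2
  ext p
  simp only [Set.mem_inter_iff, Set.mem_ofPred_eq]
  tauto

theorem ksl2_lam0_le {R : KsRef v} {K : ℝ} (h : R.Ok K) (A : R.Par) (F : Set (R.L × ℝ)) :
    ksl2Lam R A F ≤ (R.pA A)⁻¹ * R.lam0 F := by
  rw [ksl2_lam0 h]
  exact mul_le_mul' le_rfl (measure_mono Set.inter_subset_left)

theorem ksl2_lam0_ne {R : KsRef v} {K : ℝ} (h : R.Ok K) (A B : R.Par) (hB : B ≠ A) (F : Set (R.L × ℝ)) (hF : F ⊆ {p | R.par p.1 = B}) :
    ksl2Lam R A F = 0 := by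
  rw [ksl2_lam0 h]
  have e : F ∩ {p | R.par p.1 = A} = ∅ := by
    apply Set.eq_empty_of_forall_notMem
    intro p hp
    have h1 : R.par p.1 = B := hF hp.1
    have h2 : R.par p.1 = A := hp.2
    exact hB (h1.symm.trans h2)
  rw [e, measure_empty, mul_zero]

theorem ksl2_pA_self {R : KsRef v} {K : ℝ} (h : R.Ok K) (A : R.Par) (hA : R.pA A ≠ 0) : ksl2Nu R A (R.par ⁻¹' {A}) = 1 := by
  rw [ksl2_nu h, Set.inter_self]
  exact ENNReal.inv_mul_cancel hA (ksl2_pA_ne_top h A)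

theorem ksl2_pA_ne {R : KsRef v} {K : ℝ} (h : R.Ok K) (A B : R.Par) (hB : B ≠ A) : ksl2Nu R A (R.par ⁻¹' {B}) = 0 := by
  rw [ksl2_nu h]
  have e : R.par ⁻¹' {B} ∩ R.par ⁻¹' {A} = ∅ := by
    apply Set.eq_empty_of_forall_notMem
    intro l hl
    have h1 : R.par l = B := hl.1
    have h2 : R.par l = A := hl.2
    exact hB (h1.symm.trans h2)
  rw [e, measure_empty, mul_zero]

theorem ksl2_prob {R : KsRef v} {K : ℝ} (h : R.Ok K) (A : R.Par) (hA : R.pA A ≠ 0) : IsProbabilityMeasure (ksl2Nu R A) :=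
  ⟨by
    rw [ksl2_nu h, Set.univ_inter]
    exact ENNReal.inv_mul_cancel hA (ksl2_pA_ne_top h A)⟩

theorem ksl2_Sp {R : KsRef v} {K : ℝ} (h : R.Ok K) (A : R.Par) : ksl2Nu R A R.Spᶜ = 0 := by
  have h1 : R.ν (R.Spᶜ ∩ R.par ⁻¹' {A}) = 0 := measure_mono_null Set.inter_subset_left h.Sp_full
  rw [ksl2_nu h, h1, mul_zero]

theorem ksl2_nuQ_self {R : KsRef v} {K : ℝ} (h : R.Ok K) (A : R.Par) (Q : R.Lab) (hQ : R.lpar Q = A) :
    ksl2Nu R A (R.asg Q) = (R.pA A)⁻¹ * R.νQ Q := by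
  rw [ksl2_nu h, Set.inter_eq_left.2 (hQ ▸ h.asg_par Q)]
  rfl

theorem ksl2_nuQ_ne {R : KsRef v} {K : ℝ} (h : R.Ok K) (A : R.Par) (Q : R.Lab) (hQ : R.lpar Q ≠ A) :
    ksl2Nu R A (R.asg Q) = 0 := by
  rw [ksl2_nu h]
  have e : R.asg Q ∩ R.par ⁻¹' {A} = ∅ := by
    apply Set.eq_empty_of_forall_notMem
    intro l hl
    have h1 : R.par l = R.lpar Q := h.asg_par Q hl.1
    have h2 : R.par l = A := hl.2
    exact hQ (h1.symm.trans h2)
  rw [e, measure_empty, mul_zero]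

theorem ksl2_inc_par {R : KsRef v} {K : ℝ} (h : R.Ok K) (Q : R.Lab) : R.inc Q ⊆ {p | R.par p.1 = R.lpar Q} :=
  fun _ hp => h.asg_par Q hp.1

/-- a ceiling proportional to the parent weight -/
theorem ksl2_cap {R : KsRef v} {K : ℝ} (h : R.Ok K) (A : R.Par) (hA : R.pA A ≠ 0) (B : R.Par) (F : Set (R.L × ℝ))
    (hF : F ⊆ {p | R.par p.1 = B}) (x y : ℝ≥0∞) (hh : R.lam0 F ≤ x * R.pA B * y) :
    ksl2Lam R A F ≤ x * ksl2Nu R A (R.par ⁻¹' {B}) * y := by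
  by_cases hB : B = A
  · subst hB
    rw [ksl2_pA_self h B hA]
    calc ksl2Lam R B F ≤ (R.pA B)⁻¹ * R.lam0 F := ksl2_lam0_le h B F
      _ ≤ (R.pA B)⁻¹ * (x * R.pA B * y) := mul_le_mul' le_rfl hh
      _ = x * ((R.pA B)⁻¹ * R.pA B) * y := by ring
      _ = x * 1 * y := by rw [ENNReal.inv_mul_cancel hA (ksl2_pA_ne_top h B)]
  · rw [ksl2_lam0_ne h A B hB F hF]
    exact zero_le

/-- a witness floor of a label -/
theorem ksl2_flo {R : KsRef v} {K : ℝ} (h : R.Ok K) (A : R.Par) (Q : R.Lab) (F : Set (R.L × ℝ)) (x k : ℝ≥0∞)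
    (hF : R.Ev0 ∩ F ⊆ R.inc Q) (hh : R.Ev0 ∩ F = ∅ ∨ x * R.νQ Q ≤ k * R.lam0 F) :
    (R.Ev0 ∩ {p | R.par p.1 = A}) ∩ F = ∅ ∨ x * ksl2Nu R A (R.asg Q) ≤ k * ksl2Lam R A F := by
  by_cases hQ : R.lpar Q = A
  · rcases hh with hh | hh
    · left
      apply Set.eq_empty_of_forall_notMem
      intro p hp
      have : p ∈ R.Ev0 ∩ F := ⟨hp.1.1, hp.2⟩
      rw [hh] at this
      exact this
    · right
      have e : R.lam0 (F ∩ {p | R.par p.1 = A}) = R.lam0 F := by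
        unfold KsRef.lam0 KsRef.law
        rw [Measure.restrict_apply' h.m_Ev0, Measure.restrict_apply' h.m_Ev0]
        congr 1
        ext p
        constructor
        · intro hp
          exact ⟨hp.1.1, hp.2⟩
        · intro hp
          have h1 : p ∈ R.inc Q := hF ⟨hp.2, hp.1⟩
          have h2 : R.par p.1 = R.lpar Q := ksl2_inc_par h Q h1
          exact ⟨⟨hp.1, h2.trans hQ⟩, hp.2⟩
      rw [ksl2_nuQ_self h A Q hQ, ksl2_lam0 h, e]
      calc x * ((R.pA A)⁻¹ * R.νQ Q) = (R.pA A)⁻¹ * (x * R.νQ Q) := by ring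
        _ ≤ (R.pA A)⁻¹ * (k * R.lam0 F) := mul_le_mul' le_rfl hh
        _ = k * ((R.pA A)⁻¹ * R.lam0 F) := by ring
  · left
    apply Set.eq_empty_of_forall_notMem
    intro p hp
    have h1 : p ∈ R.inc Q := hF ⟨hp.1.1, hp.2⟩
    have h2 : R.par p.1 = R.lpar Q := ksl2_inc_par h Q h1
    have h3 : R.par p.1 = A := hp.1.2
    exact hQ (h2.symm.trans h3)

theorem ksl2_opt {R : KsRef v} {K : ℝ} (h : R.Ok K) (A : R.Par) {D : Type*} (d : R.L × ℝ → D) (n : ℕ)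
    (hh : KsOpt R.lam0 R.st d n) : KsOpt (ksl2Lam R A) R.st d n := by
  intro s0
  obtain ⟨L, h1, h2⟩ := hh s0
  refine ⟨L, h1, fun d0 hd => ?_⟩
  have h3 : R.lam0 (ksPair R.st d ⁻¹' {(s0, d0)}) = 0 := h2 d0 hd
  have h4 := ksl2_lam0_le h A (ksPair R.st d ⁻¹' {(s0, d0)})
  rw [h3, mul_zero] at h4
  exact le_antisymm h4 zero_le

theorem ksl2_ref_par {R : KsRef v} {K : ℝ} (h : R.Ok K) (A : R.Par) (hA : R.pA A ≠ 0) (ref' : R.Par × R.Hist → ℝ≥0∞)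
    (r1 : ∀ x, x.1 = A → ref' x = R.ref x / R.pA A) (r2 : ∀ x, x.1 ≠ A → ref' x = 0) (B : R.Par) :
    ∑ x, ref' (B, x) ≤ ENNReal.ofReal K * ksl2Nu R A (R.par ⁻¹' {B}) := by
  have hT := ksl2_pA_ne_top h A
  by_cases hB : B = A
  · subst hB
    rw [ksl2_pA_self h B hA, mul_one]
    have e : ∀ x : R.Hist, ref' (B, x) = (R.pA B)⁻¹ * R.ref (B, x) := fun x => by
      rw [r1 (B, x) rfl, div_eq_mul_inv, mul_comm]
    calc ∑ x : R.Hist, ref' (B, x) = (R.pA B)⁻¹ * ∑ x : R.Hist, R.ref (B, x) := by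
          rw [Finset.mul_sum]
          exact Finset.sum_congr rfl fun x _ => e x
      _ ≤ (R.pA B)⁻¹ * (ENNReal.ofReal K * R.pA B) := mul_le_mul' le_rfl (h.ref_par B)
      _ = ENNReal.ofReal K * ((R.pA B)⁻¹ * R.pA B) := by ring
      _ = ENNReal.ofReal K := by rw [ENNReal.inv_mul_cancel hA hT, mul_one]
  · have e2 : ∑ x : R.Hist, ref' (B, x) = 0 := Finset.sum_eq_zero fun x _ => r2 (B, x) hB
    rw [e2]
    exact zero_le

theorem ksl2_nu_lo {R : KsRef v} {K : ℝ} (h : R.Ok K) (A : R.Par) (hA : R.pA A ≠ 0) (Q : R.Lab) :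
    ksl2Nu R A (R.par ⁻¹' {R.lpar Q}) * ENNReal.ofReal (R.a (R.dep Q) ^ R.d * R.J Q) ≤ ENNReal.ofReal K * ksl2Nu R A (R.asg Q) := by
  have hT := ksl2_pA_ne_top h A
  by_cases hQ : R.lpar Q = A
  · rw [ksl2_nuQ_self h A Q hQ]
    have h1 := h.ν_lo Q
    rw [hQ] at h1 ⊢
    rw [ksl2_pA_self h A hA, one_mul]
    calc ENNReal.ofReal (R.a (R.dep Q) ^ R.d * R.J Q)
        = (R.pA A)⁻¹ * (R.pA A * ENNReal.ofReal (R.a (R.dep Q) ^ R.d * R.J Q)) := by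
          rw [← mul_assoc, ENNReal.inv_mul_cancel hA hT, one_mul]
      _ ≤ (R.pA A)⁻¹ * (ENNReal.ofReal K * R.νQ Q) := mul_le_mul' le_rfl h1
      _ = ENNReal.ofReal K * ((R.pA A)⁻¹ * R.νQ Q) := by ring
  · rw [ksl2_pA_ne h A _ hQ, zero_mul]
    exact zero_le

theorem ksl2_nu_hi {R : KsRef v} {K : ℝ} (h : R.Ok K) (A : R.Par) (hA : R.pA A ≠ 0) (Q : R.Lab) :
    ksl2Nu R A (R.asg Q) ≤ ENNReal.ofReal K * (ksl2Nu R A (R.par ⁻¹' {R.lpar Q}) * ENNReal.ofReal (R.a (R.dep Q) ^ R.d * R.J Q)) := by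
  have hT := ksl2_pA_ne_top h A
  by_cases hQ : R.lpar Q = A
  · rw [ksl2_nuQ_self h A Q hQ]
    have h1 := h.ν_hi Q
    rw [hQ] at h1 ⊢
    rw [ksl2_pA_self h A hA, one_mul]
    calc (R.pA A)⁻¹ * R.νQ Q
        ≤ (R.pA A)⁻¹ * (ENNReal.ofReal K * (R.pA A * ENNReal.ofReal (R.a (R.dep Q) ^ R.d * R.J Q))) := mul_le_mul' le_rfl h1
      _ = ENNReal.ofReal K * (((R.pA A)⁻¹ * R.pA A) * ENNReal.ofReal (R.a (R.dep Q) ^ R.d * R.J Q)) := by ring
      _ = ENNReal.ofReal K * ENNReal.ofReal (R.a (R.dep Q) ^ R.d * R.J Q) := by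
          rw [ENNReal.inv_mul_cancel hA hT, one_mul]
  · rw [ksl2_nuQ_ne h A Q hQ]
    exact zero_le

theorem ksl2_capQ {R : KsRef v} {K : ℝ} (h : R.Ok K) (A : R.Par) (Q : R.Lab) (U : Set (ℝ × KbB v)) (hU : MeasurableSet U) :
    ENNReal.ofReal (R.J Q) * ksl2Lam R A (R.inc Q ∩ R.base ⁻¹' U) ≤ ENNReal.ofReal K * ksl2Nu R A (R.asg Q) * volume U := by
  by_cases hQ : R.lpar Q = A
  · rw [ksl2_nuQ_self h A Q hQ]
    calc ENNReal.ofReal (R.J Q) * ksl2Lam R A (R.inc Q ∩ R.base ⁻¹' U)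
        ≤ ENNReal.ofReal (R.J Q) * ((R.pA A)⁻¹ * R.lam0 (R.inc Q ∩ R.base ⁻¹' U)) := mul_le_mul' le_rfl (ksl2_lam0_le h A _)
      _ = (R.pA A)⁻¹ * (ENNReal.ofReal (R.J Q) * R.lam0 (R.inc Q ∩ R.base ⁻¹' U)) := by ring
      _ ≤ (R.pA A)⁻¹ * (ENNReal.ofReal K * R.νQ Q * volume U) := mul_le_mul' le_rfl (h.capQ Q U hU)
      _ = ENNReal.ofReal K * ((R.pA A)⁻¹ * R.νQ Q) * volume U := by ring
  · rw [ksl2_lam0_ne h A (R.lpar Q) hQ _ (fun p hp => ksl2_inc_par h Q hp.1), mul_zero]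
    exact zero_le

theorem ksl2_dom {R : KsRef v} {K : ℝ} (h : R.Ok K) (A : R.Par) (ref' : R.Par × R.Hist → ℝ≥0∞)
    (r1 : ∀ x, x.1 = A → ref' x = R.ref x / R.pA A) :
    KsDom (ksl2Lam R A) R.st R.vT (fun x b => R.pi x.1 b) ref' (ENNReal.ofReal K) := by
  intro s0 b
  by_cases hs : s0.1 = A
  · rw [r1 s0 hs]
    calc ksl2Lam R A (R.st ⁻¹' {s0} ∩ R.vT b) ≤ (R.pA A)⁻¹ * R.lam0 (R.st ⁻¹' {s0} ∩ R.vT b) := ksl2_lam0_le h A _
      _ ≤ (R.pA A)⁻¹ * (ENNReal.ofReal K * R.pi s0.1 b * R.ref s0) := mul_le_mul' le_rfl (h.dom s0 b)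
      _ = ENNReal.ofReal K * R.pi s0.1 b * (R.ref s0 / R.pA A) := by
          rw [div_eq_mul_inv]
          ring
  · rw [ksl2_lam0_ne h A s0.1 hs _ (fun p hp => by
      have h1 : R.st p = s0 := hp.1
      show R.par p.1 = s0.1
      rw [← h1]
      rfl)]
    exact zero_le

theorem ksl2_ref_Q_aux {R : KsRef v} {K : ℝ} (h : R.Ok K) (A : R.Par) (Q : R.Lab) (H : Finset (R.Par × R.Hist)) (ref' : R.Par × R.Hist → ℝ≥0∞)
    (hmem : ∀ x ∈ H, x ∈ R.histIn Q ∧ x.1 = A ∧ R.lpar Q = A) (r1 : ∀ x, x.1 = A → ref' x = R.ref x / R.pA A) :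
    ∑ x ∈ H, ref' x ≤ ENNReal.ofReal K * (ENNReal.ofReal (R.q Q) * ksl2Nu R A (R.asg Q)) := by
  classical
  by_cases hQ : R.lpar Q = A
  · rw [ksl2_nuQ_self h A Q hQ]
    calc ∑ x ∈ H, ref' x = ∑ x ∈ H, (R.pA A)⁻¹ * R.ref x := by
          refine Finset.sum_congr rfl fun x hx => ?_
          rw [r1 x (hmem x hx).2.1, div_eq_mul_inv, mul_comm]
      _ = (R.pA A)⁻¹ * ∑ x ∈ H, R.ref x := by rw [Finset.mul_sum]
      _ ≤ (R.pA A)⁻¹ * ∑ x ∈ R.histIn Q, R.ref x :=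
          mul_le_mul' le_rfl (Finset.sum_le_sum_of_subset fun x hx => (hmem x hx).1)
      _ ≤ (R.pA A)⁻¹ * (ENNReal.ofReal K * (ENNReal.ofReal (R.q Q) * R.νQ Q)) := mul_le_mul' le_rfl (h.ref_Q Q)
      _ = ENNReal.ofReal K * (ENNReal.ofReal (R.q Q) * ((R.pA A)⁻¹ * R.νQ Q)) := by ring
  · have e : H = ∅ := Finset.eq_empty_of_forall_notMem fun x hx => hQ (hmem x hx).2.2
    rw [e, Finset.sum_empty]
    exact zero_le

theorem ksl2_ref_Q {R : KsRef v} {K : ℝ} (h : R.Ok K) (A : R.Par) (Q : R.Lab) :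
    ∑ x ∈ (R.loc A).histIn Q, (R.loc A).ref x ≤ ENNReal.ofReal K * (ENNReal.ofReal (R.q Q) * ksl2Nu R A (R.asg Q)) := by
  classical
  refine ksl2_ref_Q_aux h A Q ((R.loc A).histIn Q) (R.loc A).ref ?_ (fun _ hx => if_pos hx)
  intro x hx
  obtain ⟨p, hp⟩ := (Finset.mem_filter.1 hx).2
  have h1 : R.st p = x := hp.1.2
  have h2 : R.par p.1 = A := hp.1.1.2
  have h3 : R.par p.1 = R.lpar Q := ksl2_inc_par h Q hp.2
  refine ⟨Finset.mem_filter.2 ⟨Finset.mem_univ _, p, ⟨hp.1.1.1, hp.1.2⟩, hp.2⟩, ?_, h3.symm.trans h2⟩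
  rw [← h1]
  exact h2

/-- **L-252-KSL-2** all clauses survive the localisation, with the same slack -/
theorem ks_ok_loc {R : KsRef v} {K : ℝ} (h : R.Ok K) (A : R.Par) (hA : R.pA A ≠ 0) : (R.loc A).Ok K := by
  exact
  { N_ge := h.N_ge
    K_ge := h.K_ge
    prm := h.prm
    ell_v1 := h.ell_v1
    prob := ksl2_prob h A hA
    m_co := h.m_co
    m_Sp := h.m_Sp
    m_Ev0 := h.m_Ev0.inter (ksl2_mpar h A)
    m_par := h.m_par
    m_hist := h.m_hist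
    m_asg := h.m_asg
    m_eG := h.m_eG
    m_ent := h.m_ent
    Sp_full := ksl2_Sp h A
    Ev0_sub := fun p hp => h.Ev0_sub hp.1
    y_bd := h.y_bd
    V_bd := h.V_bd
    X_bd := h.X_bd
    nat_adm := h.nat_adm
    nat_v1 := h.nat_v1
    nat_w := h.nat_w
    nat_ww := h.nat_ww
    nat_lo := fun p hp => h.nat_lo p hp.1
    χ_pos := h.χ_pos
    χ_le := h.χ_le
    pal_le := h.pal_le
    pal_ball := h.pal_ball
    ref_par := ksl2_ref_par h A hA (R.loc A).ref (fun _ hx => if_pos hx) (fun _ hx => if_neg hx)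
    ref_Q := ksl2_ref_Q h A
    dep_mem := h.dep_mem
    dep_nonneg := h.dep_nonneg
    lev_dep := h.lev_dep
    iv_lt := h.iv_lt
    asg_Sp := h.asg_Sp
    asg_par := h.asg_par
    q_lo := h.q_lo
    q_hi := h.q_hi
    inv := h.inv
    J_lo := h.J_lo
    J_hi := h.J_hi
    D_hi := h.D_hi
    ν_lo := ksl2_nu_lo h A hA
    ν_hi := ksl2_nu_hi h A hA
    disj := h.disj
    nested := h.nested
    box_mem := h.box_mem
    tst_adm := h.tst_adm
    tst_val := h.tst_val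
    tst_w := h.tst_w
    tst_ww := h.tst_ww
    tst_lo := fun Q p hp => h.tst_lo Q p ⟨hp.1.1, hp.2⟩
    lab := fun s hs p hp => h.lab s hs p hp.1
    lab_flo := fun Q => ksl2_flo h A Q (R.inc Q) _ _ Set.inter_subset_right (h.lab_flo Q)
    capX := fun r hr B U f hU hf => ksl2_cap h A hA B _ (fun p hp => hp.1) _ _ (h.capX r hr B U f hU hf)
    capw := fun r hr B U f hU hf => ksl2_cap h A hA B _ (fun p hp => hp.1) _ _ (h.capw r hr B U f hU hf)
    capQ := ksl2_capQ h A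
    dom := ksl2_dom h A (R.loc A).ref (fun _ hx => if_pos hx)
    opt_pt := fun M hM r hr => by
      obtain ⟨n, h1, h2⟩ := h.opt_pt M hM r hr
      exact ⟨n, h1, ksl2_opt h A _ n h2⟩
    opt_ent := fun s hs => by
      obtain ⟨n, h1, h2⟩ := h.opt_ent s hs
      exact ⟨n, h1, ksl2_opt h A _ n h2⟩
    joint := fun M hM r hr B c b => ksl2_cap h A hA B _ (fun p hp => hp.1) _ _ (h.joint M hM r hr B c b)
    ent_card := h.ent_card
    ent_rad := h.ent_rad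
    ent_rad_le := h.ent_rad_le
    ent_cov := fun s hs p hp => h.ent_cov s hs p hp.1
    ent_flo := fun e => ksl2_flo h A (R.eLab e) (R.eOn e) _ _ (fun p hp => by
      have h1 := (h.ent_cov (R.dep (R.eLab e)) (h.dep_mem _) p hp.1).1
      have h2 : R.ent (R.dep (R.eLab e)) p = e := hp.2
      rw [h2] at h1
      exact h1.1) (h.ent_flo e)
    ent_root := h.ent_root
    ent_ctr := h.ent_ctr
    ent_smooth := h.ent_smooth
    ent_der := h.ent_der }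

theorem ksl_tm_sfinite : SFinite KbPb.tm := by
  unfold KbPb.tm; infer_instance

theorem ksl_m_parset {R : KsRef v} {K : ℝ} (h : R.Ok K) (A : R.Par) : MeasurableSet (R.par ⁻¹' {A}) := h.m_par A

theorem ksl_pA_ne_top {R : KsRef v} {K : ℝ} (h : R.Ok K) (A : R.Par) : R.pA A ≠ ⊤ := by
  have := h.prob
  exact measure_ne_top _ _

theorem ksl_parset_eq {R : KsRef v} (A : R.Par) : {p : R.L × ℝ | R.par p.1 = A} = (R.par ⁻¹' {A}) ×ˢ (Set.univ : Set ℝ) := by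
  ext p; simp

theorem ksl_nu_apply {R : KsRef v} {K : ℝ} (h : R.Ok K) (A : R.Par) (S : Set R.L) :
    ((R.pA A)⁻¹ • R.ν.restrict (R.par ⁻¹' {A})) S = (R.pA A)⁻¹ * R.ν (S ∩ R.par ⁻¹' {A}) := by
  rw [Measure.smul_apply, Measure.restrict_apply' (ksl_m_parset h A), smul_eq_mul]

theorem ksl_prior_apply {R : KsRef v} {K : ℝ} (h : R.Ok K) (A : R.Par) (F : Set (R.L × ℝ)) :
    (((R.pA A)⁻¹ • R.ν.restrict (R.par ⁻¹' {A})).prod KbPb.tm) F = (R.pA A)⁻¹ * R.prior (F ∩ {p | R.par p.1 = A}) := by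
  have := ksl_tm_sfinite
  have := h.prob
  have hm : MeasurableSet ((R.par ⁻¹' {A}) ×ˢ (Set.univ : Set ℝ)) := (ksl_m_parset h A).prod MeasurableSet.univ
  have h1 : ((R.pA A)⁻¹ • R.ν.restrict (R.par ⁻¹' {A})).prod KbPb.tm
      = (R.pA A)⁻¹ • (R.prior.restrict ((R.par ⁻¹' {A}) ×ˢ (Set.univ : Set ℝ))) := by
    rw [Measure.prod_smul_left]
    congr 1
    unfold KsRef.prior
    rw [← Measure.prod_restrict, Measure.restrict_univ]
  rw [ksl_parset_eq, h1, Measure.smul_apply, Measure.restrict_apply' hm, smul_eq_mul]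

/-- **L-252-KSL-3** -/
theorem ks_one_loc {R : KsRef v} {K : ℝ} (h : R.Ok K) (A : R.Par) (hA : R.pA A ≠ 0) : (R.loc A).One A := by
  refine ⟨?_, fun p hp => hp.2⟩
  change ((R.pA A)⁻¹ • R.ν.restrict (R.par ⁻¹' {A})) (R.par ⁻¹' {A}) = 1
  rw [ksl_nu_apply h, Set.inter_self]
  exact ENNReal.inv_mul_cancel hA (ksl_pA_ne_top h A)

/-- **L-252-KSL-4** the prior of the localised record -/
theorem ks_prior_loc {R : KsRef v} {K : ℝ} (h : R.Ok K) (A : R.Par) (F : Set (R.L × ℝ)) (hF : F ⊆ {p | R.par p.1 = A}) :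
    R.pA A * (R.loc A).prior F = R.prior F := by
  change R.pA A * (((R.pA A)⁻¹ • R.ν.restrict (R.par ⁻¹' {A})).prod KbPb.tm) F = R.prior F
  rw [ksl_prior_apply h, Set.inter_eq_left.2 hF, ← mul_assoc]
  by_cases hA : R.pA A = 0
  · have := ksl_tm_sfinite
    have := h.prob
    have h3 : R.prior F = 0 := by
      rw [ksl_parset_eq] at hF
      refine measure_mono_null hF ?_
      unfold KsRef.prior
      rw [Measure.prod_prod]
      have : R.ν (R.par ⁻¹' {A}) = 0 := hA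
      rw [this, zero_mul]
    rw [h3, mul_zero]
  · rw [ENNReal.mul_inv_cancel hA (ksl_pA_ne_top h A), one_mul]

theorem ksl5_lab_par {R : KsRef v} {K : ℝ} (h : R.Ok K) : KsLab (fun p : R.L × ℝ => R.par p.1) := fun A =>
  measurable_fst (h.m_par A)

/-- **L-252-KSL-5** a typical parent with dense success -/
theorem ks_typical_parent {R : KsRef v} {K K' : ℝ} {E : Set (R.L × ℝ)} (h : R.Ok K') (hE : KsCur R E K) :
    ∃ A : R.Par, R.pA A ≠ 0 ∧ KsCur (R.loc A) (E ∩ {p | R.par p.1 = A}) K := by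
  classical
  have hlab := ksl5_lab_par h
  have hprob := h.prob
  have hsum : ∑ A, R.pA A = 1 := by
    have := ks_mass_sum R.ν h.m_par
    rw [measure_univ] at this
    exact this
  have hE' : ∑ A, R.prior (E ∩ {p | R.par p.1 = A}) = R.prior E := ks_sum_inter R.prior hlab E
  have hloc : ∀ A, R.pA A * (R.loc A).prior (E ∩ {p | R.par p.1 = A}) = R.prior (E ∩ {p | R.par p.1 = A}) := fun A =>
    ks_prior_loc h A _ Set.inter_subset_right
  by_contra hcon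
  push Not at hcon
  have hlt : ∀ A, R.pA A ≠ 0 → ENNReal.ofReal K * (R.loc A).prior (E ∩ {p | R.par p.1 = A}) < 1 := by
    intro A hA
    by_contra hge
    exact hcon A hA ⟨hE.meas.inter (hlab A), fun p hp => ⟨hE.sub hp.1, hp.2⟩, not_lt.1 hge⟩
  have hne : (Finset.univ.filter fun A => R.pA A ≠ 0).Nonempty := by
    by_contra hemp
    rw [Finset.not_nonempty_iff_eq_empty, Finset.filter_eq_empty_iff] at hemp
    have : ∑ A, R.pA A = 0 := Finset.sum_eq_zero fun A _ => by simpa using hemp (Finset.mem_univ A)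
    rw [hsum] at this
    exact one_ne_zero this
  have hle1 : ∀ A, R.pA A ≤ 1 := fun A => prob_le_one
  have e1 : ENNReal.ofReal K * R.prior E
      = ∑ A ∈ Finset.univ.filter (fun A => R.pA A ≠ 0), R.pA A * (ENNReal.ofReal K * (R.loc A).prior (E ∩ {p | R.par p.1 = A})) := by
    rw [← hE', Finset.mul_sum, Finset.sum_filter]
    refine Finset.sum_congr rfl fun A _ => ?_
    rw [← hloc A]
    by_cases hA : R.pA A = 0
    · simp [hA]
    · rw [if_pos hA]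
      ring
  have e2 : ∑ A ∈ Finset.univ.filter (fun A => R.pA A ≠ 0), R.pA A = 1 := by
    rw [Finset.sum_filter, ← hsum]
    refine Finset.sum_congr rfl fun A _ => ?_
    by_cases hA : R.pA A = 0
    · simp [hA]
    · rw [if_pos hA]
  have := ENNReal.sum_lt_sum_of_nonempty hne (f := fun A => R.pA A * (ENNReal.ofReal K * (R.loc A).prior (E ∩ {p | R.par p.1 = A})))
    (g := fun A => R.pA A) (fun A hA => by
      have hA' : R.pA A ≠ 0 := (Finset.mem_filter.1 hA).2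
      calc R.pA A * (ENNReal.ofReal K * (R.loc A).prior (E ∩ {p | R.par p.1 = A})) < R.pA A * 1 :=
            (ENNReal.mul_lt_mul_iff_right hA' (ne_top_of_le_ne_top ENNReal.one_ne_top (hle1 A))).2 (hlt A hA')
        _ = R.pA A := mul_one _)
  rw [← e1, e2] at this
  exact absurd hE.mass (not_le.2 this)

theorem ksl_nuQ_loc {R : KsRef v} {K : ℝ} (h : R.Ok K) (A : R.Par) (Q : R.Lab) (hpos : (R.loc A).νQ Q ≠ 0) :
    R.pA A * (R.loc A).νQ Q = R.νQ Q ∧ R.νQ Q ≠ 0 := by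
  have e1 : (R.loc A).νQ Q = (R.pA A)⁻¹ * R.ν (R.asg Q ∩ R.par ⁻¹' {A}) := by
    change ((R.pA A)⁻¹ • R.ν.restrict (R.par ⁻¹' {A})) (R.asg Q) = _
    rw [ksl_nu_apply h]
  rw [e1] at hpos ⊢
  have h2 : R.ν (R.asg Q ∩ R.par ⁻¹' {A}) ≠ 0 := fun h0 => hpos (by rw [h0, mul_zero])
  have hne : (R.asg Q ∩ R.par ⁻¹' {A}).Nonempty := by
    by_contra hc
    rw [Set.not_nonempty_iff_eq_empty] at hc
    exact h2 (by rw [hc, measure_empty])
  obtain ⟨l, hl1, hl2⟩ := hne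
  have hpar : R.lpar Q = A := by
    have := h.asg_par Q hl1
    simp only [Set.mem_preimage, Set.mem_singleton_iff] at this hl2
    rw [← this, hl2]
  have hsub : R.asg Q ⊆ R.par ⁻¹' {A} := hpar ▸ h.asg_par Q
  rw [Set.inter_eq_left.2 hsub] at h2 ⊢
  have hA : R.pA A ≠ 0 := fun h0 => h2 (measure_mono_null hsub h0)
  refine ⟨?_, h2⟩
  rw [← mul_assoc, ENNReal.mul_inv_cancel hA (ksl_pA_ne_top h A), one_mul]
  rfl

/-- **L-252-KSL-6** candidates go back to the mixture -/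
theorem ks_time_of_loc {R : KsRef v} {K' : ℝ} (h : R.Ok K') (A : R.Par) (hA : R.pA A ≠ 0) {E : Set (R.L × ℝ)} {K c : ℝ} {Q : R.Lab} {P : KbTest v}
    {Cn : Set (R.L × ℝ)} (hc : KsTimeCand (R.loc A) (E ∩ {p | R.par p.1 = A}) K c Q P Cn) : KsTimeCand R E K c Q P Cn := by
  obtain ⟨e1, e2⟩ := ksl_nuQ_loc h A Q hc.pos
  have hsub : Cn ⊆ {p | R.par p.1 = A} := fun p hp => (hc.sub hp).1.2
  refine ⟨hc.adm, e2, hc.meas, fun p hp => ⟨(hc.sub hp).1.1, (hc.sub hp).2⟩, hc.val, hc.dw, hc.dww, hc.dw_lo, ?_⟩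
  have hm : ENNReal.ofReal (R.q Q * R.a (R.d * c)) * (R.loc A).νQ Q ≤ ENNReal.ofReal K * (R.loc A).prior Cn := hc.mass
  rw [← e1, ← ks_prior_loc h A Cn hsub]
  calc ENNReal.ofReal (R.q Q * R.a (R.d * c)) * (R.pA A * (R.loc A).νQ Q)
      = R.pA A * (ENNReal.ofReal (R.q Q * R.a (R.d * c)) * (R.loc A).νQ Q) := by ring
    _ ≤ R.pA A * (ENNReal.ofReal K * (R.loc A).prior Cn) := by gcongr
    _ = ENNReal.ofReal K * (R.pA A * (R.loc A).prior Cn) := by ring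

theorem ks_strip_of_loc {R : KsRef KbVer.two} {K' : ℝ} (h : R.Ok K') (A : R.Par) (hA : R.pA A ≠ 0) {E : Set (R.L × ℝ)} {K c : ℝ} {Q : R.Lab} {ρ : Fin 2 → ℝ}
    {Cn : Set (R.L × ℝ)} (hc : KsStripCand (R.loc A) (E ∩ {p | R.par p.1 = A}) K c Q ρ Cn) : KsStripCand R E K c Q ρ Cn := by
  obtain ⟨e1, e2⟩ := ksl_nuQ_loc h A Q hc.pos
  have hsub : Cn ⊆ {p | R.par p.1 = A} := fun p hp => (hc.sub hp).1.2
  refine ⟨e2, hc.meas, fun p hp => ⟨(hc.sub hp).1.1, (hc.sub hp).2⟩, hc.row, ?_⟩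
  have hm : ENNReal.ofReal (R.q Q) * (R.loc A).νQ Q ≤ ENNReal.ofReal K * (R.loc A).prior Cn := hc.mass
  rw [← e1, ← ks_prior_loc h A Cn hsub]
  calc ENNReal.ofReal (R.q Q) * (R.pA A * (R.loc A).νQ Q)
      = R.pA A * (ENNReal.ofReal (R.q Q) * (R.loc A).νQ Q) := by ring
    _ ≤ R.pA A * (ENNReal.ofReal K * (R.loc A).prior Cn) := by gcongr
    _ = ENNReal.ofReal K * (R.pA A * (R.loc A).prior Cn) := by ring

/-- **the reduction to one parent** (proved from the leaves) -/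
theorem ks_one_parent {R : KsRef v} {K K' : ℝ} {E : Set (R.L × ℝ)} (h : R.Ok K') (hE : KsCur R E K) :
    ∃ A : R.Par, (R.loc A).Ok K' ∧ (R.loc A).One A ∧ KsCur (R.loc A) (E ∩ {p | R.par p.1 = A}) K ∧
      ∀ (K₁ c : ℝ) (Q : R.Lab) (P : KbTest v) (Cn : Set (R.L × ℝ)), KsTimeCand (R.loc A) (E ∩ {p | R.par p.1 = A}) K₁ c Q P Cn → KsTimeCand R E K₁ c Q P Cn := by
  obtain ⟨A, hA, hc⟩ := ks_typical_parent h hE
  exact ⟨A, ks_ok_loc h A hA, ks_one_loc h A hA, hc, fun _ _ _ _ _ hh => ks_time_of_loc h A hA hh⟩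

/-! ## Tilted boxes (`0 < ℓ < ∞`) -/

namespace KsRef

variable (R : KsRef KbVer.two)

/-- entries of the frame in the coordinates `(Z, Y)` -/
def dZZ (Q : R.Lab) : ℝ := (R.ch Q).D (0 : Fin 2) (0 : Fin 2)
def dZY (Q : R.Lab) : ℝ := (R.ch Q).D (0 : Fin 2) (1 : Fin 2)
def dYZ (Q : R.Lab) : ℝ := (R.ch Q).D (1 : Fin 2) (0 : Fin 2)
def dYY (Q : R.Lab) : ℝ := (R.ch Q).D (1 : Fin 2) (1 : Fin 2)
/-- the slope `∂_Z Y_Q` -/
def tl (Q : R.Lab) : ℝ := R.dYZ Q / R.dZZ Q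
/-- the derivative row `A_Q = (∂_t Y_Q, ∂_Z Y_Q)` -/
def row (Q : R.Lab) : Fin 2 → ℝ := ![ksY (R.ch Q).y1 - R.tl Q * ksZ (R.ch Q).y1, R.tl Q]
/-- the affine function `Y_Q (t, Z)` -/
def YQ (Q : R.Lab) (t Z : ℝ) : ℝ := ksY ((R.ch Q).yc t) + R.tl Q * (Z - ksZ ((R.ch Q).yc t))
/-- `g_s = N^{-ℓ s}`, `b_s = N^{-(k + ℓ) s}` -/
def g (Q : R.Lab) : ℝ := R.a (R.ell * R.dep Q)
def b (Q : R.Lab) : ℝ := R.a ((R.k + R.ell) * R.dep Q)

/-- **triangular charts with full major width** (last paragraph of `prop:tangent-palette`, 04 l.700-716) -/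
structure Tilt (K : ℝ) : Prop where
  ell_pos : 0 < R.ell
  tri : ∀ Q, R.dZY Q = 0
  /-- major-coordinate fullness `ρ_s ≥ q_s / K` -/
  full : ∀ Q, R.q Q ≤ K * |R.dZZ Q|
  /-- bounded coefficients of the moving centre -/
  cen : ∀ Q, ‖(R.ch Q).y0‖ + ‖(R.ch Q).y1‖ ≤ K

end KsRef

theorem ksl7_mulVec (D : Matrix (Fin KbVer.two.j) (Fin KbVer.two.j) ℝ) (u : KbB KbVer.two) :
    ksZ (D.mulVec u) = D (0 : Fin 2) (0 : Fin 2) * ksZ u + D (0 : Fin 2) (1 : Fin 2) * ksY u ∧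
      ksY (D.mulVec u) = D (1 : Fin 2) (0 : Fin 2) * ksZ u + D (1 : Fin 2) (1 : Fin 2) * ksY u := by
  have key : ∀ (D : Matrix (Fin 2) (Fin 2) ℝ) (u : Fin 2 → ℝ),
      (D.mulVec u) 0 = D 0 0 * u 0 + D 0 1 * u 1 ∧ (D.mulVec u) 1 = D 1 0 * u 0 + D 1 1 * u 1 := by
    intro D u
    simp [Matrix.mulVec, dotProduct, Fin.sum_univ_two]
  exact key D u

theorem ksl7_det (D : Matrix (Fin KbVer.two.j) (Fin KbVer.two.j) ℝ) :
    D.det = D (0 : Fin 2) (0 : Fin 2) * D (1 : Fin 2) (1 : Fin 2) - D (0 : Fin 2) (1 : Fin 2) * D (1 : Fin 2) (0 : Fin 2) := by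
  have key : ∀ D : Matrix (Fin 2) (Fin 2) ℝ, D.det = D 0 0 * D 1 1 - D 0 1 * D 1 0 := Matrix.det_fin_two
  exact key D

theorem ksl7_Mn (D : Matrix (Fin KbVer.two.j) (Fin KbVer.two.j) ℝ) :
    kbMn D = |D (0 : Fin 2) (0 : Fin 2)| + |D (0 : Fin 2) (1 : Fin 2)| + (|D (1 : Fin 2) (0 : Fin 2)| + |D (1 : Fin 2) (1 : Fin 2)|) := by
  have key : ∀ D : Matrix (Fin 2) (Fin 2) ℝ, kbMn D = |D 0 0| + |D 0 1| + (|D 1 0| + |D 1 1|) := by
    intro D
    simp [kbMn, Fin.sum_univ_two]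
  exact key D

theorem ksl7_J {R : KsRef KbVer.two} {K' : ℝ} (hT : R.Tilt K') (Q : R.Lab) : R.J Q = |R.dZZ Q| * |R.dYY Q| := by
  have h0 : (R.ch Q).D (0 : Fin 2) (1 : Fin 2) = 0 := hT.tri Q
  unfold KsRef.J KbChart.J
  rw [ksl7_det, h0, zero_mul, sub_zero, abs_mul]
  rfl

theorem ksl7_dZZ_ne {R : KsRef KbVer.two} {K K' : ℝ} (h : R.Ok K) (hT : R.Tilt K') (Q : R.Lab) : R.dZZ Q ≠ 0 := by
  intro h0
  have h1 := congrArg Matrix.det (h.inv Q)
  rw [Matrix.det_mul, Matrix.det_one, ksl7_det] at h1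
  have h2 : (R.ch Q).D (0 : Fin 2) (1 : Fin 2) = 0 := hT.tri Q
  have h3 : (R.ch Q).D (0 : Fin 2) (0 : Fin 2) = 0 := h0
  rw [h2, h3] at h1
  simp at h1

/-- **L-252-KSL-7** unit coordinates of a triangular chart -/
theorem ks_tilt_unit {R : KsRef KbVer.two} {K K' : ℝ} (h : R.Ok K) (hT : R.Tilt K') (Q : R.Lab) (z : ℝ × KbB KbVer.two) :
    ksZ (R.unit Q z).2 * R.dZZ Q = ksZ z.2 - ksZ ((R.ch Q).yc z.1) ∧ ksY (R.unit Q z).2 * R.dYY Q = ksY z.2 - R.YQ Q z.1 (ksZ z.2) := by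
  have hD : (R.ch Q).D.mulVec (R.unit Q z).2 = z.2 - (R.ch Q).yc z.1 := by
    show (R.ch Q).D.mulVec ((R.ch Q).Di.mulVec (z.2 - (R.ch Q).yc z.1)) = _
    rw [Matrix.mulVec_mulVec, h.inv Q, Matrix.one_mulVec]
  obtain ⟨e1, e2⟩ := ksl7_mulVec (R.ch Q).D (R.unit Q z).2
  rw [hD] at e1 e2
  have h0 : (R.ch Q).D (0 : Fin 2) (1 : Fin 2) = 0 := hT.tri Q
  rw [h0, zero_mul, add_zero] at e1
  have hne := ksl7_dZZ_ne h hT Q
  have s1 : ksZ (z.2 - (R.ch Q).yc z.1) = ksZ z.2 - ksZ ((R.ch Q).yc z.1) := rfl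
  have s2 : ksY (z.2 - (R.ch Q).yc z.1) = ksY z.2 - ksY ((R.ch Q).yc z.1) := rfl
  rw [s1] at e1
  rw [s2] at e2
  have e1' : ksZ z.2 - ksZ ((R.ch Q).yc z.1) = R.dZZ Q * ksZ (R.unit Q z).2 := e1
  have e2' : ksY z.2 - ksY ((R.ch Q).yc z.1) = R.dYZ Q * ksZ (R.unit Q z).2 + R.dYY Q * ksY (R.unit Q z).2 := e2
  refine ⟨by rw [e1']; ring, ?_⟩
  unfold KsRef.YQ KsRef.tl
  rw [e1']
  field_simp
  linarith [e2']

theorem ksl8_q_pos (R : KsRef v) (Q : R.Lab) : 0 < R.q Q := pow_pos (by norm_num) _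

theorem ksl8_a_pos {R : KsRef v} {K : ℝ} (h : R.Ok K) (s : ℝ) : 0 < R.a s :=
  Real.rpow_pos_of_pos (by linarith [h.N_ge]) _

theorem ksl8_b_eq {R : KsRef KbVer.two} {K : ℝ} (h : R.Ok K) (Q : R.Lab) : R.b Q = R.a (R.k * R.dep Q) * R.g Q := by
  unfold KsRef.b KsRef.g KsRef.a
  rw [← Real.rpow_add (by linarith [h.N_ge])]
  congr 1
  ring

theorem ksl8_entries {R : KsRef KbVer.two} {K : ℝ} (h : R.Ok K) (Q : R.Lab) : |R.dZZ Q| ≤ K * R.q Q ∧ |R.dYZ Q| ≤ K * R.q Q := by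
  have h1 := h.D_hi Q
  rw [ksl7_Mn] at h1
  have a1 := abs_nonneg ((R.ch Q).D (0 : Fin 2) (0 : Fin 2))
  have a2 := abs_nonneg ((R.ch Q).D (0 : Fin 2) (1 : Fin 2))
  have a3 := abs_nonneg ((R.ch Q).D (1 : Fin 2) (0 : Fin 2))
  have a4 := abs_nonneg ((R.ch Q).D (1 : Fin 2) (1 : Fin 2))
  exact ⟨by unfold KsRef.dZZ; linarith, by unfold KsRef.dYZ; linarith⟩

theorem ksl8_abs_le_norm (y : KbB KbVer.two) : |ksZ y| ≤ ‖y‖ ∧ |ksY y| ≤ ‖y‖ :=
  ⟨norm_le_pi_norm y (0 : Fin 2), norm_le_pi_norm y (1 : Fin 2)⟩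

/-- **L-252-KSL-8** sizes: `|A_Q| ≤ K`, minor width `∼ b_s` -/
theorem ks_tilt_size {R : KsRef KbVer.two} {K : ℝ} (h : R.Ok K) (hT : R.Tilt K) (Q : R.Lab) :
    |R.tl Q| ≤ K ^ 2 ∧ |R.row Q 0| ≤ 2 * K ^ 3 ∧ |R.dYY Q| ≤ K ^ 4 * R.b Q ∧ R.b Q ≤ K ^ 4 * |R.dYY Q| := by
  have hK := h.K_ge
  have hK0 : 0 ≤ K := by linarith
  have hq := ksl8_q_pos R Q
  have hg : 0 < R.g Q := ksl8_a_pos h _
  have hak : 0 < R.a (R.k * R.dep Q) := ksl8_a_pos h _
  obtain ⟨hZ, hYZ⟩ := ksl8_entries h Q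
  have hfull := hT.full Q
  have hne := ksl7_dZZ_ne h hT Q
  have hZpos : 0 < |R.dZZ Q| := abs_pos.2 hne
  have hY0 : 0 ≤ |R.dYY Q| := abs_nonneg _
  have htl : |R.tl Q| ≤ K ^ 2 := by
    unfold KsRef.tl
    rw [abs_div, div_le_iff₀ hZpos]
    calc |R.dYZ Q| ≤ K * R.q Q := hYZ
      _ ≤ K * (K * |R.dZZ Q|) := by gcongr
      _ = K ^ 2 * |R.dZZ Q| := by ring
  have hJhi : |R.dZZ Q| * |R.dYY Q| ≤ K * (R.q Q ^ 2 * R.g Q) := by
    rw [← ksl7_J hT Q]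
    exact h.J_hi Q
  have hJlo : R.q Q ^ 2 * R.g Q ≤ K * (|R.dZZ Q| * |R.dYY Q|) := by
    rw [← ksl7_J hT Q]
    exact h.J_lo Q
  refine ⟨htl, ?_, ?_, ?_⟩
  · have e : R.row Q 0 = ksY (R.ch Q).y1 - R.tl Q * ksZ (R.ch Q).y1 := rfl
    have hc := hT.cen Q
    have n0 := norm_nonneg (R.ch Q).y0
    obtain ⟨b1, b2⟩ := ksl8_abs_le_norm (R.ch Q).y1
    have b3 : |R.tl Q * ksZ (R.ch Q).y1| ≤ K ^ 2 * K := by
      rw [abs_mul]
      exact mul_le_mul htl (by linarith) (abs_nonneg _) (by positivity)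
    have b4 : K ≤ K ^ 3 := by
      calc K = K ^ 1 := (pow_one K).symm
        _ ≤ K ^ 3 := pow_le_pow_right₀ hK (by norm_num)
    rw [e]
    calc |ksY (R.ch Q).y1 - R.tl Q * ksZ (R.ch Q).y1| ≤ |ksY (R.ch Q).y1| + |R.tl Q * ksZ (R.ch Q).y1| := abs_sub _ _
      _ ≤ K + K ^ 2 * K := add_le_add (by linarith) b3
      _ ≤ 2 * K ^ 3 := by nlinarith
  · have s1 : R.q Q * |R.dYY Q| ≤ R.q Q * (K ^ 2 * R.q Q * R.g Q) := by
      calc R.q Q * |R.dYY Q| ≤ (K * |R.dZZ Q|) * |R.dYY Q| := by gcongr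
        _ = K * (|R.dZZ Q| * |R.dYY Q|) := by ring
        _ ≤ K * (K * (R.q Q ^ 2 * R.g Q)) := by gcongr
        _ = R.q Q * (K ^ 2 * R.q Q * R.g Q) := by ring
    have s2 : |R.dYY Q| ≤ K ^ 2 * R.q Q * R.g Q := le_of_mul_le_mul_left s1 hq
    rw [ksl8_b_eq h Q]
    calc |R.dYY Q| ≤ K ^ 2 * R.q Q * R.g Q := s2
      _ ≤ K ^ 2 * (K * R.a (R.k * R.dep Q)) * R.g Q := by
          have := h.q_hi Q
          gcongr
      _ = K ^ 3 * (R.a (R.k * R.dep Q) * R.g Q) := by ring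
      _ ≤ K ^ 4 * (R.a (R.k * R.dep Q) * R.g Q) := by
          have : K ^ 3 ≤ K ^ 4 := pow_le_pow_right₀ hK (by norm_num)
          gcongr
  · have s1 : R.q Q * (R.q Q * R.g Q) ≤ R.q Q * (K ^ 2 * |R.dYY Q|) := by
      calc R.q Q * (R.q Q * R.g Q) = R.q Q ^ 2 * R.g Q := by ring
        _ ≤ K * (|R.dZZ Q| * |R.dYY Q|) := hJlo
        _ ≤ K * ((K * R.q Q) * |R.dYY Q|) := by gcongr
        _ = R.q Q * (K ^ 2 * |R.dYY Q|) := by ring
    have s2 : R.q Q * R.g Q ≤ K ^ 2 * |R.dYY Q| := le_of_mul_le_mul_left s1 hq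
    rw [ksl8_b_eq h Q]
    calc R.a (R.k * R.dep Q) * R.g Q ≤ (K * R.q Q) * R.g Q := by
          have := h.q_lo Q
          gcongr
      _ = K * (R.q Q * R.g Q) := by ring
      _ ≤ K * (K ^ 2 * |R.dYY Q|) := by gcongr
      _ = K ^ 3 * |R.dYY Q| := by ring
      _ ≤ K ^ 4 * |R.dYY Q| := by
          have : K ^ 3 ≤ K ^ 4 := pow_le_pow_right₀ hK (by norm_num)
          gcongr

/-- the defect `Y - Y_Q (t, Z)` along a trajectory is affine in `t` with slope `Y' - A_Q V₁` -/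
theorem ksl9_affine (R : KsRef KbVer.two) (Q : R.Lab) (l : R.L) (t t' : ℝ) :
    (ksY (R.y l t') - R.YQ Q t' (ksZ (R.y l t'))) - (ksY (R.y l t) - R.YQ Q t (ksZ (R.y l t)))
      = (t' - t) * (ksY (R.V l) - (R.row Q 0 + R.row Q 1 * ksZ (R.V l))) := by
  have y1 : ∀ s, ksY (R.y l s) = ksY (R.co l).1 + s * ksY (R.V l) := fun _ => rfl
  have y2 : ∀ s, ksZ (R.y l s) = ksZ (R.co l).1 + s * ksZ (R.V l) := fun _ => rfl
  have c1 : ∀ s, ksY ((R.ch Q).yc s) = ksY (R.ch Q).y0 + s * ksY (R.ch Q).y1 := fun _ => rfl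
  have c2 : ∀ s, ksZ ((R.ch Q).yc s) = ksZ (R.ch Q).y0 + s * ksZ (R.ch Q).y1 := fun _ => rfl
  have r0 : R.row Q 0 = ksY (R.ch Q).y1 - R.tl Q * ksZ (R.ch Q).y1 := rfl
  have r1 : R.row Q 1 = R.tl Q := rfl
  unfold KsRef.YQ
  rw [y1, y1, y2, y2, c1, c1, c2, c2, r0, r1]
  ring

/-- **L-252-KSL-9** the tilted box: `|Z - Z_c| ≤ K q`, `|Y - Y_Q (t, Z)| ≤ K b_s`, `|Y' - A_Q V₁| ≤ K g_s` on the whole assigned pieces -/
theorem ks_tilt_box {R : KsRef KbVer.two} {K : ℝ} (h : R.Ok K) (hT : R.Tilt K) (Q : R.Lab) (l : R.L) (hl : l ∈ R.asg Q) :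
    (∀ t ∈ R.blk Q, |ksZ (R.y l t) - ksZ ((R.ch Q).yc t)| ≤ K ^ 2 * R.q Q ∧ |ksY (R.y l t) - R.YQ Q t (ksZ (R.y l t))| ≤ K ^ 5 * R.b Q) ∧
      |ksY (R.V l) - (R.row Q 0 + R.row Q 1 * ksZ (R.V l))| ≤ 4 * K ^ 6 * R.g Q := by
  have hK := h.K_ge
  have hK0 : 0 ≤ K := by linarith
  have hq := ksl8_q_pos R Q
  have hg : 0 < R.g Q := ksl8_a_pos h _
  have hb : 0 < R.b Q := ksl8_a_pos h _
  obtain ⟨hZ, -⟩ := ksl8_entries h Q
  obtain ⟨-, -, hYY, -⟩ := ks_tilt_size h hT Q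
  have hbox : ∀ t ∈ R.blk Q, |ksZ (R.y l t) - ksZ ((R.ch Q).yc t)| ≤ K ^ 2 * R.q Q ∧
      |ksY (R.y l t) - R.YQ Q t (ksZ (R.y l t))| ≤ K ^ 5 * R.b Q := by
    intro t ht
    obtain ⟨e1, e2⟩ := ks_tilt_unit h hT Q (t, R.y l t)
    have hu := h.box_mem Q l hl t ht
    obtain ⟨u1, u2⟩ := ksl8_abs_le_norm (R.unit Q (t, R.y l t)).2
    constructor
    · rw [← e1, abs_mul]
      calc |ksZ (R.unit Q (t, R.y l t)).2| * |R.dZZ Q| ≤ K * (K * R.q Q) :=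
            mul_le_mul (u1.trans hu) hZ (abs_nonneg _) hK0
        _ = K ^ 2 * R.q Q := by ring
    · rw [← e2, abs_mul]
      calc |ksY (R.unit Q (t, R.y l t)).2| * |R.dYY Q| ≤ K * (K ^ 4 * R.b Q) :=
            mul_le_mul (u2.trans hu) hYY (abs_nonneg _) hK0
        _ = K ^ 5 * R.b Q := by ring
  refine ⟨hbox, ?_⟩
  have hq' : R.q Q = kbQ (R.lev Q) := rfl
  have m1 : (R.iv Q : ℝ) * kbQ (R.lev Q) ∈ R.blk Q := by
    refine ⟨le_refl _, ?_⟩
    rw [← hq']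
    nlinarith
  have m2 : (R.iv Q : ℝ) * kbQ (R.lev Q) + R.q Q / 2 ∈ R.blk Q := by
    refine ⟨?_, ?_⟩
    · linarith
    · rw [← hq']
      nlinarith
  have e := ksl9_affine R Q l ((R.iv Q : ℝ) * kbQ (R.lev Q)) ((R.iv Q : ℝ) * kbQ (R.lev Q) + R.q Q / 2)
  have b1 := (hbox _ m1).2
  have b2 := (hbox _ m2).2
  have e' : R.q Q / 2 * |ksY (R.V l) - (R.row Q 0 + R.row Q 1 * ksZ (R.V l))| ≤ K ^ 5 * R.b Q + K ^ 5 * R.b Q := by
    have e3 : R.q Q / 2 * |ksY (R.V l) - (R.row Q 0 + R.row Q 1 * ksZ (R.V l))|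
        = |((R.iv Q : ℝ) * kbQ (R.lev Q) + R.q Q / 2 - (R.iv Q : ℝ) * kbQ (R.lev Q)) * (ksY (R.V l) - (R.row Q 0 + R.row Q 1 * ksZ (R.V l)))| := by
      rw [abs_mul, add_sub_cancel_left, abs_of_pos (by positivity : 0 < R.q Q / 2)]
    rw [e3, ← e]
    exact (abs_sub _ _).trans (add_le_add b2 b1)
  have hbq : R.b Q ≤ K * R.q Q * R.g Q := by
    rw [ksl8_b_eq h Q]
    have := h.q_lo Q
    gcongr
  have e4 : R.q Q * |ksY (R.V l) - (R.row Q 0 + R.row Q 1 * ksZ (R.V l))| ≤ R.q Q * (4 * K ^ 6 * R.g Q) := by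
    have : K ^ 5 * R.b Q ≤ K ^ 5 * (K * R.q Q * R.g Q) := by gcongr
    nlinarith
  exact le_of_mul_le_mul_left e4 hq

/-! ## First consequences of `R.Ok K` -/

theorem ksl_kbQ_pos (n : ℕ) : 0 < kbQ n := by
  unfold kbQ
  positivity

theorem ksl_kbI_le {n i i' : ℕ} {t : ℝ} (h : t ∈ kbI n i) (h' : t ∈ kbI n i') : i ≤ i' := by
  have h1 : (i : ℝ) * kbQ n < ((i' : ℝ) + 1) * kbQ n := lt_of_le_of_lt h.1 h'.2
  have h2 : (i : ℝ) < (i' : ℝ) + 1 := lt_of_mul_lt_mul_right h1 (ksl_kbQ_pos n).le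
  have h3 : i < i' + 1 := by exact_mod_cast h2
  omega

theorem ksl_kbI_inj {n i i' : ℕ} {t : ℝ} (h : t ∈ kbI n i) (h' : t ∈ kbI n i') : i = i' :=
  le_antisymm (ksl_kbI_le h h') (ksl_kbI_le h' h)

theorem ksl_q_ne {R : KsRef v} (Q : R.Lab) : R.q Q ≠ 0 := (ksl_kbQ_pos _).ne'

/-- **L-252-KSL-10** the true label is unique -/
theorem ks_lab_unique {R : KsRef v} {K : ℝ} (h : R.Ok K) {s : ℝ} {p : R.L × ℝ} {Q Q' : R.Lab} (hQ : R.IsLab s p Q) (hQ' : R.IsLab s p Q') : Q = Q' := by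
  by_contra hne
  have hd : R.dep Q = R.dep Q' := hQ.1.trans hQ'.1.symm
  have hl : R.lev Q = R.lev Q' := h.lev_dep Q Q' hd
  have h1 : p.2 ∈ kbI (R.lev Q) (R.iv Q) := hQ.2.2
  have h2 : p.2 ∈ kbI (R.lev Q) (R.iv Q') := by
    rw [hl]
    exact hQ'.2.2
  have hi : R.iv Q = R.iv Q' := ksl_kbI_inj h1 h2
  exact Set.disjoint_left.1 (h.disj Q Q' hd hi hne) hQ.2.1 hQ'.2.1

/-- **L-252-KSL-11** `labAt` is a label -/
theorem ks_labAt_meas {R : KsRef v} {K : ℝ} (h : R.Ok K) (s : ℝ) : KsLab (R.labAt s) :=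
  ks_lab_comp (h.m_ent s) R.eLab

open Classical in
/-- **L-252-KSL-12** the budgets `∑_{Q in one block} ν_Q ≤ 1`, `∑_{Q at one depth} q_s ν_Q ≤ 1` -/
theorem ks_budget_block {R : KsRef v} {K : ℝ} (h : R.Ok K) (s : ℝ) (i : ℕ) : ∑ Q ∈ Finset.univ.filter (fun Q => R.dep Q = s ∧ R.iv Q = i), R.νQ Q ≤ 1 := by
  have := h.prob
  unfold KsRef.νQ
  rw [← measure_biUnion_finset _ (fun Q _ => h.m_asg Q)]
  · exact prob_le_one
  · intro Q hQ Q' hQ' hne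
    have hQ1 := (Finset.mem_filter.1 hQ).2
    have hQ2 := (Finset.mem_filter.1 hQ').2
    exact h.disj Q Q' (hQ1.1.trans hQ2.1.symm) (hQ1.2.trans hQ2.2.symm) hne

open Classical in
theorem ks_budget_depth {R : KsRef v} {K : ℝ} (h : R.Ok K) (s : ℝ) : ∑ Q ∈ Finset.univ.filter (fun Q => R.dep Q = s), ENNReal.ofReal (R.q Q) * R.νQ Q ≤ 1 := by
  rcases (Finset.univ.filter (fun Q => R.dep Q = s)).eq_empty_or_nonempty with he | ⟨Q0, hQ0⟩
  · rw [he]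
    simp
  have hQ0' : R.dep Q0 = s := (Finset.mem_filter.1 hQ0).2
  have hlev : ∀ Q ∈ Finset.univ.filter (fun Q => R.dep Q = s), R.lev Q = R.lev Q0 := fun Q hQ =>
    h.lev_dep Q Q0 ((Finset.mem_filter.1 hQ).2.trans hQ0'.symm)
  have hmaps : ∀ Q ∈ Finset.univ.filter (fun Q => R.dep Q = s), R.iv Q ∈ Finset.range (2 ^ R.lev Q0) := fun Q hQ => by
    rw [Finset.mem_range, ← hlev Q hQ]
    exact h.iv_lt Q
  rw [← Finset.sum_fiberwise_of_maps_to hmaps]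
  have hb : ∀ i ∈ Finset.range (2 ^ R.lev Q0),
      ∑ Q ∈ (Finset.univ.filter (fun Q => R.dep Q = s)).filter (fun Q => R.iv Q = i), ENNReal.ofReal (R.q Q) * R.νQ Q
        ≤ ENNReal.ofReal (kbQ (R.lev Q0)) := by
    intro i _
    have h1 : ∑ Q ∈ (Finset.univ.filter (fun Q => R.dep Q = s)).filter (fun Q => R.iv Q = i), ENNReal.ofReal (R.q Q) * R.νQ Q
        = ∑ Q ∈ (Finset.univ.filter (fun Q => R.dep Q = s)).filter (fun Q => R.iv Q = i), ENNReal.ofReal (kbQ (R.lev Q0)) * R.νQ Q := by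
      refine Finset.sum_congr rfl fun Q hQ => ?_
      rw [KsRef.q, hlev Q (Finset.mem_filter.1 hQ).1]
    rw [h1, ← Finset.mul_sum, Finset.filter_filter]
    calc _ ≤ ENNReal.ofReal (kbQ (R.lev Q0)) * 1 := mul_le_mul' le_rfl (ks_budget_block h s i)
      _ = _ := mul_one _
  refine (Finset.sum_le_sum hb).trans ?_
  rw [Finset.sum_const, Finset.card_range, nsmul_eq_mul]
  have h2 : ((2 ^ R.lev Q0 : ℕ) : ℝ≥0∞) = ENNReal.ofReal ((2 : ℝ) ^ R.lev Q0) := by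
    rw [← ENNReal.ofReal_natCast]
    push_cast
    rfl
  rw [h2, ← ENNReal.ofReal_mul (by positivity), kbQ, ← mul_pow]
  norm_num

/-- **L-252-KSL-13** unit coordinates are a bijection -/
theorem ks_unit_ofUnit {R : KsRef v} {K : ℝ} (h : R.Ok K) (Q : R.Lab) (u : ℝ × KbB v) : R.unit Q (R.ofUnit Q u) = u := by
  have hq := ksl_q_ne (R := R) Q
  have hi : (R.ch Q).Di * (R.ch Q).D = 1 := mul_eq_one_comm.1 (h.inv Q)
  unfold KsRef.unit KsRef.ofUnit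
  refine Prod.ext ?_ ?_
  · simp only
    field_simp
    ring
  · simp only [add_sub_cancel_left, Matrix.mulVec_mulVec, hi, Matrix.one_mulVec]

theorem ks_ofUnit_unit {R : KsRef v} {K : ℝ} (h : R.Ok K) (Q : R.Lab) (z : ℝ × KbB v) : R.ofUnit Q (R.unit Q z) = z := by
  have hq := ksl_q_ne (R := R) Q
  have h1 : R.t0 Q + R.q Q * ((z.1 - R.t0 Q) / R.q Q) = z.1 := by
    field_simp
    ring
  unfold KsRef.unit KsRef.ofUnit
  refine Prod.ext ?_ ?_
  · exact h1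
  · simp only [h1, Matrix.mulVec_mulVec, h.inv Q, Matrix.one_mulVec, add_sub_cancel]

/-- **L-252-KSL-14** Taylor in the hidden variable, exact for quadratics -/
theorem ks_quad_taylor {T : KbTest v} (hT : KbIsQuad T) (t : ℝ) (y : KbB v) (w w' : ℝ) :
    T t y w' = T t y w + kbDw T t y w * (w' - w) + kbDww T t y w / 2 * (w' - w) ^ 2 := by
  obtain ⟨Q, hQ⟩ := hT
  simp only [kbDw, kbDww, hQ, KbQuad.ev]
  ring

theorem ksl_taylor_bd {K a X F dw dww e : ℝ} (hK : 1 ≤ K) (ha0 : 0 ≤ a) (ha1 : a ≤ 1) (hF : F = X + dw * e + dww / 2 * e ^ 2)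
    (hdw : |dw| ≤ K) (hdww : |dww| ≤ K) (he : |e| ≤ K * a) : |X - F| ≤ 2 * K ^ 3 * a := by
  have h1 : X - F = -(dw * e) - dww / 2 * e ^ 2 := by rw [hF]; ring
  have hK0 : 0 ≤ K := by linarith
  have h2 : |dw * e| ≤ K * (K * a) := by
    rw [abs_mul]
    exact mul_le_mul hdw he (abs_nonneg _) hK0
  have h3 : |dww / 2 * e ^ 2| ≤ K / 2 * (K * a) ^ 2 := by
    rw [abs_mul, abs_div, abs_pow, abs_of_pos (by norm_num : (0 : ℝ) < 2)]
    exact mul_le_mul (by linarith) (pow_le_pow_left₀ (abs_nonneg _) he 2) (by positivity) (by positivity)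
  have h4 : |X - F| ≤ K * (K * a) + K / 2 * (K * a) ^ 2 := by
    rw [h1]
    refine (abs_sub _ _).trans ?_
    rw [abs_neg]
    exact add_le_add h2 h3
  have h5 : K * (K * a) ≤ K ^ 3 * a := by
    have : K ^ 2 ≤ K ^ 3 := pow_le_pow_right₀ hK (by norm_num)
    nlinarith [mul_le_mul_of_nonneg_right this ha0]
  have h6 : K / 2 * (K * a) ^ 2 ≤ K ^ 3 * a := by
    have h7 : a ^ 2 ≤ a := by nlinarith
    have h8 : 0 ≤ K ^ 3 := by positivity
    nlinarith [mul_le_mul_of_nonneg_left h7 h8, mul_nonneg h8 ha0]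
  linarith

/-- **L-252-KSL-15** the graph of the entry predicts the native signal to `K a_s` at the retained incidences -/
theorem ks_X_err {R : KsRef v} {K : ℝ} (h : R.Ok K) {s : ℝ} (hs : s ∈ R.depths) {p : R.L × ℝ} (hp : p ∈ R.Ev0) :
    |R.X p.1 p.2 - R.eF (R.ent s p) (R.unit (R.labAt s p) (R.base p))| ≤ 2 * K ^ 3 * R.a s := by
  have hlab := h.lab s hs p hp
  have hs0 : 0 ≤ s := hlab.1 ▸ h.dep_nonneg _
  have hN : (1 : ℝ) ≤ R.N := by linarith [h.N_ge]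
  have ha0 : 0 ≤ R.a s := Real.rpow_nonneg (by linarith) _
  have ha1 : R.a s ≤ 1 := Real.rpow_le_one_of_one_le_of_nonpos hN (by linarith)
  have hSp := h.Ev0_sub hp
  have hpar : R.par p.1 = R.lpar (R.labAt s p) := h.asg_par _ hlab.2.1
  have hcov := (h.ent_cov s hs p hp).2
  have hF : R.eF (R.ent s p) (R.unit (R.labAt s p) (R.base p))
      = R.nat (R.par p.1) p.2 (kbY (R.co p.1) p.2) (R.eG (R.ent s p) (R.base p)) := by
    unfold KsRef.eF KsRef.onG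
    have h1 : R.ofUnit (R.eLab (R.ent s p)) (R.unit (R.labAt s p) (R.base p)) = R.base p := ks_ofUnit_unit h _ _
    rw [h1, hpar]
    rfl
  refine ksl_taylor_bd h.K_ge ha0 ha1 (hF.trans (ks_quad_taylor (h.nat_adm (R.par p.1)).1 p.2 (kbY (R.co p.1) p.2) (kbW (R.co p.1) p.2) _))
    (h.nat_w p.1 hSp.1 p.2 hSp.2) (h.nat_ww _ _ _ _) ?_
  rw [abs_sub_comm]
  exact hcov

/-- **L-252-KSL-16** ceilings add over finite unions of tests -/
theorem ks_dom_union {Ω S ι κ : Type*} [MeasurableSpace Ω] {μ : Measure Ω} {s : Ω → S} {T : ι → Set Ω} {π : S → ι → ℝ≥0∞} {Ref : S → ℝ≥0∞} {K : ℝ≥0∞}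
    (h : KsDom μ s T π Ref K) (F : κ → Finset ι) : KsDom μ s (fun u => ⋃ i ∈ F u, T i) (fun s0 u => ∑ i ∈ F u, π s0 i) Ref K := by
  intro s0 u
  simp only
  rw [Set.inter_iUnion₂]
  refine (measure_biUnion_finset_le _ _).trans ?_
  rw [Finset.mul_sum, Finset.sum_mul]
  exact Finset.sum_le_sum fun i _ => h s0 i

theorem ksl17_dy_pos (x : ℝ) : 0 < kbDy x := by
  unfold kbDy
  exact zpow_pos (by norm_num) _

theorem ksl17_dy_lt {x : ℝ} (hx : 0 < x) : kbDy x < 2 * x := by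
  unfold kbDy
  rw [← Real.rpow_intCast]
  calc (2 : ℝ) ^ ((⌈Real.logb 2 x⌉ : ℤ) : ℝ) < (2 : ℝ) ^ (Real.logb 2 x + 1) :=
        Real.rpow_lt_rpow_of_exponent_lt (by norm_num) (Int.ceil_lt_add_one _)
    _ = 2 * x := by
        rw [Real.rpow_add (by norm_num), Real.rpow_logb (by norm_num) (by norm_num) hx, Real.rpow_one, mul_comm]

theorem ksl17_bin_iff (wd x : ℝ) (d : ℤ) : kbBin wd x = d ↔ (d : ℝ) * kbDy wd ≤ x ∧ x < ((d : ℝ) + 1) * kbDy wd := by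
  unfold kbBin
  rw [Int.floor_eq_iff, le_div_iff₀ (ksl17_dy_pos wd), div_lt_iff₀ (ksl17_dy_pos wd)]

theorem ksl17_bin_meas (wd : ℝ) : Measurable (kbBin wd) := by
  unfold kbBin
  exact (measurable_id.div_const _).floor

theorem ksl17_cube_meas (β : ℝ) (b : Fin v.j → ℤ) : MeasurableSet (kpCube β b : Set (KbB v)) := by
  have e : (kpCube β b : Set (KbB v)) = ⋂ i, (fun u : KbB v => kbBin β (u i)) ⁻¹' {b i} := by
    ext u
    simp [kpCube]
  rw [e]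
  exact MeasurableSet.iInter fun i => ((ksl17_bin_meas β).comp (measurable_pi_apply i)) (measurableSet_singleton _)

theorem ksl17_cube_disj (β : ℝ) {b b' : Fin v.j → ℤ} (hb : b ≠ b') : Disjoint (kpCube β b : Set (KbB v)) (kpCube β b') := by
  refine Set.disjoint_left.2 fun u h1 h2 => hb ?_
  funext i
  rw [← h1 i, ← h2 i]

/-- two points of one cube -/
theorem ksl17_cube_dist (β : ℝ) (b : Fin v.j → ℤ) {u u' : KbB v} (h : u ∈ (kpCube β b : Set (KbB v))) (h' : u' ∈ (kpCube β b : Set (KbB v))) :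
    dist u' u ≤ kbDy β := by
  refine (dist_pi_le_iff (ksl17_dy_pos β).le).2 fun i => ?_
  obtain ⟨a1, a2⟩ := (ksl17_bin_iff β (u i) (b i)).1 (h i)
  obtain ⟨c1, c2⟩ := (ksl17_bin_iff β (u' i) (b i)).1 (h' i)
  rw [Real.dist_eq, abs_le]
  constructor <;> nlinarith

/-- **L-252-KSL-17** (v4: the palette is a measure, the bins are the dyadic cubes `kpCube χ b`, of side `kbDy χ ∈ [χ, 2χ)`) the velocity-ball ceiling for ANY state whose palette is the parent palette: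
`μ {s = s0, |v - x| ≤ p} ≤ K₀ K (3p)^S Ref (s0)`.   Plan: finitely many cubes meet the ball, they are disjoint, measurable and contained in `closedBall x (p + 2χ) ⊆ closedBall x (3p)`; `ks_dom_union`, `measure_biUnion_finset`, `pal_ball`. -/
theorem ks_dom_ball {R : KsRef v} {K : ℝ} (h : R.Ok K) {S : Type*} {μ : Measure (R.L × ℝ)} {s : R.L × ℝ → S} {A : S → R.Par} {Ref : S → ℝ≥0∞} {K0 : ℝ≥0∞}
    (hd : KsDom μ s R.vT (fun s0 b => R.pi (A s0) b) Ref K0) (s0 : S) (x : KbB v) (p : ℝ) (hp : R.χ ≤ p) :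
    μ (s ⁻¹' {s0} ∩ {z | dist (R.vel z.1) x ≤ p}) ≤ K0 * ENNReal.ofReal (K * (3 * p) ^ R.S) * Ref s0 := by
  classical
  have hD := ksl17_dy_pos R.χ
  have hD2 := ksl17_dy_lt h.χ_pos
  obtain ⟨F, hF⟩ : ∃ F : Finset (Fin v.j → ℤ), F = (Fintype.piFinset fun i : Fin v.j =>
      Finset.Icc ⌊(x i - p) / kbDy R.χ⌋ ⌊(x i + p) / kbDy R.χ⌋).filter
        (fun b => ∃ u ∈ (kpCube R.χ b : Set (KbB v)), dist u x ≤ p) := ⟨_, rfl⟩
  have hsub : s ⁻¹' {s0} ∩ {z | dist (R.vel z.1) x ≤ p} ⊆ s ⁻¹' {s0} ∩ ⋃ b ∈ F, R.vT b := by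
    intro z hz
    refine ⟨hz.1, ?_⟩
    have hz2 : dist (R.vel z.1) x ≤ p := hz.2
    refine Set.mem_biUnion (x := R.vbin z.1) ?_ rfl
    rw [hF]
    refine Finset.mem_coe.2 (Finset.mem_filter.2 ⟨Fintype.mem_piFinset.2 fun i => ?_, R.vel z.1, fun i => rfl, hz2⟩)
    have h1 : dist (R.vel z.1 i) (x i) ≤ p := (dist_le_pi_dist _ _ i).trans hz2
    rw [Real.dist_eq, abs_le] at h1
    refine Finset.mem_Icc.2 ⟨Int.floor_le_floor ?_, Int.floor_le_floor ?_⟩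
    · exact div_le_div_of_nonneg_right (by linarith) hD.le
    · exact div_le_div_of_nonneg_right (by linarith) hD.le
  have hU := ks_dom_union hd (fun _ : Unit => F) s0 ()
  simp only at hU
  have hsum : ∑ b ∈ F, R.pi (A s0) b ≤ ENNReal.ofReal (K * (3 * p) ^ R.S) := by
    unfold KsRef.pi
    rw [← measure_biUnion_finset (fun b _ b' _ hbb => ksl17_cube_disj R.χ hbb) (fun b _ => ksl17_cube_meas R.χ b)]
    refine (measure_mono ?_).trans (h.pal_ball (A s0) x (3 * p) (by linarith [h.χ_pos]))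
    intro u' hu'
    obtain ⟨b, hb, hub⟩ := Set.mem_iUnion₂.1 hu'
    rw [hF] at hb
    obtain ⟨u, hu, hux⟩ := (Finset.mem_filter.1 hb).2
    have h1 := ksl17_cube_dist R.χ b hu hub
    have h2 := dist_triangle u' u x
    exact Metric.mem_closedBall.2 (by linarith)
  calc μ (s ⁻¹' {s0} ∩ {z | dist (R.vel z.1) x ≤ p}) ≤ μ (s ⁻¹' {s0} ∩ ⋃ b ∈ F, R.vT b) := measure_mono hsub
    _ ≤ K0 * (∑ b ∈ F, R.pi (A s0) b) * Ref s0 := hU
    _ ≤ K0 * ENNReal.ofReal (K * (3 * p) ^ R.S) * Ref s0 := mul_le_mul' (mul_le_mul' le_rfl hsum) le_rfl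

theorem ksl18_arg_zero {j : ℕ} (t : ℝ) (y : Fin j → ℝ) (w : ℝ) : ksArg t y w 0 = t := rfl

theorem ksl18_arg_mid {j : ℕ} (t : ℝ) (y : Fin j → ℝ) (w : ℝ) (i : Fin j) : ksArg t y w i.castSucc.succ = y i := by
  unfold ksArg
  rw [Fin.cons_succ, Fin.snoc_castSucc]

theorem ksl18_arg_last {j : ℕ} (t : ℝ) (y : Fin j → ℝ) (w : ℝ) : ksArg t y w (Fin.last j).succ = w := by
  unfold ksArg
  rw [Fin.cons_succ, Fin.snoc_last]

theorem ksl18_deg_add {σ : Type*} {p q : MvPolynomial σ ℝ} {d : ℕ} (hp : p.totalDegree ≤ d) (hq : q.totalDegree ≤ d) :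
    (p + q).totalDegree ≤ d :=
  (MvPolynomial.totalDegree_add p q).trans (max_le hp hq)

theorem ksl18_deg_mul {σ : Type*} {p q : MvPolynomial σ ℝ} (a b : ℕ) {d : ℕ} (hp : p.totalDegree ≤ a) (hq : q.totalDegree ≤ b) (hd : a + b ≤ d) :
    (p * q).totalDegree ≤ d :=
  ((MvPolynomial.totalDegree_mul p q).trans (add_le_add hp hq)).trans hd

theorem ksl18_deg_sum {σ ι : Type*} (s : Finset ι) (f : ι → MvPolynomial σ ℝ) {d : ℕ} (h : ∀ i ∈ s, (f i).totalDegree ≤ d) :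
    (∑ i ∈ s, f i).totalDegree ≤ d :=
  (MvPolynomial.totalDegree_finsetSum s f).trans (Finset.sup_le h)

theorem ksl18_deg_C {σ : Type*} (a : ℝ) : (MvPolynomial.C a : MvPolynomial σ ℝ).totalDegree ≤ 0 := (MvPolynomial.totalDegree_C a).le

theorem ksl18_deg_X {σ : Type*} (i : σ) : (MvPolynomial.X i : MvPolynomial σ ℝ).totalDegree ≤ 1 := (MvPolynomial.totalDegree_X i).le

/-- the linear form `c · y` as a polynomial -/
def ksl18Lin {j : ℕ} (c : Fin j → ℝ) : MvPolynomial (Fin (j + 2)) ℝ := ∑ i, MvPolynomial.C (c i) * MvPolynomial.X i.castSucc.succ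

theorem ksl18_lin_deg {j : ℕ} (c : Fin j → ℝ) : (ksl18Lin c).totalDegree ≤ 1 :=
  ksl18_deg_sum _ _ fun _ _ => ksl18_deg_mul 0 1 (ksl18_deg_C _) (ksl18_deg_X _) le_rfl

theorem ksl18_lin_eval {j : ℕ} (c : Fin j → ℝ) (t : ℝ) (y : Fin j → ℝ) (w : ℝ) : MvPolynomial.eval (ksArg t y w) (ksl18Lin c) = c ⬝ᵥ y := by
  unfold ksl18Lin
  rw [map_sum]
  simp only [map_mul, MvPolynomial.eval_C, MvPolynomial.eval_X, ksl18_arg_mid]
  rfl

/-- **L-252-KSL-18** tests as polynomials -/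
theorem ks_quad_poly {T : KbTest v} (hT : KbIsQuad T) :
    ∃ P : MvPolynomial (Fin (v.j + 2)) ℝ, P.totalDegree ≤ 2 ∧ ∀ t y w, T t y w = MvPolynomial.eval (ksArg t y w) P := by
  obtain ⟨Q, hQ⟩ := hT
  have dC := @ksl18_deg_C (Fin (v.j + 2))
  have dX := @ksl18_deg_X (Fin (v.j + 2))
  have dL := @ksl18_lin_deg v.j
  refine ⟨MvPolynomial.C Q.c0 + MvPolynomial.C Q.ct * MvPolynomial.X 0 + ksl18Lin Q.cy + MvPolynomial.C Q.cw * MvPolynomial.X (Fin.last v.j).succ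
    + MvPolynomial.C Q.ctt * (MvPolynomial.X 0 * MvPolynomial.X 0) + MvPolynomial.X 0 * ksl18Lin Q.cty
    + MvPolynomial.C Q.ctw * (MvPolynomial.X 0 * MvPolynomial.X (Fin.last v.j).succ)
    + ∑ i, MvPolynomial.X i.castSucc.succ * ksl18Lin (Q.cyy i)
    + MvPolynomial.X (Fin.last v.j).succ * ksl18Lin Q.cyw
    + MvPolynomial.C Q.cww * (MvPolynomial.X (Fin.last v.j).succ * MvPolynomial.X (Fin.last v.j).succ), ?_, fun t y w => ?_⟩
  · refine ksl18_deg_add (ksl18_deg_add (ksl18_deg_add (ksl18_deg_add (ksl18_deg_add (ksl18_deg_add (ksl18_deg_add (ksl18_deg_add (ksl18_deg_add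
      ?_ ?_) ?_) ?_) ?_) ?_) ?_) ?_) ?_) ?_
    · exact (dC _).trans (by norm_num)
    · exact ksl18_deg_mul 0 1 (dC _) (dX _) (by norm_num)
    · exact (dL _).trans (by norm_num)
    · exact ksl18_deg_mul 0 1 (dC _) (dX _) (by norm_num)
    · exact ksl18_deg_mul 0 2 (dC _) (ksl18_deg_mul 1 1 (dX _) (dX _) le_rfl) le_rfl
    · exact ksl18_deg_mul 1 1 (dX _) (dL _) le_rfl
    · exact ksl18_deg_mul 0 2 (dC _) (ksl18_deg_mul 1 1 (dX _) (dX _) le_rfl) le_rfl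
    · exact ksl18_deg_sum _ _ fun i _ => ksl18_deg_mul 1 1 (dX _) (dL _) le_rfl
    · exact ksl18_deg_mul 1 1 (dX _) (dL _) le_rfl
    · exact ksl18_deg_mul 0 2 (dC _) (ksl18_deg_mul 1 1 (dX _) (dX _) le_rfl) le_rfl
  · rw [hQ]
    simp only [map_add, map_mul, map_sum, MvPolynomial.eval_C, MvPolynomial.eval_X, ksl18_lin_eval, ksl18_arg_zero, ksl18_arg_mid,
      ksl18_arg_last]
    have e : y ⬝ᵥ Q.cyy.mulVec y = ∑ i, y i * (Q.cyy i ⬝ᵥ y) := rfl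
    unfold KbQuad.ev
    rw [e]
    ring

/-- the product of two affine functions is a quadratic test -/
theorem ksl18_quad_mul (c0 ct : ℝ) (cy : KbB v) (cw d0 dt : ℝ) (dy : KbB v) (dw : ℝ) :
    KbIsQuad (v := v) fun t y w => (c0 + ct * t + cy ⬝ᵥ y + cw * w) * (d0 + dt * t + dy ⬝ᵥ y + dw * w) := by
  refine ⟨⟨c0 * d0, c0 * dt + ct * d0, c0 • dy + d0 • cy, c0 * dw + cw * d0, ct * dt, ct • dy + dt • cy, ct * dw + cw * dt,
    Matrix.vecMulVec cy dy, cw • dy + dw • cy, cw * dw⟩, fun t y w => ?_⟩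
  unfold KbQuad.ev
  simp only [add_dotProduct, smul_dotProduct, smul_eq_mul, Matrix.vecMulVec_mulVec, dotProduct_smul, MulOpposite.smul_eq_mul_unop,
    MulOpposite.unop_op, op_smul_eq_smul]
  rw [dotProduct_comm y cy]
  ring

theorem ksl18_quad_add {T T' : KbTest v} (h : KbIsQuad T) (h' : KbIsQuad T') : KbIsQuad fun t y w => T t y w + T' t y w := by
  obtain ⟨Q, hQ⟩ := h
  obtain ⟨Q', hQ'⟩ := h'
  refine ⟨⟨Q.c0 + Q'.c0, Q.ct + Q'.ct, Q.cy + Q'.cy, Q.cw + Q'.cw, Q.ctt + Q'.ctt, Q.cty + Q'.cty, Q.ctw + Q'.ctw, Q.cyy + Q'.cyy,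
    Q.cyw + Q'.cyw, Q.cww + Q'.cww⟩, fun t y w => ?_⟩
  show T t y w + T' t y w = _
  rw [hQ, hQ']
  unfold KbQuad.ev
  simp only [add_dotProduct, Matrix.add_mulVec, dotProduct_add]
  ring

theorem ksl18_quad_congr {T T' : KbTest v} (h : KbIsQuad T) (e : ∀ t y w, T' t y w = T t y w) : KbIsQuad T' := by
  obtain ⟨Q, hQ⟩ := h
  exact ⟨Q, fun t y w => by rw [e, hQ]⟩

theorem ksl18_quad_sum {ι : Type*} (s : Finset ι) (F : ι → KbTest v) (h : ∀ i ∈ s, KbIsQuad (F i)) :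
    KbIsQuad fun t y w => ∑ i ∈ s, F i t y w := by
  classical
  induction s using Finset.induction_on with
  | empty =>
    refine ksl18_quad_congr (ksl18_quad_mul 0 0 0 0 0 0 0 0) fun t y w => ?_
    simp
  | insert a s ha ih =>
    refine ksl18_quad_congr (ksl18_quad_add (h a (Finset.mem_insert_self a s)) (ih fun i hi => h i (Finset.mem_insert_of_mem hi))) fun t y w => ?_
    rw [Finset.sum_insert ha]

/-- every coordinate of the argument is affine -/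
theorem ksl18_arg_aff (a : Fin (v.j + 2)) :
    ∃ (c0 ct : ℝ) (cy : KbB v) (cw : ℝ), ∀ (t : ℝ) (y : KbB v) (w : ℝ), ksArg t y w a = c0 + ct * t + cy ⬝ᵥ y + cw * w := by
  refine Fin.cases ?_ (fun b => ?_) a
  · exact ⟨0, 1, 0, 0, fun t y w => by rw [ksl18_arg_zero]; simp⟩
  · refine Fin.lastCases ?_ (fun i => ?_) b
    · exact ⟨0, 0, 0, 1, fun t y w => by rw [ksl18_arg_last]; simp⟩
    · exact ⟨0, 0, Pi.single i 1, 0, fun t y w => by rw [ksl18_arg_mid]; simp⟩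

theorem ksl18_fs_dec {σ : Type*} (m : σ →₀ ℕ) (h : m ≠ 0) : ∃ a m', m = m' + Finsupp.single a 1 := by
  obtain ⟨a, ha⟩ := Finsupp.ne_iff.1 h
  refine ⟨a, m - Finsupp.single a 1, (tsub_add_cancel_of_le ?_).symm⟩
  rw [Finsupp.single_le_iff]
  exact Nat.one_le_iff_ne_zero.2 ha

theorem ksl18_quad_monomial (m : Fin (v.j + 2) →₀ ℕ) (c : ℝ) (hm : m.degree ≤ 2) :
    KbIsQuad (v := v) fun t y w => MvPolynomial.eval (ksArg t y w) (MvPolynomial.monomial m c) := by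
  by_cases h0 : m = 0
  · subst h0
    refine ksl18_quad_congr (ksl18_quad_mul c 0 0 0 1 0 0 0) fun t y w => ?_
    simp
  obtain ⟨a, m1, rfl⟩ := ksl18_fs_dec m h0
  rw [map_add, Finsupp.degree_single] at hm
  obtain ⟨a0, at', ay, aw, ha⟩ := ksl18_arg_aff (v := v) a
  by_cases h1 : m1 = 0
  · subst h1
    refine ksl18_quad_congr (ksl18_quad_mul c 0 0 0 a0 at' ay aw) fun t y w => ?_
    rw [MvPolynomial.monomial_add_single, map_mul, map_pow, MvPolynomial.eval_X, ha]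
    simp
  obtain ⟨b, m2, rfl⟩ := ksl18_fs_dec m1 h1
  rw [map_add, Finsupp.degree_single] at hm
  have h2 : m2 = 0 := (Finsupp.degree_eq_zero_iff m2).1 (by omega)
  subst h2
  obtain ⟨b0, bt, by', bw, hb⟩ := ksl18_arg_aff (v := v) b
  refine ksl18_quad_congr (ksl18_quad_mul (c * b0) (c * bt) (c • by') (c * bw) a0 at' ay aw) fun t y w => ?_
  rw [MvPolynomial.monomial_add_single, MvPolynomial.monomial_add_single, map_mul, map_mul, map_pow, map_pow, MvPolynomial.eval_X,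
    MvPolynomial.eval_X, ha, hb]
  simp only [MvPolynomial.monomial_zero', MvPolynomial.eval_C, pow_one, smul_dotProduct, smul_eq_mul]
  ring

theorem ks_poly_quad (P : MvPolynomial (Fin (v.j + 2)) ℝ) (hP : P.totalDegree ≤ 2) : KbIsQuad (v := v) fun t y w => MvPolynomial.eval (ksArg t y w) P := by
  have e : ∀ (t : ℝ) (y : KbB v) (w : ℝ), MvPolynomial.eval (ksArg t y w) P
      = ∑ m ∈ P.support, MvPolynomial.eval (ksArg t y w) (MvPolynomial.monomial m (MvPolynomial.coeff m P)) := by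
    intro t y w
    conv_lhs => rw [P.as_sum]
    rw [map_sum]
  exact ksl18_quad_congr (ksl18_quad_sum P.support (fun m t y w => MvPolynomial.eval (ksArg t y w) (MvPolynomial.monomial m (MvPolynomial.coeff m P)))
    fun m hm => ksl18_quad_monomial m _ ((MvPolynomial.le_totalDegree hm).trans hP)) e

end

end Claimed.Agent.R252
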