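import Claimed.Agent.R252.S4.Tan
import Claimed.Agent.R252.State.KsState

/-!
# ROW 252 (S0492), unit STATE (post BP-252-T3-PREP, helper31): THE COMMON ONE-SCALE RECORD of Sections 6, 7, 8 (and of the tangent part of 9).      v4 (Base vocabulary; PREPARED LAYER over `S4/Tan.lean`), for signature.

= what `prop:tangent-palette` (04 l.485-530) + `a03:finite-state-conditioning` deliver at ONE scale `N`, with ONE explicit slack `K ≥ 1`, and what every local argument consumes.
LAYERS:  `KpTan.Ok` (S4/Tan, helper269) = the PRIMITIVE tangent data.   `KsRef.Ok` (here) = the same data AFTER the graph / ambiguity / floor preparations of 04 l.655-850.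
`State/KsTan.lean`: `X.prep p Z : KsRef v` (definitional bridge), hub `ks_prep` (`X.Ok p τ' → ∃ Z, (X.prep p Z).Ok (N^τ)`, loss `≤ ε`), candidates go back to `X.Cand`, glue `ks_exit`.
## Design
* Vocabulary of `Base/Pb`, `Base/Sys`: `KbVer`, `KbTj v` (coefficients), `kbY kbV kbW kbX`, tests `KbTest v` + `KbAdm`, `kbDw kbDww`, charts `KbChart v`, dyadic blocks `kbI n i`, nested dyadic bins `kbBin`.
* `KsRef v` : the REFERENCE objects (data only).  They are fixed once and for all and are never touched by a restriction: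
    - `L` ANY measurable space of (indexed) trajectories, `co : L → KbTj v`; THE PARENT IS A LABEL `par : L → Par` (one parent = `Par := Unit`).   Instance over `P : KbPb v` : `L := P.W × P.Lam`, `Par := P.W`, `ν := ∑ ω_γ δ_γ × ν_γ`.
    - prior `ν` (= mixture of the parent priors, weights `pA`), `Sp` = full set on which the trajectory bounds hold pointwise;
    - THE PREPARED SELECTION `Ev0` (after ALL initial masks: "all initial likelihood and graph-ambiguity masks precede unrestricted sparse selections", 04 l.985).  All laws are `R.law E = (ν × dt|[0,1])|_E`, unnormalised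
      (04 l.1093-1097: `λ_A⁰` and the restricted prior differ by the factor `s_A⁻¹ ≤ K`).  `lam0 = law Ev0` is also the stored WITNESS.
    - palette, end histories + reference weights, true labels `Q_s` (depth, parent, dyadic block, FULL trajectory assignment, chart = centre + frame + fitted test), graph entries, lists of REQUIRED depths / widths / meshes.
* `KsRef.Ok R K` : ALL properties: two-sided bounds of the reference objects, all ceilings and witness floors of `lam0`.  Geometry is POINTWISE (`∀ l ∈ Sp`, `∀ p ∈ Ev0`), no a.e.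
* `KsCur R E K`  : the CURRENT selection: measurable, `E ⊆ Ev0`, mass `≥ 1 / K`.  Nothing else: ceilings are inherited, floors are not (07 l.38-44); every new floor / conditional ceiling is a call of `KsState.lean`.
* A section-specific record is a second structure over `(R : KsRef v)` with its own geometry (isotropic axes, tilted boxes, Heisenberg boxes, projected labels ..) and its own `Ok`, split in the same way.
* A local theorem reads:  `∀ exponents ∃ (finite requirement lists G₀) (C) , ∀ K R E, G₀ ⊆ lists of R → R.Ok K → KsCur R E K → (smallness: K ^ C ≤ R.N ^ τ) → ∃ Q .., candidate with slack C * K ^ C`.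
* `KsTimeCand`, `KsStripCand` = `a03:candidates` (04 l.1058-1097): the exits of Sections 6-8, the entry of `prop:candidate-upgrade`.
-/

set_option autoImplicit false

namespace Claimed.Agent.R252

open MeasureTheory
open scoped ENNReal BigOperators

noncomputable section

variable {v : KbVer}

/-! ## 1. Small additions to the vocabulary -/

/-- the discriminant `P_w² - 2 P_ww P` of a test (independent of `w` for quadratics) -/
def ksDisc (T : KbTest v) (t : ℝ) (y : KbB v) : ℝ := kbDw T t y 0 ^ 2 - 2 * kbDww T t y 0 * T t y 0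

/-- the argument `(t, y, w)` of a test, for the users of `MvPolynomial` -/
def ksArg {j : ℕ} (t : ℝ) (y : Fin j → ℝ) (w : ℝ) : Fin (j + 2) → ℝ := Fin.cons t (Fin.snoc y w)

/-- major and minor coordinates in version 2 -/
def ksZ (y : KbB KbVer.two) : ℝ := y (0 : Fin 2)
def ksY (y : KbB KbVer.two) : ℝ := y (1 : Fin 2)

/-- the three kinds of graph entries of a fitted test: the two simple roots, the affine quadratic centre (large curvature) -/
inductive KsKind | plus | minus | centre
  deriving DecidableEq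

/-- the sign of a root entry -/
def KsKind.sgn : KsKind → ℝ
  | .plus => 1
  | .minus => -1
  | .centre => 0

/-! ## 2. The reference objects -/

/-- **the reference objects of a prepared tangent problem at one scale** (data only) -/
structure KsRef (v : KbVer) where
  /-- (indexed) trajectories of all parents -/
  L : Type
  mL : MeasurableSpace L
  /-- the tangent scale `N = N₀^{ε_n}` -/
  N : ℝ
  /-- `d = d_*`, time rate `k`, narrowness `ℓ` (`0` in version 1 and in the isotropic case), angular exponent `S` -/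
  prm : KpPrm
  /-- coefficients in the normalised coordinates of the parent, hidden unit `B = 1` -/
  co : L → KbTj v
  /-- full set on which the trajectory bounds hold -/
  Sp : Set L
  /-- the prior: the mixture `∑_A p_A ν_A` of the parent priors -/
  ν : Measure L
  /-- **the prepared selection**, AFTER all initial masks (caps, likelihood truncation, graph ambiguity, light labels and entries) -/
  Ev0 : Set (L × ℝ)
  /-- finite label types: parents, end histories, true labels, graph entries -/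
  Par : Type
  Hist : Type
  Lab : Type
  Ent : Type
  fPar : Fintype Par
  fHist : Fintype Hist
  fLab : Fintype Lab
  fEnt : Fintype Ent
  par : L → Par
  /-- the native test `P_*` of a parent (`w` itself in version 1) -/
  nat : Par → KbTest v
  /-- the (deep) end history of an incidence -/
  hist : L × ℝ → Hist
  /-- the mesh of the finest prepared bins (dyadic cubes `kpCube χ b`) of the palette velocity `R.vel` -/
  χ : ℝ
  /-- the fixed conditional parent palette `π_A`, a measure on velocities -/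
  pal : Par → Measure (KbB v)
  /-- the reference weights `p_A λ_{A,pre} (E)` -/
  ref : Par × Hist → ℝ≥0∞
  /-- REQUIRED tangent depths `s`, width exponents `r` (`p = N^{-r}`), mesh exponents `M` (`σ = N^{-M}`), order of the derivative bounds -/
  depths : Finset ℝ
  widths : Finset ℝ
  meshes : Finset ℝ
  ord : ℕ
  /-- the true labels: depth, parent, FULL trajectory assignment, dyadic block `kbI lev iv`, chart (moving centre, frame `D`, inverse `Di`, fitted test `T`) -/
  dep : Lab → ℝ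
  lpar : Lab → Par
  asg : Lab → Set L
  lev : Lab → ℕ
  iv : Lab → ℕ
  ch : Lab → KbChart v
  /-- the graph entries: label, centre and radius of the core in UNIT coordinates of the label, kind, graph `w = G (t, y)` in parent coordinates -/
  eLab : Ent → Lab
  eCtr : Ent → ℝ × KbB v
  eRad : Ent → ℝ
  eKind : Ent → KsKind
  eG : Ent → ℝ × KbB v → ℝ
  /-- THE entry of an incidence at a required depth (core of the partition + branch with the sign of the incidence derivative); its label `eLab` is THE true label `Q_s` of the incidence -/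
  ent : ℝ → L × ℝ → Ent

attribute [instance] KsRef.mL KsRef.fPar KsRef.fHist KsRef.fLab KsRef.fEnt

namespace KsRef

variable (R : KsRef v)

abbrev d : ℝ := R.prm.d
abbrev k : ℝ := R.prm.k
abbrev ell : ℝ := R.prm.ell
abbrev S : ℝ := R.prm.S
/-- `a_s = N^{-s}` -/
def a (s : ℝ) : ℝ := R.N ^ (-s)
def y (l : R.L) (t : ℝ) : KbB v := kbY (R.co l) t
def V (l : R.L) : KbB v := kbV (R.co l)
def w (l : R.L) (t : ℝ) : ℝ := kbW (R.co l) t
/-- a test along a trajectory -/
def ev (T : KbTest v) (l : R.L) (t : ℝ) : ℝ := kbX T (R.co l) t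
/-- the native signal -/
def X (l : R.L) (t : ℝ) : ℝ := kbX (R.nat (R.par l)) (R.co l) t
/-- the exact base of an incidence -/
def base (p : R.L × ℝ) : ℝ × KbB v := (p.2, kbY (R.co p.1) p.2)
/-- the palette velocity: `v = V` (version 1, `ℓ = 0`), `v = (Z', 0)` (`0 < ℓ`) -/
def vel (l : R.L) : KbB v := kpPv R.prm (kbV (R.co l))
/-- prior times uniform parent time -/
def prior : Measure (R.L × ℝ) := R.ν.prod KbPb.tm
/-- the unnormalised law of a selection -/
def law (E : Set (R.L × ℝ)) : Measure (R.L × ℝ) := R.prior.restrict E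
/-- **the prepared law** -/
def lam0 : Measure (R.L × ℝ) := R.law R.Ev0
/-- the parent weight `p_A` -/
def pA (A : R.Par) : ℝ≥0∞ := R.ν (R.par ⁻¹' {A})
/-- the full assigned trajectory mass `p_A ν_Q` (MIXTURE units) -/
def νQ (Q : R.Lab) : ℝ≥0∞ := R.ν (R.asg Q)
/-- time length, left end point, block -/
def q (Q : R.Lab) : ℝ := kbQ (R.lev Q)
def t0 (Q : R.Lab) : ℝ := (R.iv Q : ℝ) * kbQ (R.lev Q)
def blk (Q : R.Lab) : Set ℝ := kbI (R.lev Q) (R.iv Q)
/-- the spatial determinant -/
def J (Q : R.Lab) : ℝ := (R.ch Q).J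
/-- the fitted test -/
def tst (Q : R.Lab) : KbTest v := (R.ch Q).T
/-- the incidences of a label -/
def inc (Q : R.Lab) : Set (R.L × ℝ) := R.asg Q ×ˢ R.blk Q
/-- unit coordinates of a label -/
def unit (Q : R.Lab) (z : ℝ × KbB v) : ℝ × KbB v := ((z.1 - R.t0 Q) / R.q Q, (R.ch Q).Di.mulVec (z.2 - (R.ch Q).yc z.1))
/-- and back -/
def ofUnit (Q : R.Lab) (u : ℝ × KbB v) : ℝ × KbB v :=
  (R.t0 Q + R.q Q * u.1, (R.ch Q).yc (R.t0 Q + R.q Q * u.1) + (R.ch Q).D.mulVec u.2)
/-- `Q'` is a descendant of `Q` -/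
def Desc (Q' Q : R.Lab) : Prop := R.dep Q ≤ R.dep Q' ∧ R.asg Q' ⊆ R.asg Q ∧ R.blk Q' ⊆ R.blk Q
/-- the state (parent, end history) -/
def st (p : R.L × ℝ) : R.Par × R.Hist := (R.par p.1, R.hist p)
open Classical in
/-- the end histories which occur inside a label -/
def histIn (Q : R.Lab) : Finset (R.Par × R.Hist) := Finset.univ.filter fun x => (R.Ev0 ∩ R.st ⁻¹' {x} ∩ R.inc Q).Nonempty
/-- the finest velocity bin -/
def vbin (l : R.L) : Fin v.j → ℤ := fun i => kbBin R.χ (R.vel l i)
/-- the velocity tests -/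
def vT (b : Fin v.j → ℤ) : Set (R.L × ℝ) := {p | R.vbin p.1 = b}
/-- the palette weight of a bin -/
def pi (A : R.Par) (b : Fin v.j → ℤ) : ℝ≥0∞ := R.pal A (kpCube R.χ b)
/-- the point state: nested dyadic bins of the mesh `σ = N^{-M}` in `(t, y)` and of the width `p = N^{-r}` in `X` -/
def pt (M r : ℝ) (p : R.L × ℝ) : ℤ × (Fin v.j → ℤ) × ℤ :=
  (kbBin (R.a M) p.2, fun i => kbBin (R.a M) (R.y p.1 p.2 i), kbBin (R.a r) (R.X p.1 p.2))
/-- the true label of an incidence at the depth `s`, as a relation -/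
def IsLab (s : ℝ) (p : R.L × ℝ) (Q : R.Lab) : Prop := R.dep Q = s ∧ p ∈ R.inc Q
/-- the core of an entry, in parent base coordinates -/
def core (e : R.Ent) : Set (ℝ × KbB v) := {z | dist (R.unit (R.eLab e) z) (R.eCtr e) ≤ R.eRad e}
/-- the used interior of an entry, in UNIT coordinates: the fixed-factor enlargement of the core -/
def eInt (e : R.Ent) : Set (ℝ × KbB v) := Metric.ball (R.eCtr e) (2 * R.eRad e)
/-- a test on the graph of an entry, in UNIT coordinates: `T (z, G (z))` -/
def onG (e : R.Ent) (T : KbTest v) (u : ℝ × KbB v) : ℝ :=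
  T (R.ofUnit (R.eLab e) u).1 (R.ofUnit (R.eLab e) u).2 (R.eG e (R.ofUnit (R.eLab e) u))
/-- the prediction of the native signal by an entry, in UNIT coordinates: `P_* (z, G (z))` -/
def eF (e : R.Ent) : ℝ × KbB v → ℝ := R.onG e (R.nat (R.lpar (R.eLab e)))
/-- the incidences over the core of an entry -/
def eInc (e : R.Ent) : Set (R.L × ℝ) := R.inc (R.eLab e) ∩ R.base ⁻¹' R.core e
/-- the incidences which carry the entry `e` -/
def eOn (e : R.Ent) : Set (R.L × ℝ) := R.ent (R.dep (R.eLab e)) ⁻¹' {e}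
/-- THE true label of an incidence at a required depth -/
def labAt (s : ℝ) (p : R.L × ℝ) : R.Lab := R.eLab (R.ent s p)

/-- **the prepared tangent data at one scale**, slack `K`: `prop:tangent-palette` items 1-4 + (a03:palette-joint) -/
structure Ok (K : ℝ) : Prop where
  N_ge : 2 ≤ R.N
  K_ge : 1 ≤ K
  prm : R.prm.Ok
  ell_v1 : v = KbVer.one → R.ell = 0
  prob : IsProbabilityMeasure R.ν
  -- measurability
  m_co : Measurable R.co
  m_Sp : MeasurableSet R.Sp
  m_Ev0 : MeasurableSet R.Ev0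
  m_par : KsLab R.par
  m_hist : KsLab R.hist
  m_asg : ∀ Q, MeasurableSet (R.asg Q)
  m_eG : ∀ e, Measurable (R.eG e)
  m_ent : ∀ s, KsLab (R.ent s)
  Sp_full : R.ν R.Spᶜ = 0
  Ev0_sub : R.Ev0 ⊆ R.Sp ×ˢ Set.Icc (0 : ℝ) 1
  -- bounded coefficients (the hidden coordinate need NOT be bounded in tangent units)
  y_bd : ∀ l ∈ R.Sp, ∀ t ∈ Set.Icc (0 : ℝ) 1, ‖R.y l t‖ ≤ K
  V_bd : ∀ l ∈ R.Sp, ‖R.V l‖ ≤ K
  X_bd : ∀ l ∈ R.Sp, ∀ t ∈ Set.Icc (0 : ℝ) 1, |R.X l t| ≤ K
  -- the native test, `B = 1`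
  nat_adm : ∀ A, KbAdm (R.nat A)
  nat_v1 : v = KbVer.one → ∀ A t y w, R.nat A t y w = w
  nat_w : ∀ l ∈ R.Sp, ∀ t ∈ Set.Icc (0 : ℝ) 1, |R.ev (kbDw (R.nat (R.par l))) l t| ≤ K
  nat_ww : ∀ A t y w, |kbDww (R.nat A) t y w| ≤ K
  nat_lo : ∀ p ∈ R.Ev0, 1 ≤ K * |R.ev (kbDw (R.nat (R.par p.1))) p.1 p.2|
  -- item 3: the palette
  χ_pos : 0 < R.χ
  χ_le : R.χ ≤ 1
  pal_le : ∀ A, R.pal A Set.univ ≤ 1
  pal_ball : ∀ A x p, R.χ ≤ p → R.pal A (Metric.closedBall x p) ≤ ENNReal.ofReal (K * p ^ R.S)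
  /-- budget of the reference weights, parent by parent -/
  ref_par : ∀ A, ∑ h, R.ref (A, h) ≤ ENNReal.ofReal K * R.pA A
  /-- the reference weights of the end histories inside a label sum to `≤ K q_s ν_Q` (07 l.868) -/
  ref_Q : ∀ Q, ∑ x ∈ R.histIn Q, R.ref x ≤ ENNReal.ofReal K * (ENNReal.ofReal (R.q Q) * R.νQ Q)
  -- item 1: the true labels
  dep_mem : ∀ Q, R.dep Q ∈ R.depths
  dep_nonneg : ∀ Q, 0 ≤ R.dep Q
  /-- one common dyadic time partition at every depth -/
  lev_dep : ∀ Q Q', R.dep Q = R.dep Q' → R.lev Q = R.lev Q'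
  iv_lt : ∀ Q, R.iv Q < 2 ^ R.lev Q
  asg_Sp : ∀ Q, R.asg Q ⊆ R.Sp
  asg_par : ∀ Q, R.asg Q ⊆ R.par ⁻¹' {R.lpar Q}
  q_lo : ∀ Q, R.a (R.k * R.dep Q) ≤ K * R.q Q
  q_hi : ∀ Q, R.q Q ≤ K * R.a (R.k * R.dep Q)
  inv : ∀ Q, (R.ch Q).D * (R.ch Q).Di = 1
  J_lo : ∀ Q, R.q Q ^ v.j * R.a (R.ell * R.dep Q) ≤ K * R.J Q
  J_hi : ∀ Q, R.J Q ≤ K * (R.q Q ^ v.j * R.a (R.ell * R.dep Q))
  /-- the largest width is comparable to `q` -/
  D_hi : ∀ Q, kbMn (R.ch Q).D ≤ K * R.q Q
  ν_lo : ∀ Q, R.pA (R.lpar Q) * ENNReal.ofReal (R.a (R.dep Q) ^ R.d * R.J Q) ≤ ENNReal.ofReal K * R.νQ Q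
  ν_hi : ∀ Q, R.νQ Q ≤ ENNReal.ofReal K * (R.pA (R.lpar Q) * ENNReal.ofReal (R.a (R.dep Q) ^ R.d * R.J Q))
  /-- disjoint assignments inside one block -/
  disj : ∀ Q Q', R.dep Q = R.dep Q' → R.iv Q = R.iv Q' → Q ≠ Q' → Disjoint (R.asg Q) (R.asg Q')
  nested : ∀ Q', ∀ s ∈ R.depths, s ≤ R.dep Q' → ∃ Q, R.dep Q = s ∧ R.Desc Q' Q
  /-- the whole assigned pieces stay in the moving box -/
  box_mem : ∀ Q, ∀ l ∈ R.asg Q, ∀ t ∈ R.blk Q, ‖(R.unit Q (t, R.y l t)).2‖ ≤ K
  -- the fitted tests: upper bounds on the WHOLE assigned pieces, lower bound at the retained incidences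
  tst_adm : ∀ Q, KbAdm (R.tst Q)
  tst_val : ∀ Q, ∀ l ∈ R.asg Q, ∀ t ∈ R.blk Q, |R.ev (R.tst Q) l t| ≤ K * R.a (R.dep Q)
  tst_w : ∀ Q, ∀ l ∈ R.asg Q, ∀ t ∈ R.blk Q, |R.ev (kbDw (R.tst Q)) l t| ≤ K
  tst_ww : ∀ Q t y w, |kbDww (R.tst Q) t y w| * R.a (R.dep Q) ≤ K
  tst_lo : ∀ Q, ∀ p ∈ R.Ev0 ∩ R.inc Q, 1 ≤ K * |R.ev (kbDw (R.tst Q)) p.1 p.2|
  -- the prepared law
  /-- every retained incidence carries its true labels at the required depths -/
  lab : ∀ s ∈ R.depths, ∀ p ∈ R.Ev0, R.IsLab s p (R.labAt s p)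
  /-- light labels have been removed: WITNESS floor -/
  lab_flo : ∀ Q, R.Ev0 ∩ R.inc Q = ∅ ∨ ENNReal.ofReal (R.q Q) * R.νQ Q ≤ ENNReal.ofReal K * R.lam0 (R.inc Q)
  /-- item 2, pure caps in DENSITY form, about an arbitrary measurable offset: native signal -/
  capX : ∀ r ∈ R.widths, ∀ A (U : Set (ℝ × KbB v)) (f : ℝ × KbB v → ℝ), MeasurableSet U → Measurable f →
    R.lam0 {p | R.par p.1 = A ∧ R.base p ∈ U ∧ |R.X p.1 p.2 - f (R.base p)| ≤ R.a r}
      ≤ ENNReal.ofReal K * ENNReal.ofReal (R.a r ^ R.d) * R.pA A * volume U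
  /-- item 2, pure caps: hidden coordinate -/
  capw : ∀ r ∈ R.widths, ∀ A (U : Set (ℝ × KbB v)) (f : ℝ × KbB v → ℝ), MeasurableSet U → Measurable f →
    R.lam0 {p | R.par p.1 = A ∧ R.base p ∈ U ∧ |R.w p.1 p.2 - f (R.base p)| ≤ R.a r}
      ≤ ENNReal.ofReal K * ENNReal.ofReal (R.a r ^ R.d) * R.pA A * volume U
  /-- (a03:packet-base-cap): density `≤ K q ν_Q` in unit coordinates of the label -/
  capQ : ∀ Q (U : Set (ℝ × KbB v)), MeasurableSet U →
    ENNReal.ofReal (R.J Q) * R.lam0 (R.inc Q ∩ R.base ⁻¹' U) ≤ ENNReal.ofReal K * R.νQ Q * volume U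
  /-- (a03:palette-joint): the numerator ceiling at the end histories -/
  dom : KsDom R.lam0 R.st R.vT (fun x b => R.pi x.1 b) R.ref (ENNReal.ofReal K)
  /-- item 4: deep histories leave `≤ K` options for the required point states -/
  opt_pt : ∀ M ∈ R.meshes, ∀ r ∈ R.widths, ∃ n : ℕ, (n : ℝ) ≤ K ∧ KsOpt R.lam0 R.st (R.pt M r) n
  /-- item 4: and for the entries (hence for the true labels) -/
  opt_ent : ∀ s ∈ R.depths, ∃ n : ℕ, (n : ℝ) ≤ K ∧ KsOpt R.lam0 R.st (R.ent s) n
  /-- joint caps at the required meshes: pure cap times `K π (b)` -/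
  joint : ∀ M ∈ R.meshes, ∀ r ∈ R.widths, ∀ A c b,
    R.lam0 {p | R.par p.1 = A ∧ R.pt M r p = c ∧ R.vbin p.1 = b}
      ≤ ENNReal.ofReal K * ENNReal.ofReal (R.a r ^ R.d * R.a M ^ (v.j + 1)) * R.pA A * R.pi A b
  -- item 4: stable graphs
  /-- `≤ K` core/branch entries per label, cores of inverse-subpower radius -/
  ent_card : ∀ Q, (Set.ncard {e | R.eLab e = Q} : ℝ) ≤ K
  ent_rad : ∀ e, 1 ≤ K * R.eRad e
  ent_rad_le : ∀ e, R.eRad e ≤ 1
  /-- every retained incidence lies in the core of its entry, whose graph approximates `w` to `K a_s` -/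
  ent_cov : ∀ s ∈ R.depths, ∀ p ∈ R.Ev0, p ∈ R.eInc (R.ent s p) ∧ |R.w p.1 p.2 - R.eG (R.ent s p) (R.base p)| ≤ K * R.a s
  /-- light entries have been removed: WITNESS floor -/
  ent_flo : ∀ e, R.Ev0 ∩ R.eOn e = ∅ ∨ ENNReal.ofReal (R.q (R.eLab e)) * R.νQ (R.eLab e) ≤ ENNReal.ofReal K * R.lam0 (R.eOn e)
  /-- a root entry is a simple root of the fitted test on the whole used interior, with the sign of its kind -/
  ent_root : ∀ e, R.eKind e ≠ KsKind.centre → ∀ u ∈ R.eInt e,
    R.onG e (R.tst (R.eLab e)) u = 0 ∧ 1 ≤ K * ((R.eKind e).sgn * R.onG e (kbDw (R.tst (R.eLab e))) u) ∧ |R.onG e (kbDw (R.tst (R.eLab e))) u| ≤ K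
  /-- a centre entry is the affine quadratic centre -/
  ent_ctr : ∀ e, R.eKind e = KsKind.centre → ∀ u ∈ R.eInt e, R.onG e (kbDw (R.tst (R.eLab e))) u = 0
  /-- after composition with the native test the fixed-order derivatives are bounded on the used interiors (unit coordinates) -/
  ent_smooth : ∀ e, ContDiffOn ℝ R.ord (R.eF e) (R.eInt e)
  ent_der : ∀ e, ∀ u ∈ R.eInt e, ∀ i ≤ R.ord, ‖iteratedFDeriv ℝ i (R.eF e) u‖ ≤ K

end KsRef

/-! ## 3. The current selection -/

/-- **the current selection**: ANY dense measurable part of the prepared selection.  All ceilings of `R.Ok` pass to `R.law E` (`KsCur.law_le`); no floor does. -/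
structure KsCur (R : KsRef v) (E : Set (R.L × ℝ)) (K : ℝ) : Prop where
  meas : MeasurableSet E
  sub : E ⊆ R.Ev0
  /-- dense: mass `≥ 1 / K` -/
  mass : 1 ≤ ENNReal.ofReal K * R.prior E

namespace KsCur

variable {R : KsRef v} {E E' : Set (R.L × ℝ)} {K K' : ℝ}

theorem law_le (h : KsCur R E K) : R.law E ≤ R.lam0 := Measure.restrict_mono h.sub le_rfl

theorem apply_le (h : KsCur R E K) (A : Set (R.L × ℝ)) : R.law E A ≤ R.lam0 A := h.law_le A

theorem null (h : KsCur R E K) {A : Set (R.L × ℝ)} (hA : R.lam0 A = 0) : R.law E A = 0 := le_antisymm ((h.law_le A).trans hA.le) bot_le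

theorem law_univ (R : KsRef v) (E : Set (R.L × ℝ)) : R.law E Set.univ = R.prior E := by
  simp [KsRef.law]

/-- stability under dense restriction -/
theorem restrict (h : KsCur R E K) (hm : MeasurableSet E') (hle : E' ⊆ E) (hK : 1 ≤ ENNReal.ofReal K' * R.prior E') : KsCur R E' K' := ⟨hm, hle.trans h.sub, hK⟩

/-- a restriction of a law to a measurable set is the law of the intersection (`ksPrune`, `ksApp` stay inside the class) -/
theorem law_restrict (R : KsRef v) (E : Set (R.L × ℝ)) {F : Set (R.L × ℝ)} (hF : MeasurableSet F) : (R.law E).restrict F = R.law (E ∩ F) := by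
  unfold KsRef.law
  rw [Measure.restrict_restrict hF, Set.inter_comm]

/-- the numerator ceiling at the end histories, for the current law -/
theorem dom (h : KsCur R E K) (hR : R.Ok K') : KsDom (R.law E) R.st R.vT (fun x b => R.pi x.1 b) R.ref (ENNReal.ofReal K') :=
  ks_dom_mono hR.dom h.law_le (fun _ _ => le_rfl) (fun _ => le_rfl) le_rfl

end KsCur

/-! ## 4. Candidates = the exits of Sections 6, 7, 8 (`a03:candidates`) -/

/-- **time-improvement candidate of gain `c`** in the label `Q`, inside the residual selection `E`, slack `K`.  `Cn` = the counted incidences. -/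
structure KsTimeCand (R : KsRef v) (E : Set (R.L × ℝ)) (K c : ℝ) (Q : R.Lab) (P : KbTest v) (Cn : Set (R.L × ℝ)) : Prop where
  adm : KbAdm P
  /-- nondegenerate label (automatic when `p_A ≠ 0`) -/
  pos : R.νQ Q ≠ 0
  meas : MeasurableSet Cn
  sub : Cn ⊆ E ∩ R.inc Q
  /-- value and hidden-derivative UPPER bounds throughout the `Q`-block, on every counted trajectory piece; `a' = a N^{-c}` -/
  val : ∀ p ∈ Cn, ∀ t ∈ R.blk Q, |R.ev P p.1 t| ≤ K * R.a (R.dep Q + c)
  dw : ∀ p ∈ Cn, ∀ t ∈ R.blk Q, |R.ev (kbDw P) p.1 t| ≤ K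
  dww : ∀ t y w, |kbDww P t y w| * R.a (R.dep Q + c) ≤ K
  /-- the LOWER bound only at the counted incidences -/
  dw_lo : ∀ p ∈ Cn, 1 ≤ K * |R.ev (kbDw P) p.1 p.2|
  /-- residual mass divided by `q_s` is at least `N^{-dc} ν_Q / K` -/
  mass : ENNReal.ofReal (R.q Q * R.a (R.d * c)) * R.νQ Q ≤ ENNReal.ofReal K * R.prior Cn

/-- **strip candidate of gain `c`** (`0 < ℓ < ∞`, version 2, `y = (Z, Y)`, `v = Z'`): a fixed row `(ρ₀, ρ₁)` -/
structure KsStripCand (R : KsRef KbVer.two) (E : Set (R.L × ℝ)) (K c : ℝ) (Q : R.Lab) (ρ : Fin 2 → ℝ) (Cn : Set (R.L × ℝ)) : Prop where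
  pos : R.νQ Q ≠ 0
  meas : MeasurableSet Cn
  sub : Cn ⊆ E ∩ R.inc Q
  row : ∀ p ∈ Cn, |ksY (R.V p.1) - (ρ 0 + ρ 1 * ksZ (R.V p.1))| ≤ K * R.a (R.ell * R.dep Q + c)
  mass : ENNReal.ofReal (R.q Q) * R.νQ Q ≤ ENNReal.ofReal K * R.prior Cn

end

end Claimed.Agent.R252
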