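import Claimed.Agent.R252.State.KsSeq

/-!
# ROW 252 (S0492), unit STATE (helper31), file 6 (v2): ONE-SCALE TARGETS ⟹ SEQUENCE-LEVEL EXITS.

The exits of Sections 6, 7 + 8 are the SEQUENCE-level statements `KsSeqBr v p`, `KsSeqTilt p` of `State/KsSeq.lean` (helper128).   A section which proves the (stronger, uniform) ONE-SCALE target
`KsLocalBr v p` / `KsLocalTilt p` of `State/KsTan.lean` gets the sequence-level exit for free:
* `ks_seq_of_local_br   : KsLocalBr v p → KsSeqBr v p`,      `ks_seq_of_local_tilt : KsLocalTilt p → KsSeqTilt p`     (`EE` = union of the requirement lists for `η, τ₁ ∈ {1/(m+1)}`),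
* `ks_exit_brd`, `ks_exit_tilt` : one-scale target → (`KpSeqOk R X p → [KpBreadth X →] KpCandHyp R X p`)   = the above + the glue of `KsSeq`.
Monotonicity kit: `ks_time_mono`, `ks_strip_mono`, `ks_sub_mono`, `ks_cur_mono`, `ks_rich_ev`.
-/

set_option autoImplicit false

namespace Claimed.Agent.R252

open MeasureTheory Filter Topology
open Claimed.Agent.R255 (uf)
open scoped ENNReal BigOperators

noncomputable section

variable {v : KbVer}

/-- candidates are monotone in the slack -/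
theorem ks_time_mono {R : KsRef v} {E : Set (R.L × ℝ)} {K K' c : ℝ} {Q : R.Lab} {P : KbTest v} {Cn : Set (R.L × ℝ)} (hN : 0 ≤ R.N) (hK : K ≤ K')
    (h : KsTimeCand R E K c Q P Cn) : KsTimeCand R E K' c Q P Cn :=
  { adm := h.adm
    pos := h.pos
    meas := h.meas
    sub := h.sub
    val := fun p hp t ht => (h.val p hp t ht).trans (mul_le_mul_of_nonneg_right hK (Real.rpow_nonneg hN _))
    dw := fun p hp t ht => (h.dw p hp t ht).trans hK
    dww := fun t y w => (h.dww t y w).trans hK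
    dw_lo := fun p hp => (h.dw_lo p hp).trans (mul_le_mul_of_nonneg_right hK (abs_nonneg _))
    mass := h.mass.trans (mul_le_mul' (ENNReal.ofReal_le_ofReal hK) le_rfl) }

theorem ks_strip_mono {R : KsRef KbVer.two} {E : Set (R.L × ℝ)} {K K' c : ℝ} {Q : R.Lab} {ρ : Fin 2 → ℝ} {Cn : Set (R.L × ℝ)} (hN : 0 ≤ R.N) (hK : K ≤ K')
    (h : KsStripCand R E K c Q ρ Cn) : KsStripCand R E K' c Q ρ Cn :=
  { pos := h.pos
    meas := h.meas
    sub := h.sub
    row := fun p hp => (h.row p hp).trans (mul_le_mul_of_nonneg_right hK (Real.rpow_nonneg hN _))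
    mass := h.mass.trans (mul_le_mul' (ENNReal.ofReal_le_ofReal hK) le_rfl) }

theorem ks_sub_mono {R : KsRef v} {A : R.Par} {E : Set (R.L × ℝ)} {η η' K K' : ℝ} (hη : η' ≤ η) (hK : K ≤ K') (h : KsSub R A E η K) : KsSub R A E η' K' :=
  { meas := h.meas
    sub := h.sub
    mass := (mul_le_mul' (ENNReal.ofReal_le_ofReal hη) le_rfl).trans h.mass
    floor := h.floor.trans (mul_le_mul' (ENNReal.ofReal_le_ofReal hK) le_rfl) }

theorem ks_cur_mono {R : KsRef v} {E : Set (R.L × ℝ)} {K K' : ℝ} (hK : K ≤ K') (h : KsCur R E K) : KsCur R E K' :=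
  { meas := h.meas
    sub := h.sub
    mass := h.mass.trans (mul_le_mul' (ENNReal.ofReal_le_ofReal hK) le_rfl) }

/-- a finite requirement inside `EE` is eventually met -/
theorem ks_rich_ev {Rs : KbRes} {R : ℕ → KsRef v} {p : KpPrm} {EE : Set ℝ} (h : KsSeqOk Rs R p EE) {G : KsReq} (hG : G.Ok)
    (h1 : ∀ x ∈ G.depths, x ∈ EE) (h2 : ∀ x ∈ G.widths, x ∈ EE) (h3 : ∀ x ∈ G.meshes, x ∈ EE) : ∀ᶠ n in uf, (R n).Rich p G := by
  have e1 : ∀ᶠ n in uf, ∀ x ∈ G.depths, x ∈ (R n).depths :=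
    (Filter.eventually_all_finset G.depths).2 fun x hx => h.depths x (h1 x hx) (hG.depths x hx)
  have e2 : ∀ᶠ n in uf, ∀ x ∈ G.widths, x ∈ (R n).widths :=
    (Filter.eventually_all_finset G.widths).2 fun x hx => h.widths x (h2 x hx) (hG.widths x hx)
  have e3 : ∀ᶠ n in uf, ∀ x ∈ G.meshes, x ∈ (R n).meshes :=
    (Filter.eventually_all_finset G.meshes).2 fun x hx => h.meshes x (h3 x hx) (hG.meshes x hx)
  filter_upwards [e1, e2, e3, h.ord G.ord, h.chi G.U] with n a1 a2 a3 a4 a5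
  exact ⟨h.prm n, a1, a2, a3, a4, by rw [h.N n]; exact a5⟩

/-- the set of all exponents of a requirement -/
def ksReqSet (G : KsReq) : Set ℝ := ↑G.depths ∪ ↑G.widths ∪ ↑G.meshes

theorem ks_reqSet_countable (G : KsReq) : (ksReqSet G).Countable :=
  ((G.depths.countable_toSet.union G.widths.countable_toSet).union G.meshes.countable_toSet)

theorem ks_inv_succ_pos (m : ℕ) : (0 : ℝ) < 1 / ((m : ℝ) + 1) := by positivity

theorem ks_exists_inv_le {x : ℝ} (hx : 0 < x) : ∃ m : ℕ, 1 / ((m : ℝ) + 1) ≤ x := by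
  obtain ⟨m, hm⟩ := exists_nat_one_div_lt hx
  exact ⟨m, hm.le⟩

/-- **one-scale target of Section 6 ⟹ sequence-level exit** -/
theorem ks_seq_of_local_br {p : KpPrm} (hL : KsLocalBr v p) : KsSeqBr v p := by
  obtain ⟨c₀, C₀, D₀, hc₀, hL⟩ := hL
  choose G hG κ u ε τ hκ hu hε hτ N₁ hcore using fun a b : ℕ => hL (1 / ((a : ℝ) + 1)) (1 / ((b : ℝ) + 1)) (ks_inv_succ_pos a) (ks_inv_succ_pos b)
  refine ⟨⋃ a : ℕ, ⋃ b : ℕ, ksReqSet (G a b), Set.countable_iUnion fun a => Set.countable_iUnion fun b => ks_reqSet_countable _, ?_⟩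
  intro Rs R A E η hOk hOne hBrd hη hSub
  refine ⟨c₀, C₀, D₀, hc₀, fun τ₁ hτ₁ => ?_⟩
  obtain ⟨a, ha⟩ := ks_exists_inv_le hη
  obtain ⟨b, hb⟩ := ks_exists_inv_le hτ₁
  have hmem : ∀ x ∈ ksReqSet (G a b), x ∈ ⋃ a : ℕ, ⋃ b : ℕ, ksReqSet (G a b) := fun x hx => Set.mem_iUnion.2 ⟨a, Set.mem_iUnion.2 ⟨b, hx⟩⟩
  have hrich := ks_rich_ev hOk (hG a b) (fun x hx => hmem x (Or.inl (Or.inl hx))) (fun x hx => hmem x (Or.inl (Or.inr hx))) (fun x hx => hmem x (Or.inr hx))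
  filter_upwards [hrich, hOk.ok _ (hτ a b), hOne, hBrd _ _ _ (hκ a b) (hu a b) (hε a b), hSub _ (hτ a b), Rs.lim.eventually_ge_atTop (N₁ a b)]
    with n r1 r2 r3 r4 r5 r6
  have hN : (R n).N = Rs.N n := hOk.N n
  obtain ⟨Q, c, q1, q2, q3, P, Cn, hcand⟩ := hcore a b (R n) (A n) (E n) (by rw [hN]; exact r6) r1 (by rw [hN]; exact r2) r3 r4
    (by rw [hN]; exact ks_sub_mono ha le_rfl r5)
  refine ⟨Q, c, q1, q2, q3, P, Cn, ks_time_mono (by rw [hN]; exact (kb_res_pos Rs n).le) ?_ hcand⟩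
  rw [hN]
  exact Real.rpow_le_rpow_of_exponent_le (kb_res_one_le Rs n) hb

/-- **one-scale target of Sections 7 + 8 ⟹ sequence-level exit** -/
theorem ks_seq_of_local_tilt {p : KpPrm} (hL : KsLocalTilt p) : KsSeqTilt p := by
  obtain ⟨c₀, C₀, D₀, hc₀, hL⟩ := hL
  choose G hG τ hτ N₁ hcore using fun b : ℕ => hL (1 / ((b : ℝ) + 1)) (ks_inv_succ_pos b)
  refine ⟨⋃ b : ℕ, ksReqSet (G b), Set.countable_iUnion fun b => ks_reqSet_countable _, ?_⟩
  intro Rs R A E hOk hTilt hOne hCur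
  refine ⟨c₀, C₀, D₀, hc₀, fun τ₁ hτ₁ => ?_⟩
  obtain ⟨b, hb⟩ := ks_exists_inv_le hτ₁
  have hmem : ∀ x ∈ ksReqSet (G b), x ∈ ⋃ b : ℕ, ksReqSet (G b) := fun x hx => Set.mem_iUnion.2 ⟨b, hx⟩
  have hrich := ks_rich_ev hOk (hG b) (fun x hx => hmem x (Or.inl (Or.inl hx))) (fun x hx => hmem x (Or.inl (Or.inr hx))) (fun x hx => hmem x (Or.inr hx))
  filter_upwards [hrich, hOk.ok _ (hτ b), hTilt _ (hτ b), hOne, hCur _ (hτ b), Rs.lim.eventually_ge_atTop (N₁ b)] with n r1 r2 r3 r4 r5 r6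
  have hN : (R n).N = Rs.N n := hOk.N n
  have hN0 : 0 ≤ (R n).N := by rw [hN]; exact (kb_res_pos Rs n).le
  have hle : (R n).N ^ (1 / ((b : ℝ) + 1)) ≤ Rs.N n ^ τ₁ := by
    rw [hN]
    exact Real.rpow_le_rpow_of_exponent_le (kb_res_one_le Rs n) hb
  obtain ⟨Q, c, q1, q2, q3, hcand⟩ := hcore b (R n) (A n) (E n) (by rw [hN]; exact r6) r1 (by rw [hN]; exact r2) (by rw [hN]; exact r3) r4
    (by rw [hN]; exact r5)
  refine ⟨Q, c, q1, q2, q3, ?_⟩
  rcases hcand with ⟨P, Cn, h⟩ | ⟨ρ, Cn, h⟩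
  · exact Or.inl ⟨P, Cn, ks_time_mono hN0 hle h⟩
  · exact Or.inr ⟨ρ, Cn, ks_strip_mono hN0 hle h⟩

/-- **GLUE-0b**: the one-scale target of Section 6 gives the candidate hypothesis -/
theorem ks_exit_brd {p : KpPrm} (hp : p.Ok) (hell : p.ell = 0) (hL : KsLocalBr v p) (R : KbRes) (X : ℕ → KpTan v) (hX : KpSeqOk R X p) (hB : KpBreadth X) :
    KpCandHyp R X p :=
  ks_seq_exit_brd hp hell (ks_seq_of_local_br hL) R X hX hB

/-- **GLUE-1**: the one-scale target of Sections 7 + 8 gives the candidate hypothesis -/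
theorem ks_exit_tilt {p : KpPrm} (hp : p.Ok) (hell : 0 < p.ell) (hL : KsLocalTilt p) (R : KbRes) (X : ℕ → KpTan KbVer.two) (hX : KpSeqOk R X p) : KpCandHyp R X p :=
  ks_seq_exit_tilt hp hell (ks_seq_of_local_tilt hL) R X hX

end

end Claimed.Agent.R252
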