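import Claimed.Agent.R252.Prep.Main
import Claimed.Agent.R252.Base.Lang

/-!
# ROW 252 (S0492), unit STATE, file KsSeq (helper128; ruling of helper261 20:20Z, design of helper40 `notes/R252/seq_exit_40.md`): THE SEQUENCE-LEVEL EXITS OF SECS 6, 7 + 8.        Both glue theorems PROVED (open below: only the hubs `ks_prep_tilt`, `ks_prep_brd` of `Prep/Main`).

WHY.  The gains `c₀`, the depth range `D₀` and the requirement lists of Secs 6-8 depend on exponents of the SEQUENCE (07 l.918-926: `β_s = N^{-B₀}`, `B₀ > ℓ s` without a gap; l.1003: exponent of `λ`); `KpCandHyp` needs no uniformity.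
So the exit of a section is a statement about SEQUENCES of prepared records along `uf`, with RICH lists.   The one-scale cores of the sections are unchanged.
* `KsSeqOk Rs R p EE`   `R n : KsRef v` prepared records, `(R n).N = Rs.N n`, `(R n).prm = p`;   `∀ τ > 0, ∀ᶠ n, (R n).Ok (N^τ)`;
                        RICH LISTS: every `x ∈ EE` is eventually a required depth (`0 < x`), width and mesh exponent (`0 ≤ x`) of `R n`; `(R n).ord → ∞`; `(R n).χ ≤ N^{-U}` eventually for every `U`.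
                        `EE` is a COUNTABLE set CHOSEN BY THE SECTION (e.g. the positive part of the field generated by `ℚ, d, k, ℓ, S`): sequence-dependent exponents enter the choice of depths / widths / meshes only through OPEN conditions.
* `KsSeqTilt p`         EXIT OF SECS 7 + 8 (`0 < ℓ < ∞`): one parent, triangular charts, DENSE residual (`KsCur` with every slack `N^τ`)  ⟹  `∃ c₀ C₀ D₀`, for every `τ₁` eventually a time or strip candidate of slack `N^{τ₁}`.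
* `KsSeqBr v p`         EXIT OF SEC 6 (`ℓ = 0`): one parent, SUBSTANTIAL residual (`KsSub`, fixed `η`), hereditary breadth `Brd κ u ε` eventually for ALL `κ, u, ε > 0`  ⟹  time candidates.
* GLUE                  `ks_seq_exit_tilt`, `ks_seq_exit_brd` : exit of the section → (`KpSeqOk R X p → [KpBreadth X →] KpCandHyp R X p`).   These replace `KsLocal*` (State/KsTan) and `ks_exit*` (State/KsExit).
INSIDE A SECTION: exponents of homogenised quantities = `R255.ulim` / `kb_exp_exists`; a dichotomy "power small / `∼ 1`" = `R255.uf_em` / `kb_exclusion`; a one-scale core (`hyp K ⟹ concl (C K^C)`) through `kb_subp_pow`;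
"for every `τ` eventually" ⟺ "one subpower `K`" = `kb_subp_of_forall`.
-/

set_option autoImplicit false

namespace Claimed.Agent.R252

open MeasureTheory Filter Topology
open Claimed.Agent.R255 (uf)
open scoped ENNReal BigOperators

noncomputable section

variable {v : KbVer}

/-- **prepared records along the diagonal, with rich lists** -/
structure KsSeqOk (Rs : KbRes) (R : ℕ → KsRef v) (p : KpPrm) (EE : Set ℝ) : Prop where
  N : ∀ n, (R n).N = Rs.N n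
  prm : ∀ n, (R n).prm = p
  ok : ∀ τ : ℝ, 0 < τ → ∀ᶠ n in uf, (R n).Ok (Rs.N n ^ τ)
  depths : ∀ x ∈ EE, 0 < x → ∀ᶠ n in uf, x ∈ (R n).depths
  widths : ∀ x ∈ EE, 0 ≤ x → ∀ᶠ n in uf, x ∈ (R n).widths
  meshes : ∀ x ∈ EE, 0 ≤ x → ∀ᶠ n in uf, x ∈ (R n).meshes
  ord : ∀ m : ℕ, ∀ᶠ n in uf, m ≤ (R n).ord
  chi : ∀ U : ℝ, ∀ᶠ n in uf, (R n).χ ≤ Rs.N n ^ (-U)

/-- **the exit of Sections 7 + 8** (`0 < ℓ < ∞`) -/
def KsSeqTilt (p : KpPrm) : Prop :=
  ∃ EE : Set ℝ, EE.Countable ∧ ∀ (Rs : KbRes) (R : ℕ → KsRef KbVer.two) (A : ∀ n, (R n).Par) (E : ∀ n, Set ((R n).L × ℝ)),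
    KsSeqOk Rs R p EE → (∀ τ : ℝ, 0 < τ → ∀ᶠ n in uf, (R n).Tilt (Rs.N n ^ τ)) → (∀ᶠ n in uf, (R n).One (A n)) →
    (∀ τ : ℝ, 0 < τ → ∀ᶠ n in uf, KsCur (R n) (E n) (Rs.N n ^ τ)) →
      ∃ c₀ C₀ D₀ : ℝ, 0 < c₀ ∧ ∀ τ₁ : ℝ, 0 < τ₁ → ∀ᶠ n in uf, ∃ (Q : (R n).Lab) (c : ℝ), (R n).dep Q ≤ D₀ ∧ c₀ ≤ c ∧ c ≤ C₀ ∧
        ((∃ P Cn, KsTimeCand (R n) (E n) (Rs.N n ^ τ₁) c Q P Cn) ∨ ∃ ρ Cn, KsStripCand (R n) (E n) (Rs.N n ^ τ₁) c Q ρ Cn)

/-- **the exit of Section 6** (`ℓ = 0`, both versions) -/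
def KsSeqBr (v : KbVer) (p : KpPrm) : Prop :=
  ∃ EE : Set ℝ, EE.Countable ∧ ∀ (Rs : KbRes) (R : ℕ → KsRef v) (A : ∀ n, (R n).Par) (E : ∀ n, Set ((R n).L × ℝ)) (η : ℝ),
    KsSeqOk Rs R p EE → (∀ᶠ n in uf, (R n).One (A n)) → (∀ κ u ε : ℝ, 0 < κ → 0 < u → 0 < ε → ∀ᶠ n in uf, (R n).Brd κ u ε) → 0 < η →
    (∀ τ : ℝ, 0 < τ → ∀ᶠ n in uf, KsSub (R n) (A n) (E n) η (Rs.N n ^ τ)) →
      ∃ c₀ C₀ D₀ : ℝ, 0 < c₀ ∧ ∀ τ₁ : ℝ, 0 < τ₁ → ∀ᶠ n in uf, ∃ (Q : (R n).Lab) (c : ℝ), (R n).dep Q ≤ D₀ ∧ c₀ ≤ c ∧ c ≤ C₀ ∧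
        ∃ P Cn, KsTimeCand (R n) (E n) (Rs.N n ^ τ₁) c Q P Cn

/-! ## 1. The growing requirement lists -/

open Classical in
/-- the requirement lists of the stage `m`, for an enumeration `e` of the exponents chosen by the section -/
def ksqReq (e : ℕ → ℝ) (m : ℕ) : KsReq where
  depths := insert (1 + ∑ x ∈ ((Finset.range m).image e).filter (fun x => 0 ≤ x), x) (((Finset.range m).image e).filter fun x => 0 < x)
  widths := ((Finset.range m).image e).filter fun x => 0 ≤ x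
  meshes := ((Finset.range m).image e).filter fun x => 0 ≤ x
  ord := m + 1
  U := m

theorem ksq_req_ok (e : ℕ → ℝ) (m : ℕ) : (ksqReq e m).Ok := by
  classical
  have hs : 0 ≤ ∑ x ∈ ((Finset.range m).image e).filter (fun x => 0 ≤ x), x := Finset.sum_nonneg fun _ hx => (Finset.mem_filter.1 hx).2
  refine ⟨⟨_, Finset.mem_insert_self _ _⟩, ?_, fun r hr => (Finset.mem_filter.1 hr).2, fun r hr => (Finset.mem_filter.1 hr).2, Nat.cast_nonneg m, ?_, Nat.le_add_left 1 m⟩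
  · intro s hs'
    rcases Finset.mem_insert.1 hs' with h | h
    · rw [h]; linarith
    · exact (Finset.mem_filter.1 h).2
  · intro r hr
    refine ⟨_, Finset.mem_insert_self _ _, ?_⟩
    have := Finset.single_le_sum (f := fun x : ℝ => x) (fun _ hx => (Finset.mem_filter.1 hx).2) hr
    linarith

theorem ksq_req_pos (e : ℕ → ℝ) {i m : ℕ} (him : i < m) (h : 0 < e i) : e i ∈ (ksqReq e m).depths := by
  classical
  exact Finset.mem_insert_of_mem (Finset.mem_filter.2 ⟨Finset.mem_image_of_mem e (Finset.mem_range.2 him), h⟩)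

theorem ksq_req_nonneg (e : ℕ → ℝ) {i m : ℕ} (him : i < m) (h : 0 ≤ e i) : e i ∈ (ksqReq e m).widths ∧ e i ∈ (ksqReq e m).meshes := by
  classical
  exact ⟨Finset.mem_filter.2 ⟨Finset.mem_image_of_mem e (Finset.mem_range.2 him), h⟩, Finset.mem_filter.2 ⟨Finset.mem_image_of_mem e (Finset.mem_range.2 him), h⟩⟩

/-! ## 2. Monotonicity -/

theorem ksq_cur_mono {R : KsRef v} {E : Set (R.L × ℝ)} {K K' : ℝ} (h : KsCur R E K) (hK : K ≤ K') : KsCur R E K' :=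
  ⟨h.meas, h.sub, h.mass.trans (mul_le_mul' (ENNReal.ofReal_le_ofReal hK) le_rfl)⟩

theorem ksq_sub_mono {R : KsRef v} {A : R.Par} {E : Set (R.L × ℝ)} {η K K' : ℝ} (h : KsSub R A E η K) (hK : K ≤ K') : KsSub R A E η K' :=
  ⟨h.meas, h.sub, h.mass, h.floor.trans (mul_le_mul' (ENNReal.ofReal_le_ofReal hK) le_rfl)⟩

theorem ksq_tilt_mono {R : KsRef KbVer.two} {K K' : ℝ} (h : R.Tilt K) (hK : K ≤ K') : R.Tilt K' :=
  ⟨h.ell_pos, h.tri, fun Q => (h.full Q).trans (mul_le_mul_of_nonneg_right hK (abs_nonneg _)), fun Q => (h.cen Q).trans hK⟩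

theorem ksq_time_sub {R : KsRef v} {E E' : Set (R.L × ℝ)} {K c : ℝ} {Q : R.Lab} {P : KbTest v} {Cn : Set (R.L × ℝ)} (h : KsTimeCand R E K c Q P Cn) (hE : E ⊆ E') :
    KsTimeCand R E' K c Q P Cn :=
  ⟨h.adm, h.pos, h.meas, fun x hx => ⟨hE (h.sub hx).1, (h.sub hx).2⟩, h.val, h.dw, h.dww, h.dw_lo, h.mass⟩

theorem ksq_strip_sub {R : KsRef KbVer.two} {E E' : Set (R.L × ℝ)} {K c : ℝ} {Q : R.Lab} {ρ : Fin 2 → ℝ} {Cn : Set (R.L × ℝ)} (h : KsStripCand R E K c Q ρ Cn) (hE : E ⊆ E') :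
    KsStripCand R E' K c Q ρ Cn :=
  ⟨h.pos, h.meas, fun x hx => ⟨hE (h.sub hx).1, (h.sub hx).2⟩, h.row, h.mass⟩

theorem ksq_cand_range {X : KpTan v} {p : KpPrm} {Rs : X.P.W → Set (X.P.Lam × ℝ)} {D c D₀ c₀ C₀ K : ℝ} (h : X.Cand p Rs D c c K) (hD : D ≤ D₀) (h0 : c₀ ≤ c) (h1 : c ≤ C₀) :
    X.Cand p Rs D₀ c₀ C₀ K := by
  obtain ⟨m, hm, hd, cc, g, hg0, hg1, hc⟩ := h
  exact ⟨m, hm, hd.trans hD, cc, g, h0.trans hg0, hg1.trans h1, hc⟩

/-! ## 3. One stage: record, parent, residual -/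

/-- a prepared record with a parent and a residual -/
structure KsPt (v : KbVer) where
  R : KsRef v
  A : R.Par
  E : Set (R.L × ℝ)

/-- the junk record (used at the stages outside the good set of the ultrafilter) -/
def ksqJunk (v : KbVer) (N : ℝ) (p : KpPrm) : KsPt v where
  R :=
    { L := Empty
      mL := ⊤
      N := N
      prm := p
      co := fun l => l.elim
      Sp := ∅
      ν := 0
      Ev0 := ∅
      Par := Unit
      Hist := Unit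
      Lab := Empty
      Ent := Empty
      fPar := inferInstance
      fHist := inferInstance
      fLab := inferInstance
      fEnt := inferInstance
      par := fun _ => ()
      nat := fun _ _ _ _ => 0
      hist := fun _ => ()
      χ := 1
      pal := fun _ => 0
      ref := fun _ => 0
      depths := ∅
      widths := ∅
      meshes := ∅
      ord := 0
      dep := fun _ => 0
      lpar := fun _ => ()
      asg := fun _ => ∅
      lev := fun _ => 0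
      iv := fun _ => 0
      ch := fun q => q.elim
      eLab := fun e => e.elim
      eCtr := fun _ => 0
      eRad := fun _ => 0
      eKind := fun _ => KsKind.centre
      eG := fun _ _ => 0
      ent := fun _ x => x.1.elim }
  A := ()
  E := ∅

/-- **the diagonal of stages**: if every stage `m` is eventually realised, there are `κ → ∞` and ONE sequence of records which realises the stage `κ n` at `n` -/
theorem ksq_diag (N : ℕ → ℝ) (p : KpPrm) (St : ℕ → ℕ → KsPt v → Prop) (hN : ∀ n m b, St n m b → b.R.N = N n ∧ b.R.prm = p)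
    (hex : ∀ m, ∀ᶠ n in uf, ∃ b, St n m b) :
    ∃ (κ : ℕ → ℕ) (B : ℕ → KsPt v), Tendsto κ uf atTop ∧ (∀ n, (B n).R.N = N n) ∧ (∀ n, (B n).R.prm = p) ∧ ∀ᶠ n in uf, St n (κ n) (B n) := by
  classical
  obtain ⟨κ, hκ, hg⟩ := Claimed.Agent.R255.ulim_diag (fun m n => ∃ b, St n m b) hex
  refine ⟨κ, fun n => if h : ∃ b, St n (κ n) b then h.choose else ksqJunk v (N n) p, hκ, ?_, ?_, ?_⟩
  · intro n
    by_cases h : ∃ b, St n (κ n) b
    · simp only [dif_pos h]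
      exact (hN _ _ _ h.choose_spec).1
    · simp only [dif_neg h]
      rfl
  · intro n
    by_cases h : ∃ b, St n (κ n) b
    · simp only [dif_pos h]
      exact (hN _ _ _ h.choose_spec).2
    · simp only [dif_neg h]
      rfl
  · filter_upwards [hg] with n h
    simp only [dif_pos h]
    exact h.choose_spec

/-- **what one stage delivers** (common part); `Cd` = the candidates of the section -/
structure KsqSt (Cd : ∀ b : KsPt v, ℝ → ℝ → b.R.Lab → Prop) (p : KpPrm) (X : KpTan v) (Rs : X.P.W → Set (X.P.Lam × ℝ)) (G : KsReq) (τ : ℝ) (b : KsPt v) : Prop where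
  N : b.R.N = X.N
  has : b.R.Has p G
  ok : b.R.Ok (X.N ^ τ)
  one : b.R.One b.A
  back : ∀ (Q : b.R.Lab) (c K : ℝ), 1 ≤ K → Cd b K c Q → X.Cand p Rs (b.R.dep Q + τ) c c (K * X.N ^ ((1 + p.ell) * τ))

/-- the tolerance of the stage `m` -/
def ksqT (m : ℕ) : ℝ := 1 / ((m : ℝ) + 1)

theorem ksq_T_pos (m : ℕ) : 0 < ksqT m := by unfold ksqT; positivity

theorem ksq_T_ev {κ : ℕ → ℕ} (hκ : Tendsto κ uf atTop) {τ : ℝ} (hτ : 0 < τ) : ∀ᶠ n in uf, ksqT (κ n) ≤ τ :=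
  (kb_slow_tend hκ).eventually (eventually_le_nhds hτ)

/-- the records of the diagonal are prepared records with rich lists -/
theorem ksq_seq_ok {Cd : ∀ b : KsPt v, ℝ → ℝ → b.R.Lab → Prop} {p : KpPrm} (R : KbRes) (X : ℕ → KpTan v) (hN : ∀ n, (X n).N = R.N n)
    (Rs : ∀ n, (X n).P.W → Set ((X n).P.Lam × ℝ)) (e : ℕ → ℝ) {κ : ℕ → ℕ} (hκ : Tendsto κ uf atTop) (B : ℕ → KsPt v)
    (hBN : ∀ n, (B n).R.N = R.N n) (hBp : ∀ n, (B n).R.prm = p)
    (hSt : ∀ᶠ n in uf, KsqSt Cd p (X n) (Rs n) (ksqReq e (κ n)) (ksqT (κ n)) (B n)) {EE : Set ℝ} (hEE : EE ⊆ Set.range e) :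
    KsSeqOk R (fun n => (B n).R) p EE := by
  refine ⟨hBN, hBp, ?_, ?_, ?_, ?_, ?_, ?_⟩
  · intro τ hτ
    filter_upwards [hSt, ksq_T_ev hκ hτ] with n h1 h2
    refine ks_ok_mono h1.ok ?_
    rw [hN n]
    exact Real.rpow_le_rpow_of_exponent_le (kb_res_one_le R n) h2
  · intro x hx h0
    obtain ⟨i, rfl⟩ := hEE hx
    filter_upwards [hSt, hκ.eventually_gt_atTop i] with n h1 h2
    show e i ∈ (B n).R.depths
    rw [h1.has.depths]
    exact ksq_req_pos e h2 h0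
  · intro x hx h0
    obtain ⟨i, rfl⟩ := hEE hx
    filter_upwards [hSt, hκ.eventually_gt_atTop i] with n h1 h2
    show e i ∈ (B n).R.widths
    rw [h1.has.widths]
    exact (ksq_req_nonneg e h2 h0).1
  · intro x hx h0
    obtain ⟨i, rfl⟩ := hEE hx
    filter_upwards [hSt, hκ.eventually_gt_atTop i] with n h1 h2
    show e i ∈ (B n).R.meshes
    rw [h1.has.meshes]
    exact (ksq_req_nonneg e h2 h0).2
  · intro m
    filter_upwards [hSt, hκ.eventually_ge_atTop m] with n h1 h2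
    show m ≤ (B n).R.ord
    rw [h1.has.ord]
    exact h2.trans (Nat.le_succ _)
  · intro U
    obtain ⟨m, hm⟩ := exists_nat_ge U
    filter_upwards [hSt, hκ.eventually_ge_atTop m] with n h1 h2
    show (B n).R.χ ≤ _
    rw [h1.has.χ, hBN n]
    refine Real.rpow_le_rpow_of_exponent_le (kb_res_one_le R n) ?_
    have h3 : (m : ℝ) ≤ (κ n : ℝ) := Nat.cast_le.2 h2
    show -((κ n : ℕ) : ℝ) ≤ -U
    linarith

/-- candidates of the diagonal go back to the tangent data -/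
theorem ksq_finish {Cd : ∀ b : KsPt v, ℝ → ℝ → b.R.Lab → Prop} {p : KpPrm} (hp : p.Ok) (R : KbRes) (X : ℕ → KpTan v) (hN : ∀ n, (X n).N = R.N n)
    (Rs : ∀ n, (X n).P.W → Set ((X n).P.Lam × ℝ)) (G : ℕ → KsReq) {κ : ℕ → ℕ} (hκ : Tendsto κ uf atTop) (B : ℕ → KsPt v)
    (hSt : ∀ᶠ n in uf, KsqSt Cd p (X n) (Rs n) (G (κ n)) (ksqT (κ n)) (B n)) {c₀ C₀ D₀ : ℝ}
    (hc : ∀ τ₁ : ℝ, 0 < τ₁ → ∀ᶠ n in uf, ∃ (Q : (B n).R.Lab) (c : ℝ), (B n).R.dep Q ≤ D₀ ∧ c₀ ≤ c ∧ c ≤ C₀ ∧ Cd (B n) (R.N n ^ τ₁) c Q) :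
    ∃ K : ℕ → ℝ, KbSubP R K ∧ ∀ᶠ n in uf, (X n).Cand p (Rs n) (D₀ + 1) c₀ C₀ (K n) := by
  have hell : 0 < 1 + p.ell := by linarith [hp.ell_nonneg]
  obtain ⟨τ, -, -, hs, hp'⟩ := kb_slow R (fun n τ => (X n).Cand p (Rs n) (D₀ + 1) c₀ C₀ (R.N n ^ τ)) (by
    intro τ₂ hτ₂
    filter_upwards [hSt, hc (τ₂ / 2) (by positivity), ksq_T_ev hκ one_pos, ksq_T_ev hκ (show 0 < τ₂ / (2 * (1 + p.ell)) by positivity)] with n h1 h2 h3 h4
    obtain ⟨Q, c, hD, h0, h1', hcd⟩ := h2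
    have hN1 : 1 ≤ R.N n := kb_res_one_le R n
    have hN0 : 0 < R.N n := kb_res_pos R n
    have hb := h1.back Q c _ (Real.one_le_rpow hN1 (by positivity)) hcd
    have hb' := ksq_cand_range hb (show _ ≤ D₀ + 1 by linarith) h0 h1'
    refine ks_cand_mono (by rw [hN n]; exact R.two_le n) (by rw [hN n]; positivity) ?_ hb'
    rw [hN n, ← Real.rpow_add hN0]
    refine Real.rpow_le_rpow_of_exponent_le hN1 ?_
    have h5 : (1 + p.ell) * ksqT (κ n) ≤ (1 + p.ell) * (τ₂ / (2 * (1 + p.ell))) := mul_le_mul_of_nonneg_left h4 hell.le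
    have h6 : (1 + p.ell) * (τ₂ / (2 * (1 + p.ell))) = τ₂ / 2 := by field_simp
    linarith)
  exact ⟨_, hs, hp'⟩

/-! ## 4. The stage of Secs 7 + 8 -/

/-- the candidates of Secs 7 + 8 -/
def ksqCdS (b : KsPt KbVer.two) (K c : ℝ) (Q : b.R.Lab) : Prop :=
  (∃ P Cn, KsTimeCand b.R b.E K c Q P Cn) ∨ ∃ ρ Cn, KsStripCand b.R b.E K c Q ρ Cn

/-- the candidates of Sec 6 -/
def ksqCdT (b : KsPt v) (K c : ℝ) (Q : b.R.Lab) : Prop := ∃ P Cn, KsTimeCand b.R b.E K c Q P Cn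

theorem ksq_has_loc {R : KsRef v} {p : KpPrm} {G : KsReq} (h : R.Has p G) (A : R.Par) : (R.loc A).Has p G :=
  ⟨h.prm, h.depths, h.widths, h.meshes, h.ord, h.χ⟩

theorem ksq_tilt_loc {R : KsRef KbVer.two} {K : ℝ} (h : R.Tilt K) (A : R.Par) : (R.loc A).Tilt K :=
  ⟨h.ell_pos, h.tri, h.full, h.cen⟩

/-- a time candidate of the localised prepared record is a candidate of the tangent data -/
theorem ksq_back_time {X : KpTan v} {p : KpPrm} {Z : KsPrep X} {τ' τ ε K₀ : ℝ} (hp : p.Ok) (hX : X.Ok p τ') (hZ : Z.Fits τ ε) (hR : (X.prep p Z).Ok K₀)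
    {Rs : X.P.W → Set (X.P.Lam × ℝ)} (hRs : X.Res Rs) (A : (X.prep p Z).Par) (hA : (X.prep p Z).pA A ≠ 0) {K c : ℝ} (hK : 1 ≤ K) {Q : (X.prep p Z).Lab} {P : KbTest v}
    {Cn : Set ((X.prep p Z).L × ℝ)}
    (hc : KsTimeCand ((X.prep p Z).loc A) (ksSel X (fun γ => Rs γ ∩ Z.Ev0 γ) ∩ {q | (X.prep p Z).par q.1 = A}) K c Q P Cn) :
    X.Cand p Rs ((X.prep p Z).dep Q + τ) c c (K * X.N ^ ((1 + p.ell) * τ)) := by
  have h1 : KsTimeCand (X.prep p Z) (ksSel X Rs) K c Q P Cn := ksq_time_sub (ks_time_of_loc hR A hA hc) fun q hq => hq.1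
  have h2 := ks_time_back hX hZ hR hRs hK h1
  have hd := hZ.nd_dep _ Q.1.2
  have hτ : 0 ≤ τ := (abs_nonneg _).trans hd
  have hN1 : 1 ≤ X.N := by linarith [hX.N_two]
  have hN0 : 0 < X.N := by linarith
  refine ks_cand_mono hX.N_two (by positivity) ?_ (⟨Z.nd Q.1, hZ.nd_le _ Q.1.2, ?_, Q.2, c, le_rfl, le_rfl, Or.inl h2⟩ : X.Cand p Rs _ c c (K * X.N ^ τ))
  · refine mul_le_mul_of_nonneg_left (Real.rpow_le_rpow_of_exponent_le hN1 ?_) (by linarith)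
    nlinarith [hp.ell_nonneg]
  · have := (abs_le.1 hd).2
    show X.dep (Z.nd Q.1) ≤ (Q.1 : ℝ) + τ
    linarith

/-- a strip candidate of the localised prepared record is a candidate of the tangent data -/
theorem ksq_back_strip {X : KpTan KbVer.two} {p : KpPrm} {Z : KsPrep X} {τ' τ ε K₀ : ℝ} (hell : 0 < p.ell) (hX : X.Ok p τ') (hZ : Z.Fits τ ε) (hR : (X.prep p Z).Ok K₀)
    {Rs : X.P.W → Set (X.P.Lam × ℝ)} (hRs : X.Res Rs) (A : (X.prep p Z).Par) (hA : (X.prep p Z).pA A ≠ 0) {K c : ℝ} (hK : 1 ≤ K) {Q : (X.prep p Z).Lab} {ρ : Fin 2 → ℝ}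
    {Cn : Set ((X.prep p Z).L × ℝ)}
    (hc : KsStripCand ((X.prep p Z).loc A) (ksSel X (fun γ => Rs γ ∩ Z.Ev0 γ) ∩ {q | (X.prep p Z).par q.1 = A}) K c Q ρ Cn) :
    X.Cand p Rs ((X.prep p Z).dep Q + τ) c c (K * X.N ^ ((1 + p.ell) * τ)) := by
  have h1 : KsStripCand (X.prep p Z) (ksSel X Rs) K c Q ρ Cn := ksq_strip_sub (ks_strip_of_loc hR A hA hc) fun q hq => hq.1
  have h2 := ks_strip_back hX hZ hR hRs hK h1
  have hd := hZ.nd_dep _ Q.1.2
  have hτ : 0 ≤ τ := (abs_nonneg _).trans hd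
  have hN1 : 1 ≤ X.N := by linarith [hX.N_two]
  have hN0 : 0 < X.N := by linarith
  refine ks_cand_mono hX.N_two (by positivity) ?_ (⟨Z.nd Q.1, hZ.nd_le _ Q.1.2, ?_, Q.2, c, le_rfl, le_rfl, Or.inr ⟨hell, h2⟩⟩ : X.Cand p Rs _ c c (K * X.N ^ (p.ell * τ)))
  · refine mul_le_mul_of_nonneg_left (Real.rpow_le_rpow_of_exponent_le hN1 ?_) (by linarith)
    nlinarith
  · have := (abs_le.1 hd).2
    show X.dep (Z.nd Q.1) ≤ (Q.1 : ℝ) + τ
    linarith

/-- **one stage, Secs 7 + 8**: preparation + typical parent -/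
theorem ksq_step_tilt {X : KpTan KbVer.two} {p : KpPrm} {Z : KsPrep X} {G : KsReq} {τ' τ ε η : ℝ} (hp : p.Ok) (hell : 0 < p.ell) (hX : X.Ok p τ') (hH : (X.prep p Z).Has p G)
    (hR : (X.prep p Z).Ok (X.N ^ τ)) (hT : (X.prep p Z).Tilt (X.N ^ τ)) (hZ : Z.Fits τ ε) (hε : ε < η) (hε0 : 0 ≤ ε)
    {Rs : X.P.W → Set (X.P.Lam × ℝ)} (hRs : X.Res Rs) (hm : ENNReal.ofReal η * X.P.tot ≤ X.P.mass Rs) :
    ∃ b : KsPt KbVer.two, KsqSt ksqCdS p X Rs G τ b ∧ b.R.Tilt (X.N ^ τ) ∧ KsCur b.R b.E (X.N ^ τ' / (η - ε)) := by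
  obtain ⟨A, hA, hcur⟩ := ks_typical_parent hR (ks_tan_cur hX hZ hR hε hε0 hRs hm)
  refine ⟨⟨(X.prep p Z).loc A, A, ksSel X (fun γ => Rs γ ∩ Z.Ev0 γ) ∩ {q | (X.prep p Z).par q.1 = A}⟩, ⟨rfl, ksq_has_loc hH A, ks_ok_loc hR A hA, ks_one_loc hR A hA, ?_⟩,
    ksq_tilt_loc hT A, hcur⟩
  rintro Q c K hK (⟨P, Cn, hc⟩ | ⟨ρ, Cn, hc⟩)
  · exact ksq_back_time hp hX hZ hR hRs A hA hK hc
  · exact ksq_back_strip hell hX hZ hR hRs A hA hK hc
/-- **GLUE, Secs 7 + 8** -/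
theorem ks_seq_exit_tilt {p : KpPrm} (hp : p.Ok) (hell : 0 < p.ell) (hL : KsSeqTilt p) (R : KbRes) (X : ℕ → KpTan KbVer.two) (hX : KpSeqOk R X p) :
    KpCandHyp R X p := by
  obtain ⟨EE, hEEc, hL⟩ := hL
  rintro Rs ⟨hRes, η₀, hη₀, hmass⟩
  obtain ⟨e, he⟩ := (hEEc.union (Set.countable_singleton (1 : ℝ))).exists_eq_range ⟨1, Or.inr rfl⟩
  have hEE : EE ⊆ Set.range e := he ▸ Set.subset_union_left
  -- the stages
  obtain ⟨κ, B, hκ, hBN, hBp, hSt⟩ := ksq_diag (v := KbVer.two) R.N p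
    (fun n m b => KsqSt ksqCdS p (X n) (Rs n) (ksqReq e m) (ksqT m) b ∧ b.R.Tilt ((X n).N ^ ksqT m) ∧ KsCur b.R b.E ((X n).N ^ (2 * ksqT m)))
    (fun n m b h => ⟨h.1.N.trans (hX.1 n), h.1.has.prm⟩) (by
      intro m
      obtain ⟨τ', hτ', N₁, hub⟩ := ks_prep_tilt p hp hell (ksqReq e m) (ksq_req_ok e m) (ksqT m) (η₀ / 2) (ksq_T_pos m) (by positivity)
      filter_upwards [hX.2 τ' hτ', hX.2 (ksqT m) (ksq_T_pos m), R.lim.eventually_ge_atTop N₁, hmass,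
        (kb_rpow_tendsto R (ksq_T_pos m)).eventually_ge_atTop (2 / η₀)] with n h1 h2 h3 h4 h5
      obtain ⟨Z, hH, hR, hT, hZ⟩ := hub (X n) h1 (by rw [hX.1 n]; exact h3)
      obtain ⟨b, hb1, hb2, hb3⟩ := ksq_step_tilt hp hell h2 hH hR hT hZ (by linarith : η₀ / 2 < η₀) (by positivity) (hRes n) h4
      refine ⟨b, hb1, hb2, ksq_cur_mono hb3 ?_⟩
      rw [hX.1 n, two_mul, Real.rpow_add (kb_res_pos R n)]
      have h6 : 0 < R.N n ^ ksqT m := Real.rpow_pos_of_pos (kb_res_pos R n) _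
      have h7 : η₀ - η₀ / 2 = η₀ / 2 := by ring
      rw [h7, div_eq_mul_inv]
      refine mul_le_mul_of_nonneg_left ?_ h6.le
      rw [inv_div]
      exact h5)
  obtain ⟨c₀, C₀, D₀, hc₀, hcand⟩ := hL R (fun n => (B n).R) (fun n => (B n).A) (fun n => (B n).E)
    (ksq_seq_ok R X hX.1 Rs e hκ B hBN hBp (hSt.mono fun n h => h.1) hEE)
    (by
      intro τ hτ
      filter_upwards [hSt, ksq_T_ev hκ hτ] with n h1 h2
      refine ksq_tilt_mono h1.2.1 ?_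
      rw [hX.1 n]
      exact Real.rpow_le_rpow_of_exponent_le (kb_res_one_le R n) h2)
    (hSt.mono fun n h => h.1.one)
    (by
      intro τ hτ
      filter_upwards [hSt, ksq_T_ev hκ (show 0 < τ / 2 by positivity)] with n h1 h2
      refine ksq_cur_mono h1.2.2 ?_
      rw [hX.1 n]
      exact Real.rpow_le_rpow_of_exponent_le (kb_res_one_le R n) (by linarith))
  obtain ⟨K, hK, hfin⟩ := ksq_finish hp R X hX.1 Rs (ksqReq e) hκ B (hSt.mono fun n h => h.1) (c₀ := c₀) (C₀ := C₀) (D₀ := D₀) hcand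
  exact ⟨D₀ + 1, c₀, C₀, K, hc₀, hK, hfin⟩

/-! ## 5. The stage of Sec 6 -/

/-- pigeonhole over the parents: a parent with a substantial residual AND a prepared mass comparable to its weight -/
theorem ksq_pigeon {ι : Type*} [Fintype ι] (x m w : ι → ℝ≥0∞) (a k T : ℝ≥0∞) (hxm : ∀ i, x i ≤ m i) (hw0 : ∀ i, w i = 0 → x i = 0) (hw : ∑ i, w i ≤ 1)
    (hm : ∑ i, m i ≤ T) (h : a * T + k < ∑ i, x i) : ∃ i, w i ≠ 0 ∧ a * m i ≤ x i ∧ k * w i ≤ m i := by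
  by_contra hcon
  push Not at hcon
  have h1 : ∀ i, x i ≤ a * m i + k * w i := by
    intro i
    by_cases h0 : w i = 0
    · rw [hw0 i h0]
      exact zero_le
    · by_cases h2 : a * m i ≤ x i
      · exact (hxm i).trans ((hcon i h0 h2).le.trans le_add_self)
      · exact (not_le.1 h2).le.trans le_self_add
  have h2 : ∑ i, x i ≤ a * T + k := by
    calc ∑ i, x i ≤ ∑ i, (a * m i + k * w i) := Finset.sum_le_sum fun i _ => h1 i
      _ = a * ∑ i, m i + k * ∑ i, w i := by rw [Finset.sum_add_distrib, Finset.mul_sum, Finset.mul_sum]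
      _ ≤ a * T + k * 1 := by gcongr
      _ = a * T + k := by rw [mul_one]
  exact absurd h (not_lt.2 h2)

/-- the part of a substantial residual which survives the preparation -/
theorem ksq_res_mass {X : KpTan v} {Z : KsPrep X} {τ ε η : ℝ} (hwf : X.P.WF) (hZ : Z.Fits τ ε) (hε : ε ≤ η) (hε0 : 0 ≤ ε)
    {Rs : X.P.W → Set (X.P.Lam × ℝ)} (hRs : X.Res Rs) (hm : ENNReal.ofReal η * X.P.tot ≤ X.P.mass Rs) :
    ENNReal.ofReal (η - ε) * X.P.tot ≤ X.P.mass (fun γ => Rs γ ∩ Z.Ev0 γ) := by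
  have hηε : 0 ≤ η - ε := by linarith
  have hT : X.P.tot ≠ ∞ := ne_top_of_le_ne_top ENNReal.one_ne_top (kst_tot_le hwf)
  have h1 : X.P.mass Rs ≤ X.P.mass (fun γ => Rs γ ∩ Z.Ev0 γ) + X.P.mass (fun γ => X.P.Ev γ \ Z.Ev0 γ) := by
    unfold KbPb.mass
    rw [← Finset.sum_add_distrib]
    refine Finset.sum_le_sum fun γ _ => ?_
    rw [← mul_add]
    have h2 : X.P.mu γ (Rs γ) ≤ X.P.mu γ (Rs γ ∩ Z.Ev0 γ) + X.P.mu γ (X.P.Ev γ \ Z.Ev0 γ) := by
      refine le_trans (measure_mono ?_) (measure_union_le _ _)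
      intro x hx
      by_cases h : x ∈ Z.Ev0 γ
      · exact Or.inl ⟨hx, h⟩
      · exact Or.inr ⟨(hRs γ).2 hx, h⟩
    gcongr
  have h3 : ENNReal.ofReal (η - ε) * X.P.tot + ENNReal.ofReal ε * X.P.tot
      ≤ X.P.mass (fun γ => Rs γ ∩ Z.Ev0 γ) + ENNReal.ofReal ε * X.P.tot := by
    rw [← add_mul, ← ENNReal.ofReal_add hηε hε0, sub_add_cancel]
    exact hm.trans (h1.trans (add_le_add le_rfl hZ.loss))
  exact ENNReal.le_of_add_le_add_right (ENNReal.mul_ne_top ENNReal.ofReal_ne_top hT) h3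

theorem ksq_m0_loc {R : KsRef v} {K : ℝ} (hR : R.Ok K) (A : R.Par) : R.pA A * (R.loc A).m0 A = R.m0 A := by
  have h5 := ks_prior_loc hR A (R.Ev0 ∩ {x | R.par x.1 = A}) Set.inter_subset_right
  have e : (R.loc A).Ev0 ∩ {x | (R.loc A).par x.1 = A} = R.Ev0 ∩ {x | R.par x.1 = A} := by
    show (R.Ev0 ∩ {x | R.par x.1 = A}) ∩ {x | R.par x.1 = A} = R.Ev0 ∩ {x | R.par x.1 = A}
    rw [Set.inter_assoc, Set.inter_self]
  unfold KsRef.m0
  rw [e]
  exact h5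

/-- **one stage, Sec 6**: preparation with breadth + a parent with a substantial residual -/
theorem ksq_step_brd {X : KpTan v} {p : KpPrm} {Z : KsPrep X} {G : KsReq} {τ' τ ε η κ u : ℝ} (hp : p.Ok) (hX : X.Ok p τ') (hH : (X.prep p Z).Has p G)
    (hR : (X.prep p Z).Ok (X.N ^ τ)) (hBr : (X.prep p Z).Brd κ u ε) (hZ : Z.Fits τ ε) (hη : 0 < η) (hε : ε ≤ η / 2) (hε0 : 0 ≤ ε)
    {Rs : X.P.W → Set (X.P.Lam × ℝ)} (hRs : X.Res Rs) (hm : ENNReal.ofReal η * X.P.tot ≤ X.P.mass Rs) :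
    ∃ b : KsPt v, KsqSt ksqCdT p X Rs G τ b ∧ b.R.Brd κ u ε ∧ KsSub b.R b.A b.E (η / 8) (X.N ^ τ' * (8 / η)) := by
  classical
  have hN0 : 0 < X.N := by linarith [hX.N_two]
  have hEv0m : ∀ γ, MeasurableSet (Z.Ev0 γ) := fun γ => kst_meas_slice X (ksSel X Z.Ev0) hR.m_Ev0 γ
  have hRes' : X.Res (fun γ => Rs γ ∩ Z.Ev0 γ) := fun γ => ⟨(hRs γ).1.inter (hEv0m γ), fun x hx => (hRs γ).2 hx.1⟩
  have hRes0 : X.Res Z.Ev0 := fun γ => ⟨hEv0m γ, hZ.sub γ⟩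
  have hlab := ksl5_lab_par hR
  have hprob := hR.prob
  have hT : X.P.tot ≠ ∞ := ne_top_of_le_ne_top ENNReal.one_ne_top (kst_tot_le hX.wf)
  have hT0 : X.P.tot ≠ 0 := by
    intro h0
    have := hX.ntv.mass
    rw [h0, mul_zero] at this
    exact absurd this (by norm_num)
  have hsumw : ∑ A, (X.prep p Z).pA A = 1 := by
    have := ks_mass_sum (X.prep p Z).ν hR.m_par
    rw [measure_univ] at this
    exact this
  have hsumx : ∑ A, (X.prep p Z).prior (ksSel X (fun γ => Rs γ ∩ Z.Ev0 γ) ∩ {q | (X.prep p Z).par q.1 = A}) = X.P.mass (fun γ => Rs γ ∩ Z.Ev0 γ) :=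
    (ks_sum_inter (X.prep p Z).prior hlab _).trans (ks_tan_prior p Z hX.wf _ hRes')
  have hsumm : ∑ A, (X.prep p Z).m0 A ≤ X.P.tot := by
    have h1 : ∑ A, (X.prep p Z).m0 A = X.P.mass Z.Ev0 := (ks_sum_inter (X.prep p Z).prior hlab _).trans (ks_tan_prior p Z hX.wf _ hRes0)
    rw [h1]
    unfold KbPb.tot KbPb.mass
    exact Finset.sum_le_sum fun γ _ => mul_le_mul' le_rfl (measure_mono (Set.subset_univ _))
  have hk : ENNReal.ofReal (η / 8 * X.N ^ (-τ')) ≤ ENNReal.ofReal (η / 8) * X.P.tot := by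
    rw [ENNReal.ofReal_mul (by positivity)]
    refine mul_le_mul' le_rfl ?_
    calc ENNReal.ofReal (X.N ^ (-τ')) = ENNReal.ofReal (X.N ^ (-τ')) * 1 := (mul_one _).symm
      _ ≤ ENNReal.ofReal (X.N ^ (-τ')) * (ENNReal.ofReal (X.N ^ τ') * X.P.tot) := mul_le_mul' le_rfl hX.ntv.mass
      _ = X.P.tot := by
        rw [← mul_assoc, ← ENNReal.ofReal_mul (by positivity), ← Real.rpow_add hN0, neg_add_cancel, Real.rpow_zero, ENNReal.ofReal_one, one_mul]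
  have hlt : ENNReal.ofReal (η / 8) * X.P.tot + ENNReal.ofReal (η / 8 * X.N ^ (-τ'))
      < ∑ A, (X.prep p Z).prior (ksSel X (fun γ => Rs γ ∩ Z.Ev0 γ) ∩ {q | (X.prep p Z).par q.1 = A}) := by
    rw [hsumx]
    refine lt_of_lt_of_le ?_ (ksq_res_mass hX.wf hZ (by linarith) hε0 hRs hm)
    refine lt_of_le_of_lt (add_le_add le_rfl hk) ?_
    rw [← add_mul, ← ENNReal.ofReal_add (by positivity) (by positivity)]
    exact (ENNReal.mul_lt_mul_iff_left hT0 hT).2 ((ENNReal.ofReal_lt_ofReal_iff (by linarith)).2 (by linarith))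
  obtain ⟨A, hA, hA1, hA2⟩ := ksq_pigeon _ (fun A => (X.prep p Z).m0 A) (fun A => (X.prep p Z).pA A) _ _ _
    (fun A => measure_mono (Set.inter_subset_inter_left _ fun q hq => hq.2))
    (fun A h0 => by
      have := ks_prior_loc hR A (ksSel X (fun γ => Rs γ ∩ Z.Ev0 γ) ∩ {q | (X.prep p Z).par q.1 = A}) Set.inter_subset_right
      rw [← this, h0, zero_mul]) hsumw.le hsumm hlt
  have hAt : (X.prep p Z).pA A ≠ ⊤ := ksl_pA_ne_top hR A
  have hm0 := ksq_m0_loc hR A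
  have hpr := ks_prior_loc hR A (ksSel X (fun γ => Rs γ ∩ Z.Ev0 γ) ∩ {q | (X.prep p Z).par q.1 = A}) Set.inter_subset_right
  refine ⟨⟨(X.prep p Z).loc A, A, ksSel X (fun γ => Rs γ ∩ Z.Ev0 γ) ∩ {q | (X.prep p Z).par q.1 = A}⟩, ⟨rfl, ksq_has_loc hH A, ks_ok_loc hR A hA, ks_one_loc hR A hA, ?_⟩,
    ks_brd_loc hR hBr A hA, ⟨(ks_tan_meas p Z _ fun γ => (hRes' γ).1).inter (hlab A), fun q hq => ⟨⟨hq.1.2, hq.2⟩, hq.2⟩, ?_, ?_⟩⟩
  · rintro Q c K hK ⟨P, Cn, hc⟩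
    exact ksq_back_time hp hX hZ hR hRs A hA hK hc
  · refine (ENNReal.mul_le_mul_iff_right hA hAt).1 ?_
    refine le_trans (le_of_eq ?_) (hA1.trans (le_of_eq hpr.symm))
    rw [← hm0]
    exact mul_left_comm _ _ _
  · have h1 : ENNReal.ofReal (η / 8 * X.N ^ (-τ')) ≤ ((X.prep p Z).loc A).m0 A := by
      refine (ENNReal.mul_le_mul_iff_right hA hAt).1 ?_
      rw [hm0, mul_comm]
      exact hA2
    calc (1 : ℝ≥0∞) = ENNReal.ofReal (X.N ^ τ' * (8 / η)) * ENNReal.ofReal (η / 8 * X.N ^ (-τ')) := by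
          rw [← ENNReal.ofReal_mul (by positivity)]
          have : X.N ^ τ' * (8 / η) * (η / 8 * X.N ^ (-τ')) = (X.N ^ τ' * X.N ^ (-τ')) * ((8 / η) * (η / 8)) := by ring
          rw [this, ← Real.rpow_add hN0, add_neg_cancel, Real.rpow_zero]
          have : (8 / η) * (η / 8) = 1 := by field_simp
          rw [this, mul_one, ENNReal.ofReal_one]
      _ ≤ _ := mul_le_mul' le_rfl h1

/-- **GLUE, Sec 6** -/
theorem ks_seq_exit_brd {p : KpPrm} (hp : p.Ok) (hell : p.ell = 0) (hL : KsSeqBr v p) (R : KbRes) (X : ℕ → KpTan v) (hX : KpSeqOk R X p) (hB : KpBreadth X) :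
    KpCandHyp R X p := by
  obtain ⟨EE, hEEc, hL⟩ := hL
  rintro Rs ⟨hRes, η₀, hη₀, hmass⟩
  obtain ⟨e, he⟩ := (hEEc.union (Set.countable_singleton (1 : ℝ))).exists_eq_range ⟨1, Or.inr rfl⟩
  have hEE : EE ⊆ Set.range e := he ▸ Set.subset_union_left
  -- the stages
  obtain ⟨κ, B, hκ, hBN, hBp, hSt⟩ := ksq_diag (v := v) R.N p
    (fun n m b => KsqSt ksqCdT p (X n) (Rs n) (ksqReq e m) (ksqT m) b ∧ b.R.Brd (ksqT m) (ksqT m) (ksqT m) ∧ KsSub b.R b.A b.E (η₀ / 8) ((X n).N ^ (2 * ksqT m)))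
    (fun n m b h => ⟨h.1.N.trans (hX.1 n), h.1.has.prm⟩) (by
      intro m
      have hεm : 0 < min (ksqT m) (η₀ / 2) := lt_min (ksq_T_pos m) (by positivity)
      obtain ⟨ε', r₀, hε', hub⟩ := ks_prep_brd (v := v) p hp hell (ksqReq e m) (ksq_req_ok e m) (ksqT m) (min (ksqT m) (η₀ / 2)) (ksqT m) (ksqT m) (ksq_T_pos m) hεm
        (ksq_T_pos m) (ksq_T_pos m)
      obtain ⟨τB, hτB, hBr⟩ := hB (ksqT m) (ksqT m) ε' r₀ (ksq_T_pos m) (ksq_T_pos m) hε'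
      obtain ⟨τ', hτ', N₁, hub⟩ := hub τB hτB
      filter_upwards [hX.2 τ' hτ', hX.2 (ksqT m) (ksq_T_pos m), R.lim.eventually_ge_atTop N₁, hmass, hBr,
        (kb_rpow_tendsto R (ksq_T_pos m)).eventually_ge_atTop (8 / η₀)] with n h1 h2 h3 h4 h4' h5
      obtain ⟨Z, hH, hR, hZ, hBrd⟩ := hub (X n) h1 h4' (by rw [hX.1 n]; exact h3)
      obtain ⟨b, hb1, hb2, hb3⟩ := ksq_step_brd hp h2 hH hR hBrd hZ hη₀ (min_le_right _ _) hεm.le (hRes n) h4
      refine ⟨b, hb1, ks_brd_mono hb1.ok hb2 le_rfl le_rfl (min_le_left _ _), ksq_sub_mono hb3 ?_⟩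
      rw [hX.1 n, two_mul, Real.rpow_add (kb_res_pos R n)]
      exact mul_le_mul_of_nonneg_left h5 (Real.rpow_pos_of_pos (kb_res_pos R n) _).le)
  obtain ⟨c₀, C₀, D₀, hc₀, hcand⟩ := hL R (fun n => (B n).R) (fun n => (B n).A) (fun n => (B n).E) (η₀ / 8)
    (ksq_seq_ok R X hX.1 Rs e hκ B hBN hBp (hSt.mono fun n h => h.1) hEE)
    (hSt.mono fun n h => h.1.one)
    (by
      intro κ' u ε hκ' hu hε
      filter_upwards [hSt, ksq_T_ev hκ hκ', ksq_T_ev hκ hu, ksq_T_ev hκ hε] with n h1 h2 h3 h4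
      exact ks_brd_mono h1.1.ok h1.2.1 h2 h3 h4)
    (by positivity)
    (by
      intro τ hτ
      filter_upwards [hSt, ksq_T_ev hκ (show 0 < τ / 2 by positivity)] with n h1 h2
      refine ksq_sub_mono h1.2.2 ?_
      rw [hX.1 n]
      exact Real.rpow_le_rpow_of_exponent_le (kb_res_one_le R n) (by linarith))
  obtain ⟨K, hK, hfin⟩ := ksq_finish hp R X hX.1 Rs (ksqReq e) hκ B (hSt.mono fun n h => h.1) (c₀ := c₀) (C₀ := C₀) (D₀ := D₀) hcand
  exact ⟨D₀ + 1, c₀, C₀, K, hc₀, hK, hfin⟩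

end

end Claimed.Agent.R252
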